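import Mathlib

open Matrix

namespace Vale.Agent.P248

variable {n : ℕ} {ι : Type} [Fintype ι] [DecidableEq ι]

/-- weighted Gram matrix -/
def Hm (a : ι → Fin n → ℝ) (m : ι → ℝ) : Matrix (Fin n) (Fin n) ℝ :=
  ∑ i, m i • vecMulVec (a i) (a i)

omit [DecidableEq ι] in
lemma Hm_apply (a : ι → Fin n → ℝ) (m : ι → ℝ) (k l : Fin n) :
    Hm a m k l = ∑ i, m i * (a i k * a i l) := by
  simp [Hm, Matrix.sum_apply, vecMulVec_apply]

omit [DecidableEq ι] in
lemma Hm_transpose (a : ι → Fin n → ℝ) (m : ι → ℝ) : (Hm a m)ᵀ = Hm a m := by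
  ext k l
  simp [Hm_apply, mul_comm]

omit [DecidableEq ι] in
lemma Hm_mulVec (a : ι → Fin n → ℝ) (m : ι → ℝ) (v : Fin n → ℝ) :
    Hm a m *ᵥ v = ∑ i, (m i * (a i ⬝ᵥ v)) • a i := by
  ext k
  simp only [mulVec, dotProduct, Hm_apply, Finset.sum_apply, Pi.smul_apply, smul_eq_mul,
    Finset.sum_mul, Finset.mul_sum]
  rw [Finset.sum_comm]
  refine Finset.sum_congr rfl fun i _ => Finset.sum_congr rfl fun l _ => by ring

omit [DecidableEq ι] in
lemma Hm_quad (a : ι → Fin n → ℝ) (m : ι → ℝ) (v : Fin n → ℝ) :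
    v ⬝ᵥ (Hm a m *ᵥ v) = ∑ i, m i * (a i ⬝ᵥ v) ^ 2 := by
  rw [Hm_mulVec, dotProduct_sum]
  refine Finset.sum_congr rfl fun i _ => ?_
  rw [dotProduct_smul, dotProduct_comm v, smul_eq_mul]; ring

omit [DecidableEq ι] in
lemma Hm_psd (a : ι → Fin n → ℝ) {m : ι → ℝ} (hm : ∀ i, 0 ≤ m i) : (Hm a m).PosSemidef := by
  unfold Hm
  apply posSemidef_sum
  intro i _
  have := posSemidef_vecMulVec_self_star (a i)
  simp only [star_trivial] at this
  exact this.smul (hm i)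

omit [DecidableEq ι] in
lemma Hm_det_nonneg (a : ι → Fin n → ℝ) {m : ι → ℝ} (hm : ∀ i, 0 ≤ m i) : 0 ≤ (Hm a m).det :=
  (Hm_psd a hm).det_nonneg

lemma Hm_add_single (a : ι → Fin n → ℝ) (m : ι → ℝ) (k : ι) (t : ℝ) :
    Hm a (m + t • Pi.single k (1 : ℝ)) = Hm a m + t • vecMulVec (a k) (a k) := by
  unfold Hm
  simp only [Pi.add_apply, add_smul, Finset.sum_add_distrib]
  congr 1
  rw [Finset.sum_eq_single k]
  · simp
  · intro b _ hb; simp [hb]
  · simp

lemma adj_rank_one (M : Matrix (Fin n) (Fin n) ℝ) (u v : Fin n → ℝ) (t : ℝ) :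
    adjugate (M + t • vecMulVec u v) *ᵥ u = adjugate M *ᵥ u := by
  rw [← cramer_eq_adjugate_mulVec, ← cramer_eq_adjugate_mulVec]
  ext i
  rw [cramer_apply, cramer_apply, ← det_transpose, ← det_transpose (M.updateCol i u)]
  refine det_eq_of_forall_row_eq_smul_add_const
    (fun j => if j = i then 0 else t * v j) i (by simp) ?_
  intro j k
  by_cases h : j = i
  · subst h; simp
  · simp [h, vecMulVec_apply]; ring

omit [DecidableEq ι] in
lemma adj_symm (a : ι → Fin n → ℝ) (m : ι → ℝ) (u v : Fin n → ℝ) :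
    u ⬝ᵥ (adjugate (Hm a m) *ᵥ v) = v ⬝ᵥ (adjugate (Hm a m) *ᵥ u) := by
  rw [dotProduct_mulVec, ← mulVec_transpose, adjugate_transpose, Hm_transpose, dotProduct_comm]

lemma adj_const (a : ι → Fin n → ℝ) (m : ι → ℝ) (k : ι) (t : ℝ) (b : Fin n → ℝ) :
    a k ⬝ᵥ (adjugate (Hm a (m + t • Pi.single k (1 : ℝ))) *ᵥ b) =
      a k ⬝ᵥ (adjugate (Hm a m) *ᵥ b) := by
  rw [adj_symm, adj_symm a m, Hm_add_single, adj_rank_one]

omit [DecidableEq ι] in
lemma trace_adj (a : ι → Fin n → ℝ) (m : ι → ℝ) :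
    ∑ i, m i * (a i ⬝ᵥ (adjugate (Hm a m) *ᵥ a i)) = n * (Hm a m).det := by
  have h : (adjugate (Hm a m) * Hm a m).trace = n * (Hm a m).det := by
    rw [adjugate_mul]; simp [mul_comm]
  rw [← h]
  conv_rhs => rw [show adjugate (Hm a m) * Hm a m =
    ∑ i, m i • (adjugate (Hm a m) * vecMulVec (a i) (a i)) by
      conv_lhs => rw [show Hm a m = ∑ i, m i • vecMulVec (a i) (a i) from rfl]
      rw [Finset.mul_sum]
      refine Finset.sum_congr rfl fun i _ => ?_
      rw [Matrix.mul_smul]; rfl]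
  rw [trace_sum]
  refine Finset.sum_congr rfl fun i _ => ?_
  rw [trace_smul, mul_vecMulVec, trace_vecMulVec, smul_eq_mul, dotProduct_comm]

omit [DecidableEq ι] in
lemma contDiff_adj (a : ι → Fin n → ℝ) (k l : Fin n) :
    ContDiff ℝ 1 (fun m : ι → ℝ => adjugate (Hm a m) k l) := by
  simp only [adjugate_apply, det_apply', updateRow_apply, Hm_apply]
  refine ContDiff.sum fun s _ => ContDiff.mul contDiff_const ?_
  refine contDiff_prod fun j _ => ?_
  by_cases h : s j = l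
  · simp only [h, if_true]; exact contDiff_const
  · simp only [h, if_false]
    refine ContDiff.sum fun i _ => ContDiff.mul (contDiff_apply ℝ ℝ i) contDiff_const

omit [DecidableEq ι] in
lemma contDiff_adjv (a : ι → Fin n → ℝ) (b : Fin n → ℝ) (l : Fin n) :
    ContDiff ℝ 1 (fun m : ι → ℝ => (adjugate (Hm a m) *ᵥ b) l) := by
  simp only [mulVec, dotProduct]
  exact ContDiff.sum fun k _ => (contDiff_adj a l k).mul contDiff_const

omit [DecidableEq ι] in
lemma continuous_det_Hm (a : ι → Fin n → ℝ) : Continuous (fun m : ι → ℝ => (Hm a m).det) := by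
  apply Continuous.matrix_det
  refine continuous_matrix fun k l => ?_
  simp only [Hm_apply]
  fun_prop

/-- the Piola identity -/
lemma piola (a : ι → Fin n → ℝ) (m : ι → ℝ) (k : ι) (b : Fin n → ℝ) :
    ∑ l, a k l * fderiv ℝ (fun m : ι → ℝ => (adjugate (Hm a m) *ᵥ b) l) m (Pi.single k 1) = 0 := by
  have hd : ∀ l, HasFDerivAt (fun m : ι → ℝ => (adjugate (Hm a m) *ᵥ b) l)
      (fderiv ℝ (fun m : ι → ℝ => (adjugate (Hm a m) *ᵥ b) l) m) m := fun l =>
    (((contDiff_adjv a b l).differentiable (by simp)) m).hasFDerivAt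
  have hl : HasDerivAt (fun t : ℝ => m + t • Pi.single k (1 : ℝ)) (Pi.single k (1 : ℝ)) 0 := by
    simpa using ((hasDerivAt_id (0 : ℝ)).smul_const (Pi.single k (1 : ℝ) : ι → ℝ)).const_add m
  have h1 : ∀ l, HasDerivAt (fun t : ℝ => (adjugate (Hm a (m + t • Pi.single k (1 : ℝ))) *ᵥ b) l)
      (fderiv ℝ (fun m : ι → ℝ => (adjugate (Hm a m) *ᵥ b) l) m (Pi.single k 1)) 0 := by
    intro l
    have := HasFDerivAt.comp_hasDerivAt_of_eq (0 : ℝ) (hd l) hl (by simp)
    exact this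
  have h2 : HasDerivAt (fun t : ℝ => ∑ l, a k l *
      (adjugate (Hm a (m + t • Pi.single k (1 : ℝ))) *ᵥ b) l)
      (∑ l, a k l * fderiv ℝ (fun m : ι → ℝ => (adjugate (Hm a m) *ᵥ b) l) m (Pi.single k 1)) 0 :=
    HasDerivAt.fun_sum fun l _ => (h1 l).const_mul _
  have h3 : (fun t : ℝ => ∑ l, a k l *
      (adjugate (Hm a (m + t • Pi.single k (1 : ℝ))) *ᵥ b) l) =
      fun _ => a k ⬝ᵥ (adjugate (Hm a m) *ᵥ b) := by
    funext t; exact adj_const a m k t b
  rw [h3] at h2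
  exact h2.unique (hasDerivAt_const _ _)

omit [DecidableEq ι] in
/-- the plurisubharmonicity inequality -/
lemma psh_ineq (a : ι → Fin n → ℝ) (m ψ α β : ι → ℝ) (hm : ∀ i, 0 ≤ m i) (hψ : ∀ i, 0 ≤ ψ i)
    (hcs : ∀ i, α i ^ 2 + β i ^ 2 ≤ ψ i * m i) :
    (∑ i, α i • a i) ⬝ᵥ (adjugate (Hm a m) *ᵥ (∑ i, α i • a i)) +
      (∑ i, β i • a i) ⬝ᵥ (adjugate (Hm a m) *ᵥ (∑ i, β i • a i)) ≤ (∑ i, ψ i) * (Hm a m).det := by
  set x := adjugate (Hm a m) *ᵥ (∑ i, α i • a i) with hx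
  set y := adjugate (Hm a m) *ᵥ (∑ i, β i • a i) with hy
  set T := (∑ i, α i • a i) ⬝ᵥ x + (∑ i, β i • a i) ⬝ᵥ y with hT
  have hdet := Hm_det_nonneg a hm
  have hS : 0 ≤ ∑ i, ψ i := Finset.sum_nonneg fun i _ => hψ i
  have hT1 : T = ∑ i, (α i * (a i ⬝ᵥ x) + β i * (a i ⬝ᵥ y)) := by
    rw [hT, sum_dotProduct, sum_dotProduct, ← Finset.sum_add_distrib]
    simp [smul_dotProduct]
  have hq : ∑ i, m i * ((a i ⬝ᵥ x) ^ 2 + (a i ⬝ᵥ y) ^ 2) = (Hm a m).det * T := by
    simp only [mul_add, Finset.sum_add_distrib]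
    rw [← Hm_quad, ← Hm_quad, hx, hy, mulVec_mulVec, mulVec_mulVec, mul_adjugate, smul_mulVec,
      smul_mulVec, one_mulVec, one_mulVec, dotProduct_smul, dotProduct_smul, hT, ← hx, ← hy,
      dotProduct_comm x, dotProduct_comm y]
    simp [mul_add]
  have hcs2 : T ^ 2 ≤ (∑ i, ψ i) * ∑ i, m i * ((a i ⬝ᵥ x) ^ 2 + (a i ⬝ᵥ y) ^ 2) := by
    rw [hT1]
    apply Finset.sum_sq_le_sum_mul_sum_of_sq_le_mul _ (fun i _ => hψ i)
      (fun i _ => mul_nonneg (hm i) (by positivity))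
    intro i _
    have h1 : (α i * (a i ⬝ᵥ x) + β i * (a i ⬝ᵥ y)) ^ 2 ≤
        (α i ^ 2 + β i ^ 2) * ((a i ⬝ᵥ x) ^ 2 + (a i ⬝ᵥ y) ^ 2) := by
      nlinarith [sq_nonneg (α i * (a i ⬝ᵥ y) - β i * (a i ⬝ᵥ x))]
    calc _ ≤ _ := h1
      _ ≤ (ψ i * m i) * ((a i ⬝ᵥ x) ^ 2 + (a i ⬝ᵥ y) ^ 2) :=
        mul_le_mul_of_nonneg_right (hcs i) (by positivity)
      _ = _ := by ring
  rw [hq] at hcs2
  by_contra hlt
  push Not at hlt
  have hTpos : 0 < T := lt_of_le_of_lt (mul_nonneg hS hdet) hlt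
  nlinarith

lemma det_rank_one (M : Matrix (Fin n) (Fin n) ℝ) (u : Fin n → ℝ) (t : ℝ) :
    (M + t • vecMulVec u u).det = M.det + t * (u ⬝ᵥ (adjugate M *ᵥ u)) := by
  by_cases hu : u = 0
  · subst hu; simp
  have h1 : (M + t • vecMulVec u u) *ᵥ (adjugate (M + t • vecMulVec u u) *ᵥ u) =
      (M + t • vecMulVec u u).det • u := by
    rw [mulVec_mulVec, mul_adjugate, smul_mulVec, one_mulVec]
  rw [adj_rank_one, add_mulVec, mulVec_mulVec, mul_adjugate, smul_mulVec, one_mulVec,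
    smul_mulVec, vecMulVec_mulVec] at h1
  obtain ⟨i, hi⟩ := Function.ne_iff.1 hu
  have h2 := congrFun h1 i
  simp only [Pi.add_apply, Pi.smul_apply, smul_eq_mul, op_smul_eq_mul] at h2
  have hi' : u i ≠ 0 := by simpa using hi
  apply mul_right_cancel₀ hi'
  rw [← h2]; ring

lemma det_single_mono (a : ι → Fin n → ℝ) {m : ι → ℝ} (hm : ∀ i, 0 ≤ m i) (k : ι) {t : ℝ}
    (ht : 0 ≤ t) : (Hm a m).det ≤ (Hm a (m + t • Pi.single k (1 : ℝ))).det := by
  have key : ∀ s : ℝ, 0 ≤ s →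
      0 ≤ (Hm a m).det + s * (a k ⬝ᵥ (adjugate (Hm a m) *ᵥ a k)) := by
    intro s hs
    rw [← det_rank_one, ← Hm_add_single]
    apply Hm_det_nonneg
    intro i
    simp only [Pi.add_apply, Pi.smul_apply, smul_eq_mul]
    have : (0 : ℝ) ≤ (Pi.single k (1 : ℝ) : ι → ℝ) i := by
      rw [Pi.single_apply]; split_ifs <;> norm_num
    have := hm i
    positivity
  rw [Hm_add_single, det_rank_one]
  have : 0 ≤ a k ⬝ᵥ (adjugate (Hm a m) *ᵥ a k) := by
    by_contra hneg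
    push Not at hneg
    set s := a k ⬝ᵥ (adjugate (Hm a m) *ᵥ a k)
    have hd := Hm_det_nonneg a hm
    have := key (((Hm a m).det + 1) / (-s)) (div_nonneg (by linarith) (by linarith))
    have h2 : ((Hm a m).det + 1) / (-s) * s = -((Hm a m).det + 1) := by
      field_simp [hneg.ne]
    linarith
  nlinarith

/-- monotonicity of the determinant in the weights -/
lemma det_Hm_mono (a : ι → Fin n → ℝ) {m m' : ι → ℝ} (hm' : ∀ i, 0 ≤ m' i)
    (h : ∀ i, m' i ≤ m i) : (Hm a m').det ≤ (Hm a m).det := by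
  have key : ∀ S : Finset ι, (Hm a m').det ≤ (Hm a (fun i => if i ∈ S then m i else m' i)).det := by
    intro S
    induction S using Finset.induction_on with
    | empty => simp
    | insert k S hk ih =>
      refine ih.trans ?_
      have e : (fun i => if i ∈ insert k S then m i else m' i) =
          (fun i => if i ∈ S then m i else m' i) + (m k - m' k) • Pi.single k (1 : ℝ) := by
        funext i
        by_cases hi : i = k
        · subst hi; simp [hk]
        · simp [hi]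
      rw [e]
      apply det_single_mono
      · intro i; split_ifs
        · exact (hm' i).trans (h i)
        · exact hm' i
      · linarith [h k]
  simpa using key Finset.univ

end Vale.Agent.P248
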