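import Vale.Agent.P248.Star

open Set Metric Filter Topology MeasureTheory Matrix
open scoped Real

namespace Vale.Agent.P248

variable {n : ℕ}

/-- farthest points -/
def Far (K : Set (Fin n → ℝ)) : Set (Fin n → ℝ) :=
  {v | v ∈ K ∧ ∃ c, ∀ x ∈ K, (x - c) ⬝ᵥ (x - c) ≤ (v - c) ⬝ᵥ (v - c)}

lemma dot_sub_self (x c : Fin n → ℝ) : (x - c) ⬝ᵥ (x - c) = x ⬝ᵥ x - 2 * (x ⬝ᵥ c) + c ⬝ᵥ c := by
  rw [sub_dotProduct, dotProduct_sub, dotProduct_sub, dotProduct_comm c x]; ring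

lemma dot_self_nonneg (x : Fin n → ℝ) : 0 ≤ x ⬝ᵥ x :=
  Finset.sum_nonneg fun _ _ => mul_self_nonneg _

lemma far_support {K : Set (Fin n → ℝ)} (hK : IsCompact K) {z : Fin n → ℝ} {c : ℝ}
    (h : ∀ v ∈ Far K, z ⬝ᵥ v ≤ c) : ∀ x ∈ K, z ⬝ᵥ x ≤ c := by
  intro x hx
  by_contra hlt
  push Not at hlt
  obtain ⟨B, hB⟩ := hK.bddAbove_image (f := fun x => x ⬝ᵥ x)
    (cont_dot continuous_id continuous_id).continuousOn
  have hB' : ∀ v ∈ K, v ⬝ᵥ v ≤ B := fun v hv => hB ⟨v, hv, rfl⟩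
  obtain ⟨R, hR⟩ : ∃ R : ℝ, R = (B + 1) / (2 * (z ⬝ᵥ x - c)) := ⟨_, rfl⟩
  have hB0 : 0 ≤ B := (dot_self_nonneg x).trans (hB' x hx)
  have hd : 0 < z ⬝ᵥ x - c := by linarith
  have hR0 : 0 < R := by rw [hR]; positivity
  have hR1 : R * (2 * (z ⬝ᵥ x - c)) = B + 1 := by rw [hR]; field_simp
  obtain ⟨v, hv, hmax⟩ := hK.exists_isMaxOn ⟨x, hx⟩
    (f := fun x => (x - -(R • z)) ⬝ᵥ (x - -(R • z)))
    (cont_dot (by fun_prop) (by fun_prop)).continuousOn
  have h1 := h v ⟨hv, -(R • z), fun y hy => hmax hy⟩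
  have h2 : (x - -(R • z)) ⬝ᵥ (x - -(R • z)) ≤ (v - -(R • z)) ⬝ᵥ (v - -(R • z)) := hmax hx
  rw [dot_sub_self, dot_sub_self, dotProduct_neg x, dotProduct_neg v, dotProduct_smul _ x,
    dotProduct_smul _ v, dotProduct_comm x z, dotProduct_comm v z, smul_eq_mul, smul_eq_mul] at h2
  have h3 := mul_le_mul_of_nonneg_left h1 hR0.le
  linarith [hB' v hv, dot_self_nonneg x]

lemma neg_mem_far {K : Set (Fin n → ℝ)} (hs : ∀ x ∈ K, -x ∈ K) {v : Fin n → ℝ} (hv : v ∈ Far K) :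
    -v ∈ Far K := by
  obtain ⟨h1, c, h2⟩ := hv
  refine ⟨hs v h1, -c, fun x hx => ?_⟩
  have := h2 _ (hs x hx)
  simp only [dot_sub_self, neg_dotProduct, dotProduct_neg, neg_neg] at this ⊢
  linarith

lemma SS_support : ∃ t0 : ℝ, 0 < t0 ∧ ∀ t, 0 < t → t ≤ t0 → ∀ q, |q| ≤ 1 →
    q + t * SS q ≤ 1 + 8 * t ^ 3 := by
  obtain ⟨C, hC0, hC⟩ := SS_asymp
  refine ⟨1 / (2 * C + 1), by positivity, fun t ht ht0 q hq => ?_⟩
  have hr : 1 - |q| ∈ Icc (0 : ℝ) 1 := ⟨by linarith, by linarith [abs_nonneg q]⟩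
  have h1 := (abs_le.1 (hC _ hr)).2
  have h2 : SS (1 - (1 - |q|)) = SS q := by
    rw [sub_sub_cancel]
    rcases abs_choice q with h | h <;> rw [h]
    exact SS_neg q
  rw [h2] at h1
  set r := 1 - |q| with hrdef
  have h3 : t * C ≤ 1 / 2 := by
    rw [le_div_iff₀ (by positivity)] at ht0; nlinarith
  have hu : 0 < 1 / (2 * t) := by positivity
  have h4 : Real.negMulLog r ≤ r * (1 / (2 * t)) + 8 * t ^ 2 := by
    rcases hr.1.eq_or_lt with h0 | h0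
    · rw [← h0]; simp; positivity
    · have a1 := Real.log_le_sub_one_of_pos (show 0 < Real.exp (-(1 / (2 * t))) / r by positivity)
      rw [Real.log_div (Real.exp_pos _).ne' h0.ne', Real.log_exp] at a1
      have a2 := mul_le_mul_of_nonneg_left a1 h0.le
      have a3 : r * (Real.exp (-(1 / (2 * t))) / r - 1) = Real.exp (-(1 / (2 * t))) - r := by
        field_simp
      have a4 : Real.exp (-(1 / (2 * t))) ≤ 8 * t ^ 2 := by
        have b1 := Real.quadratic_le_exp_of_nonneg hu.le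
        have b2 : 1 / (8 * t ^ 2) ≤ Real.exp (1 / (2 * t)) := by
          have : (1 / (2 * t)) ^ 2 / 2 = 1 / (8 * t ^ 2) := by field_simp; ring
          linarith
        rw [Real.exp_neg, inv_le_comm₀ (Real.exp_pos _) (by positivity)]
        simpa using b2
      rw [Real.negMulLog]
      linarith
  have h5 : 2 / π ≤ 1 := by rw [div_le_one Real.pi_pos]; linarith [Real.pi_gt_three]
  have h6 : 2 / π * Real.negMulLog r ≤ Real.negMulLog r :=
    mul_le_of_le_one_left (Real.negMulLog_nonneg hr.1 hr.2) h5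
  have h7 : SS q ≤ r * (1 / (2 * t)) + 8 * t ^ 2 + C * r := by linarith
  have h8 := mul_le_mul_of_nonneg_left h7 ht.le
  have h9 : t * (r * (1 / (2 * t)) + 8 * t ^ 2 + C * r) = r / 2 + 8 * t ^ 3 + (t * C) * r := by
    field_simp
  have h10 := mul_le_mul_of_nonneg_right h3 hr.1
  linarith [le_abs_self q]

lemma abs_dot_le_one {K : Set (Fin n → ℝ)} (hs : ∀ x ∈ K, -x ∈ K) {a x : Fin n → ℝ}
    (ha : a ∈ polar K) (hx : x ∈ K) : |a ⬝ᵥ x| ≤ 1 := by
  have h1 := mem_polar.1 ha x hx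
  have h2 := mem_polar.1 ha _ (hs x hx)
  rw [dotProduct_neg] at h2
  exact abs_le.2 ⟨by linarith, h1⟩

lemma far_y_zero {K : Set (Fin n → ℝ)} (hK : IsSymmBody K) {v y : Fin n → ℝ} (hv : v ∈ Far K)
    (hy : ∀ a ∈ polar K, a ⬝ᵥ y ≤ SS (a ⬝ᵥ v)) : y = 0 := by
  obtain ⟨t0, ht0, hS⟩ := SS_support
  obtain ⟨hvK, c, hc⟩ := hv
  obtain ⟨D, hD⟩ : ∃ D, D = 2 * (v ⬝ᵥ v) + 2 * |v ⬝ᵥ c| := ⟨_, rfl⟩
  have hvv := dot_self_nonneg v
  have hD0 : 0 ≤ D := by rw [hD]; positivity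
  have key : ∀ t, 0 < t → t ≤ t0 → t ≤ 1 / 2 → y ⬝ᵥ y ≤ 32 * D * t := by
    intro t ht h1 h2
    obtain ⟨s, hs⟩ : ∃ s : ℝ, s = (1 + 8 * t ^ 3)⁻¹ := ⟨_, rfl⟩
    have he : 0 < 1 + 8 * t ^ 3 := by positivity
    have hs1 : s * (1 + 8 * t ^ 3) = 1 := by rw [hs]; field_simp
    have hs0 : 0 < s := by rw [hs]; positivity
    have ht3 : 8 * t ^ 3 ≤ 1 := by
      have := pow_le_pow_left₀ ht.le h2 3
      norm_num at this; linarith
    have ht3' : 0 < t ^ 3 := by positivity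
    have hs2 : s ≤ 1 := by nlinarith
    have hs3 : 1 / 2 ≤ s := by nlinarith
    have hs4 : 1 - s ≤ 8 * t ^ 3 := by nlinarith
    have hmem : ∀ y' : Fin n → ℝ, (∀ a ∈ polar K, a ⬝ᵥ y' ≤ SS (a ⬝ᵥ v)) →
        s • (v + t • y') ∈ K := by
      intro y' hy'
      rw [← hK.polar_polar]
      intro a ha
      change (s • (v + t • y')) ⬝ᵥ a ≤ 1
      rw [dotProduct_comm, dotProduct_smul, dotProduct_add, dotProduct_smul, smul_eq_mul,
        smul_eq_mul, ← hs1]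
      apply mul_le_mul_of_nonneg_left _ hs0.le
      have := hS t ht h1 _ (abs_dot_le_one hK.2.2.2 ha hvK)
      have := mul_le_mul_of_nonneg_left (hy' a ha) ht.le
      linarith
    have m1 := hc _ (hmem y hy)
    have m2 := hc _ (hmem (-y) fun a ha => by
      have := hy _ (neg_mem_polar hK.2.2.2 ha)
      rwa [neg_dotProduct, neg_dotProduct, SS_neg, ← dotProduct_neg] at this)
    simp only [dot_sub_self, smul_dotProduct, dotProduct_smul, add_dotProduct, dotProduct_add,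
      neg_dotProduct, dotProduct_neg, smul_eq_mul, dotProduct_comm y v] at m1 m2
    have m3 : s ^ 2 * t ^ 2 * (y ⬝ᵥ y) ≤ (1 - s) * ((1 + s) * (v ⬝ᵥ v) - 2 * (v ⬝ᵥ c)) := by
      linarith
    have m4 : (1 + s) * (v ⬝ᵥ v) - 2 * (v ⬝ᵥ c) ≤ D := by
      have := neg_abs_le (v ⬝ᵥ c)
      rw [hD]; nlinarith
    have m5 : s ^ 2 * t ^ 2 * (y ⬝ᵥ y) ≤ 8 * t ^ 3 * D :=
      m3.trans ((mul_le_mul_of_nonneg_left m4 (by linarith)).trans
        (mul_le_mul_of_nonneg_right hs4 hD0))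
    have m6 : 1 / 4 * (t ^ 2 * (y ⬝ᵥ y)) ≤ s ^ 2 * (t ^ 2 * (y ⬝ᵥ y)) :=
      mul_le_mul_of_nonneg_right (by nlinarith) (mul_nonneg (sq_nonneg _) (dot_self_nonneg y))
    have m7 : t ^ 2 * (y ⬝ᵥ y) ≤ t ^ 2 * (32 * D * t) := by linarith
    exact le_of_mul_le_mul_left m7 (by positivity)
  have t1 : Tendsto (fun t : ℝ => 32 * D * t) (𝓝[>] 0) (𝓝 0) :=
    (Continuous.tendsto' (by fun_prop) 0 0 (by simp)).mono_left nhdsWithin_le_nhds
  have h0 : y ⬝ᵥ y ≤ 0 := ge_of_tendsto t1 (by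
    filter_upwards [self_mem_nhdsWithin, mem_nhdsWithin_of_mem_nhds (ge_mem_nhds ht0),
      mem_nhdsWithin_of_mem_nhds (ge_mem_nhds (show (0 : ℝ) < 1 / 2 by norm_num))] with t h1 h2 h3
    exact key t h1 h2 h3)
  exact dotProduct_self_eq_zero.1 (le_antisymm h0 (dot_self_nonneg y))

lemma eq_zero_of_dot {K : Set (Fin n → ℝ)} (hK : IsSymmBody K) {z : Fin n → ℝ}
    (h : ∀ x ∈ K, z ⬝ᵥ x ≤ 0) : z = 0 := by
  obtain ⟨r, hr, hb⟩ := hK.exists_ball
  have hc : 0 < r / (‖z‖ + 1) := by positivity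
  have := h ((r / (‖z‖ + 1)) • z) (hb (by
    rw [mem_ball_zero_iff, norm_smul, Real.norm_of_nonneg hc.le, div_mul_eq_mul_div,
      div_lt_iff₀ (by positivity)]
    nlinarith))
  rw [dotProduct_smul, smul_eq_mul] at this
  exact dotProduct_self_eq_zero.1 (le_antisymm (nonpos_of_mul_nonpos_right this hc |> fun h => h)
    (dot_self_nonneg z))

lemma far_ne_zero (hn : 1 ≤ n) {K : Set (Fin n → ℝ)} (hK : IsSymmBody K) {v : Fin n → ℝ}
    (hv : v ∈ Far K) : v ≠ 0 := by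
  rintro rfl
  obtain ⟨-, c, hc⟩ := hv
  have h0 : (Pi.single (⟨0, hn⟩ : Fin n) (1 : ℝ) : Fin n → ℝ) = 0 := by
    apply eq_zero_of_dot hK
    intro x hx
    have h1 := hc x hx
    have h2 := hc _ (hK.2.2.2 x hx)
    simp only [dot_sub_self, neg_dotProduct, dotProduct_neg, neg_neg, zero_dotProduct] at h1 h2
    have : x = 0 := dotProduct_self_eq_zero.1 (le_antisymm (by linarith) (dot_self_nonneg x))
    simp [this]
  simpa using congrFun h0 ⟨0, hn⟩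

lemma far_pm (hn : 1 ≤ n) {K : Set (Fin n → ℝ)} (hK : IsSymmBody K)
    (hstar : ∀ x ∈ K, ∀ b ∈ polar K, StarAt (polar K) x b) {v w : Fin n → ℝ} (hv : v ∈ Far K)
    (hw : w ∈ Far (polar K)) : w ⬝ᵥ v = 1 ∨ w ⬝ᵥ v = -1 := by
  obtain ⟨y, h1, h2⟩ := hstar v hv.1 w hw.1
  have hy := far_y_zero hK hv h1
  subst hy
  have hw0 := far_ne_zero hn hK.polar hw
  obtain ⟨hwK, c, hc⟩ := hw
  have hww : 0 < w ⬝ᵥ w :=
    lt_of_le_of_ne (dot_self_nonneg w) fun h => hw0 (dotProduct_self_eq_zero.1 h.symm)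
  rcases h2 (w - c) with h | ⟨a, ha, h3, h4⟩
  · have := hc 0 hK.polar.zero_mem
    simp only [dot_sub_self, zero_dotProduct] at this
    rw [dotProduct_sub] at h
    linarith
  · have h5 := hc a ha
    have h6 : a = w := by
      rw [← sub_eq_zero]
      apply dotProduct_self_eq_zero.1 (le_antisymm _ (dot_self_nonneg _))
      rw [dot_sub_self, dot_sub_self] at h5
      rw [dotProduct_sub, dotProduct_sub] at h4
      rw [dot_sub_self]
      linarith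
    subst h6
    rw [dotProduct_zero] at h3
    have h7 := abs_dot_le_one hK.2.2.2 ha hv.1
    have h8 : |a ⬝ᵥ v| = 1 := by
      by_contra hne
      exact absurd h3 (SS_pos (lt_of_le_of_ne h7 hne)).ne
    exact (abs_eq zero_le_one).1 h8

lemma finite_of_pm {K L : Set (Fin n → ℝ)} (hK : IsSymmBody K) (hL : IsCompact L)
    {W : Set (Fin n → ℝ)} (hW : W ⊆ L) (pm : ∀ v ∈ Far K, ∀ w ∈ W, w ⬝ᵥ v = 1 ∨ w ⬝ᵥ v = -1) :
    W.Finite := by
  obtain ⟨R, hR0, hR⟩ := hK.1.isBounded.exists_pos_norm_le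
  obtain ⟨t, -, ht, hcov⟩ := hL.finite_cover_balls (e := 1 / (n * R + 1)) (by positivity)
  choose! f hf1 hf2 using fun w (hw : w ∈ W) => mem_iUnion₂.1 (hcov (hW hw))
  refine Set.Finite.of_finite_image (f := f) (ht.subset ?_) ?_
  · rintro _ ⟨w, hw, rfl⟩; exact hf1 w hw
  · intro w hw w' hw' h
    rw [← sub_eq_zero]
    apply eq_zero_of_dot hK
    apply far_support hK.1
    intro v hv
    have d1 : ‖w - w'‖ < 2 * (1 / (n * R + 1)) := by
      have a1 := hf2 w hw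
      have a2 := hf2 w' hw'
      rw [← h] at a2
      rw [mem_ball] at a1 a2
      rw [← dist_eq_norm]
      linarith [dist_triangle_right w w' (f w)]
    have d2 := (le_abs_self _).trans (abs_dot_le (w - w') v)
    have d3 : (n : ℝ) * ‖w - w'‖ * ‖v‖ ≤ n * ‖w - w'‖ * R :=
      mul_le_mul_of_nonneg_left (hR v hv.1) (by positivity)
    rw [mul_one_div, lt_div_iff₀ (by positivity)] at d1
    have d4 : (w - w') ⬝ᵥ v < 2 := by nlinarith [norm_nonneg (w - w')]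
    rw [sub_dotProduct] at d4 ⊢
    rcases pm v hv w hw with h1 | h1 <;> rcases pm v hv w' hw' with h2 | h2 <;> linarith

/-- combinatorial frame of a two level polytope -/
structure Frame (K : Set (Fin n → ℝ)) (V W : Finset (Fin n → ℝ)) : Prop where
  body : IsSymmBody K
  negV : ∀ v ∈ V, -v ∈ V
  negW : ∀ w ∈ W, -w ∈ W
  pm : ∀ v ∈ V, ∀ w ∈ W, w ⬝ᵥ v = 1 ∨ w ⬝ᵥ v = -1
  suppV : ∀ z c, (∀ v ∈ V, z ⬝ᵥ v ≤ c) → ∀ x ∈ K, z ⬝ᵥ x ≤ c
  suppW : ∀ z c, (∀ w ∈ W, w ⬝ᵥ z ≤ c) → ∀ a ∈ polar K, a ⬝ᵥ z ≤ c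
  subV : ∀ v ∈ V, v ∈ K
  subW : ∀ w ∈ W, w ∈ polar K
  star : ∀ x ∈ K, ∀ b ∈ polar K, StarAt W x b

theorem exists_frame (hn : 1 ≤ n) {K : Set (Fin n → ℝ)} (hK : IsSymmBody K)
    (heq : (volume K).toReal * (volume (polar K)).toReal = (4 : ℝ) ^ n / n.factorial) :
    ∃ V W, Frame K V W := by
  have hstar := star_of_eq hn hK heq hK.polar.1 hK.polar.2.2.2 hK.polar_polar
  have hW : (Far (polar K)).Finite := finite_of_pm hK hK.polar.1 (fun w hw => hw.1)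
    fun v hv w hw => far_pm hn hK hstar hv hw
  have hV : (Far K).Finite := finite_of_pm hK.polar hK.1 (fun w hw => hw.1)
    fun w hw v hv => by rw [dotProduct_comm]; exact far_pm hn hK hstar hv hw
  have hsW : ∀ z c, (∀ w ∈ Far (polar K), w ⬝ᵥ z ≤ c) → ∀ a ∈ polar K, a ⬝ᵥ z ≤ c := by
    intro z c h a ha
    rw [dotProduct_comm]
    exact far_support hK.polar.1 (fun w hw => by rw [dotProduct_comm]; exact h w hw) a ha
  refine ⟨hV.toFinset, hW.toFinset, hK, ?_, ?_, ?_, ?_, ?_, ?_, ?_, ?_⟩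
  · simpa using fun v hv => neg_mem_far hK.2.2.2 hv
  · simpa using fun v hv => neg_mem_far hK.polar.2.2.2 hv
  · simpa using fun v hv w hw => far_pm hn hK hstar hv hw
  · simpa using fun z c h => far_support hK.1 h
  · simpa using hsW
  · simpa using fun v hv => hv.1
  · simpa using fun v hv => hv.1
  · rw [hW.coe_toFinset]
    refine star_of_eq hn hK heq hW.isCompact (fun v hv => neg_mem_far hK.polar.2.2.2 hv) ?_
    ext x
    refine ⟨fun hx => ?_, fun hx w hw => ?_⟩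
    · rw [← hK.polar_polar]
      intro a ha
      change x ⬝ᵥ a ≤ 1
      rw [dotProduct_comm]
      exact hsW x 1 (fun w hw => by rw [dotProduct_comm]; exact hx w hw) a ha
    · change x ⬝ᵥ w ≤ 1
      rw [dotProduct_comm]; exact hw.1 x hx

end Vale.Agent.P248
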