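import Mathlib

open Set

namespace Vale.Agent.P248

lemma seinsche_step {β : Type*} [DecidableEq β] {r : β → β → Prop} (hs : ∀ a b, r a b → r b a)
    {T : Finset β} {x : β} (hx : x ∉ T)
    (hP : ∀ a ∈ insert x T, ∀ b ∈ insert x T, ∀ c ∈ insert x T, ∀ d ∈ insert x T,
      r a b → r b c → r c d → ¬ r a c → ¬ r b d → ¬ r a d → False)
    {S : Finset β} (h1 : S ⊆ T) (h3 : (T \ S).Nonempty) (h4 : ∀ a ∈ S, ∀ b ∈ T \ S, ¬ r a b)
    {y : β} (hy : y ∈ S) (hxy : ¬ r x y) :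
    ∃ S' ⊆ insert x T, S'.Nonempty ∧ (insert x T \ S').Nonempty ∧
      ∀ a ∈ S', ∀ b ∈ insert x T \ S', ¬ r a b := by
  classical
  by_cases hz : ∃ z ∈ T \ S, r x z
  · obtain ⟨z, hz1, hz2⟩ := hz
    refine ⟨S.filter fun s => ¬ r x s, fun a ha => Finset.mem_insert_of_mem
      (h1 (Finset.mem_filter.1 ha).1), ⟨y, Finset.mem_filter.2 ⟨hy, hxy⟩⟩, ⟨x, ?_⟩, ?_⟩
    · simp only [Finset.mem_sdiff, Finset.mem_insert, true_or, Finset.mem_filter, true_and]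
      exact fun h => hx (h1 h.1)
    · intro a ha b hb hab
      rw [Finset.mem_filter] at ha
      simp only [Finset.mem_sdiff, Finset.mem_insert, Finset.mem_filter] at hb
      obtain ⟨hb1 | hb1, hb2⟩ := hb
      · exact ha.2 (hs _ _ (hb1 ▸ hab))
      · by_cases hbS : b ∈ S
        · have hxb : r x b := by by_contra h; exact hb2 ⟨hbS, h⟩
          exact hP a (Finset.mem_insert_of_mem (h1 ha.1)) b (Finset.mem_insert_of_mem hb1) x
            (Finset.mem_insert_self _ _) z (Finset.mem_insert_of_mem (Finset.mem_sdiff.1 hz1).1)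
            hab (hs _ _ hxb) hz2 (fun h => ha.2 (hs _ _ h)) (h4 b hbS z hz1) (h4 a ha.1 z hz1)
        · exact h4 a ha.1 b (Finset.mem_sdiff.2 ⟨hb1, hbS⟩) hab
  · push Not at hz
    refine ⟨T \ S, fun a ha => Finset.mem_insert_of_mem (Finset.mem_sdiff.1 ha).1, h3, ⟨x, ?_⟩, ?_⟩
    · simp [hx]
    · intro a ha b hb hab
      simp only [Finset.mem_sdiff, Finset.mem_insert] at hb
      obtain ⟨hb1 | hb1, hb2⟩ := hb
      · exact hz a ha (hs _ _ (hb1 ▸ hab))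
      · have hbS : b ∈ S := by by_contra h; exact hb2 ⟨hb1, h⟩
        exact h4 b hbS a ha (hs _ _ hab)

lemma seinsche_step' {β : Type*} [DecidableEq β] {r : β → β → Prop} (hs : ∀ a b, r a b → r b a)
    {T : Finset β} {x : β} (hx : x ∉ T) (hT : T.Nonempty)
    (hP : ∀ a ∈ insert x T, ∀ b ∈ insert x T, ∀ c ∈ insert x T, ∀ d ∈ insert x T,
      r a b → r b c → r c d → ¬ r a c → ¬ r b d → ¬ r a d → False)
    {S : Finset β} (h1 : S ⊆ T) (h2 : S.Nonempty) (h3 : (T \ S).Nonempty)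
    (h4 : ∀ a ∈ S, ∀ b ∈ T \ S, ¬ r a b) :
    ∃ S' ⊆ insert x T, S'.Nonempty ∧ (insert x T \ S').Nonempty ∧
      ((∀ a ∈ S', ∀ b ∈ insert x T \ S', ¬ r a b) ∨ ∀ a ∈ S', ∀ b ∈ insert x T \ S', r a b) := by
  by_cases h : ∃ y ∈ T, ¬ r x y
  · obtain ⟨y, hy, hxy⟩ := h
    by_cases hyS : y ∈ S
    · obtain ⟨S', a1, a2, a3, a4⟩ := seinsche_step hs hx hP h1 h3 h4 hyS hxy
      exact ⟨S', a1, a2, a3, Or.inl a4⟩
    · have e : T \ (T \ S) = S := Finset.sdiff_sdiff_eq_self h1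
      obtain ⟨S', a1, a2, a3, a4⟩ := seinsche_step hs hx hP (S := T \ S) Finset.sdiff_subset
        (by rwa [e]) (by rw [e]; exact fun a ha b hb hab => h4 b hb a ha (hs _ _ hab))
        (Finset.mem_sdiff.2 ⟨hy, hyS⟩) hxy
      exact ⟨S', a1, a2, a3, Or.inl a4⟩
  · push Not at h
    obtain ⟨t, ht⟩ := hT
    refine ⟨{x}, by simp, by simp, ⟨t, ?_⟩, Or.inr ?_⟩
    · simp only [Finset.mem_sdiff, Finset.mem_insert, ht, or_true, Finset.mem_singleton, true_and]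
      rintro rfl; exact hx ht
    · intro a ha b hb
      simp only [Finset.mem_sdiff, Finset.mem_insert, Finset.mem_singleton] at ha hb
      rw [ha]
      exact h b (hb.1.resolve_left hb.2)

lemma seinsche {β : Type*} [DecidableEq β] {r : β → β → Prop} (hs : ∀ a b, r a b → r b a)
    (T : Finset β) (hT : 2 ≤ T.card)
    (hP : ∀ a ∈ T, ∀ b ∈ T, ∀ c ∈ T, ∀ d ∈ T,
      r a b → r b c → r c d → ¬ r a c → ¬ r b d → ¬ r a d → False) :
    ∃ S ⊆ T, S.Nonempty ∧ (T \ S).Nonempty ∧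
      ((∀ a ∈ S, ∀ b ∈ T \ S, ¬ r a b) ∨ ∀ a ∈ S, ∀ b ∈ T \ S, r a b) := by
  induction T using Finset.induction_on with
  | empty => simp at hT
  | insert x T hx ih =>
    rw [Finset.card_insert_of_notMem hx] at hT
    have hne : T.Nonempty := Finset.card_pos.1 (by omega)
    by_cases h2 : 2 ≤ T.card
    · obtain ⟨S, h1, h3, h4, h5 | h5⟩ := ih h2 fun a ha b hb c hc d hd =>
        hP a (Finset.mem_insert_of_mem ha) b (Finset.mem_insert_of_mem hb) c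
          (Finset.mem_insert_of_mem hc) d (Finset.mem_insert_of_mem hd)
      · exact seinsche_step' hs hx hne hP h1 h3 h4 h5
      · obtain ⟨S', a1, a2, a3, a4⟩ := seinsche_step' (r := fun a b => ¬ r a b)
          (fun a b h h' => h (hs _ _ h')) hx hne
          (fun a ha b hb c hc d hd e1 e2 e3 e4 e5 e6 => hP c hc a ha d hd b hb
            (hs _ _ (not_not.1 e4)) (not_not.1 e6) (hs _ _ (not_not.1 e5)) e3 e1
            (fun h => e2 (hs _ _ h))) h1 h3 h4 (fun a ha b hb => not_not.2 (h5 a ha b hb))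
        exact ⟨S', a1, a2, a3, a4.symm.imp id fun h a ha b hb => not_not.1 (h a ha b hb)⟩
    · obtain ⟨t, rfl⟩ := Finset.card_eq_one.1 (show T.card = 1 by omega)
      have hxt : t ≠ x := by rintro rfl; simp at hx
      have key : ∀ a ∈ ({x} : Finset β), ∀ b ∈ insert x {t} \ ({x} : Finset β), a = x ∧ b = t := by
        intro a ha b hb
        simp only [Finset.mem_sdiff, Finset.mem_insert, Finset.mem_singleton] at ha hb
        exact ⟨ha, hb.1.resolve_left hb.2⟩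
      refine ⟨{x}, by simp, by simp, ⟨t, by simp [hxt]⟩, ?_⟩
      by_cases h : r x t
      · right; intro a ha b hb; obtain ⟨rfl, rfl⟩ := key a ha b hb; exact h
      · left; intro a ha b hb; obtain ⟨rfl, rfl⟩ := key a ha b hb; exact h

variable {α : Type*}

/-- set systems closed under complements and disjoint unions, with an interval property -/
structure LS (𝒜 : Set (Set α)) : Prop where
  empty : ∅ ∈ 𝒜
  compl : ∀ D ∈ 𝒜, Dᶜ ∈ 𝒜
  union : ∀ D ∈ 𝒜, ∀ G ∈ 𝒜, Disjoint D G → D ∪ G ∈ 𝒜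
  helly : ∀ F1 F2 : Set (Set α), F1 ⊆ 𝒜 → F2 ⊆ 𝒜 → F1.Nonempty → F2.Nonempty →
    ⋂₀ F1 ⊆ ⋃₀ F2 → ⋂₀ F2 ⊆ ⋃₀ F1 → ∃ D ∈ 𝒜, ⋂₀ F1 ⊆ D ∧ ⋂₀ F2 ⊆ D ∧ D ⊆ ⋃₀ F1 ∧ D ⊆ ⋃₀ F2

/-- minimal nonempty members -/
def Atom (𝒜 : Set (Set α)) (B : Set α) : Prop :=
  B ∈ 𝒜 ∧ B.Nonempty ∧ ∀ G ∈ 𝒜, G ⊆ B → G = ∅ ∨ G = B

namespace LS

variable {𝒜 : Set (Set α)} (L : LS 𝒜)
include L

lemma diff {D G : Set α} (hD : D ∈ 𝒜) (hG : G ∈ 𝒜) (h : D ⊆ G) : G \ D ∈ 𝒜 := by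
  have := L.compl _ (L.union _ (L.compl _ hG) _ hD (disjoint_compl_left.mono_right h))
  rwa [compl_union, compl_compl] at this

lemma helly2 {a b c d : Set α} (ha : a ∈ 𝒜) (hb : b ∈ 𝒜) (hc : c ∈ 𝒜) (hd : d ∈ 𝒜)
    (h1 : a ∩ b ⊆ c ∪ d) (h2 : c ∩ d ⊆ a ∪ b) :
    ∃ D ∈ 𝒜, a ∩ b ⊆ D ∧ c ∩ d ⊆ D ∧ D ⊆ a ∪ b ∧ D ⊆ c ∪ d := by
  simpa using L.helly {a, b} {c, d} (pair_subset ha hb) (pair_subset hc hd) (insert_nonempty _ _)
    (insert_nonempty _ _) (by simpa using h1) (by simpa using h2)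

lemma ap {B : Set α} (hB : Atom 𝒜 B) {F : Set (Set α)} (hF : F ⊆ 𝒜) (hne : F.Nonempty)
    (h1 : (⋂₀ F).Nonempty) (h2 : ⋂₀ F ⊆ B) : B ⊆ ⋃₀ F := by
  obtain ⟨D, hD, -, a2, a3, a4⟩ := L.helly {∅, B} F (pair_subset L.empty hB.1) hF
    (insert_nonempty _ _) hne (by simp) (by simpa using h2)
  rcases hB.2.2 D hD (by simpa using a3) with h | h
  · exact absurd (h1.mono a2) (by simp [h])
  · rwa [← h]

lemma ap2 {B a b : Set α} (hB : Atom 𝒜 B) (ha : a ∈ 𝒜) (hb : b ∈ 𝒜) (h1 : (a ∩ b).Nonempty)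
    (h2 : a ∩ b ⊆ B) : B ⊆ a ∪ b := by
  simpa using L.ap hB (pair_subset ha hb) (insert_nonempty _ _) (by simpa using h1)
    (by simpa using h2)

lemma t3 {F : Set (Set α)} (hfin : F.Finite) (hF : ∀ B ∈ F, Atom 𝒜 B ∧ Atom 𝒜 Bᶜ)
    (hne : F.Nonempty) (h : ⋂₀ F = ∅) : ⋃₀ F = univ := by
  induction F, hfin using Set.Finite.induction_on with
  | empty => simp at hne
  | @insert B F _ _ ih =>
    rcases F.eq_empty_or_nonempty with rfl | hne'
    · have := (hF B (mem_insert _ _)).1.2.1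
      simp at h; simp [h] at this
    · rcases (⋂₀ F).eq_empty_or_nonempty with h0 | h0
      · rw [sUnion_insert, ih (fun B hB => hF B (mem_insert_of_mem _ hB)) hne' h0, union_univ]
      · have := L.ap (hF B (mem_insert _ _)).2 (fun D hD => (hF D (mem_insert_of_mem _ hD)).1.1)
          hne' h0 (by
            rw [sInter_insert] at h
            exact fun x hx hB => (eq_empty_iff_forall_notMem.1 h x) ⟨hB, hx⟩)
        rw [sUnion_insert, eq_univ_iff_forall]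
        intro x
        by_cases hx : x ∈ B
        · exact Or.inl hx
        · exact Or.inr (this hx)

lemma t2aux {A D G : Set α} (hA : Atom 𝒜 A) (hA' : Atom 𝒜 Aᶜ) (hD : D ∈ 𝒜) (hG : G ∈ 𝒜)
    (hne : D.Nonempty) (hne' : Dᶜ.Nonempty) (hna : ¬ Atom 𝒜 D) (h1 : D ∩ A ⊆ G) (h2 : G ⊆ D ∪ A) :
    G = D ∨ G = A := by
  have hDA : (D ∩ A).Nonempty := by
    by_contra h
    rw [not_nonempty_iff_eq_empty] at h
    rcases hA'.2.2 D hD (fun x hx hxA => (eq_empty_iff_forall_notMem.1 h x) ⟨hx, hxA⟩) with h | h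
    · simp [h] at hne
    · exact hna (h ▸ hA')
  have hAD : ¬ A ⊆ D := fun h => by
    rcases hA'.2.2 _ (L.compl D hD) (compl_subset_compl.2 h) with h | h
    · simp [h] at hne'
    · exact hna (compl_injective h ▸ hA)
  obtain ⟨D1, hD1, s1, n1, n2⟩ : ∃ D1 ∈ 𝒜, D1 ⊆ D ∧ D1 ≠ ∅ ∧ D1 ≠ D := by
    by_contra h
    push Not at h
    exact hna ⟨hD, hne, fun G hG hs => by
      by_cases h0 : G = ∅
      · exact Or.inl h0
      · exact Or.inr (h G hG hs (nonempty_iff_ne_empty.2 h0))⟩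
  have key : ∀ X ∈ 𝒜, X ⊆ D → ¬ X ⊆ G → ∀ x ∈ G, x ∉ A → x ∈ X := by
    intro X hX hs hn x hx hxA
    have := L.ap2 hA' (L.compl G hG) hX (by
      obtain ⟨y, hy1, hy2⟩ := not_subset.1 hn
      exact ⟨y, hy2, hy1⟩) (fun y hy hyA => hy.1 (h1 ⟨hs hy.2, hyA⟩)) hxA
    exact this.resolve_left fun h => h hx
  have key2 : ∀ X ∈ 𝒜, ∀ Y ∈ 𝒜, X ⊆ D → Y ⊆ D → Disjoint X Y → Y ≠ ∅ → ¬ X ⊆ G → Y ⊆ G →
      False := by
    intro X hX Y hY sX sY hd nY hn hs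
    have : Y ⊆ A := fun y hy => by
      by_contra hyA
      exact disjoint_left.1 hd (key X hX sX hn y (hs hy) hyA) hy
    rcases hA.2.2 Y hY this with h | h
    · exact nY h
    · exact hAD (h ▸ sY)
  have hD2 := L.diff hD1 hD s1
  have n3 : D \ D1 ≠ ∅ := fun h => n2 (s1.antisymm (sdiff_eq_empty.1 h))
  by_cases c1 : D1 ⊆ G
  · by_cases c2 : D \ D1 ⊆ G
    · have hDG : D ⊆ G := fun x hx => by
        by_cases h : x ∈ D1
        · exact c1 h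
        · exact c2 ⟨hx, h⟩
      rcases hA.2.2 _ (L.diff hD hG hDG) (fun x hx => (h2 hx.1).resolve_left hx.2) with h | h
      · exact Or.inl ((sdiff_eq_empty.1 h).antisymm hDG)
      · obtain ⟨x, hx1, hx2⟩ := hDA
        rw [← h] at hx2
        exact absurd hx1 hx2.2
    · exact (key2 _ hD2 _ hD1 sdiff_subset s1 disjoint_sdiff_left n1 c2 c1).elim
  · by_cases c2 : D \ D1 ⊆ G
    · exact (key2 _ hD1 _ hD2 s1 sdiff_subset disjoint_sdiff_right n3 c1 c2).elim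
    · have : G ⊆ A := fun x hx => by
        by_contra hxA
        exact (key _ hD2 sdiff_subset c2 x hx hxA).2 (key _ hD1 s1 c1 x hx hxA)
      rcases hA.2.2 G hG this with h | h
      · exact absurd (hDA.mono h1) (by simp [h])
      · exact Or.inr h

lemma t2 {A D G : Set α} (hA : Atom 𝒜 A) (hA' : Atom 𝒜 Aᶜ) (hD : D ∈ 𝒜) (hG : G ∈ 𝒜)
    (hna : ¬ (Atom 𝒜 D ∧ Atom 𝒜 Dᶜ)) (h1 : D ∩ A ⊆ G) (h2 : G ⊆ D ∪ A) : G = D ∨ G = A := by
  rcases D.eq_empty_or_nonempty with rfl | hne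
  · exact hA.2.2 G hG (by simpa using h2)
  rcases Dᶜ.eq_empty_or_nonempty with h0 | hne'
  · rw [compl_empty_iff] at h0
    subst h0
    rcases hA'.2.2 _ (L.compl G hG) (compl_subset_compl.2 (by simpa using h1)) with h | h
    · exact Or.inl (compl_empty_iff.1 h)
    · exact Or.inr (compl_injective h)
  by_cases h : Atom 𝒜 D
  · have := L.t2aux hA' (by rwa [compl_compl]) (L.compl D hD) (L.compl G hG) hne'
      (by rwa [compl_compl]) (fun h' => hna ⟨h, h'⟩)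
      (by rw [← compl_union]; exact compl_subset_compl.2 h2)
      (by rw [← compl_inter]; exact compl_subset_compl.2 h1)
    exact this.imp compl_injective.eq_iff.1 compl_injective.eq_iff.1
  · exact L.t2aux hA hA' hD hG hne hne' h h1 h2

omit L in
lemma exists_atom [Finite α] {D : Set α} (hD : D ∈ 𝒜) (hne : D.Nonempty) :
    ∃ a, Atom 𝒜 a ∧ a ⊆ D := by
  obtain ⟨a, ha, hmin⟩ := exists_minimal_le_of_wellFoundedLT
    (fun a : Set α => a ∈ 𝒜 ∧ a.Nonempty) D ⟨hD, hne⟩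
  refine ⟨a, ⟨hmin.1.1, hmin.1.2, fun G hG hs => ?_⟩, ha⟩
  rcases G.eq_empty_or_nonempty with h | h
  · exact Or.inl h
  · exact Or.inr (hs.antisymm (hmin.2 ⟨hG, h⟩ hs))

lemma two_atoms [Finite α] {D : Set α} (hD : D ∈ 𝒜) (hne : D.Nonempty) (hna : ¬ Atom 𝒜 D) :
    ∃ a b, Atom 𝒜 a ∧ Atom 𝒜 b ∧ a ⊆ D ∧ b ⊆ D ∧ Disjoint a b := by
  obtain ⟨a, ha, s⟩ := exists_atom hD hne
  obtain ⟨b, hb, s'⟩ := exists_atom (L.diff ha.1 hD s) (by
    rw [nonempty_iff_ne_empty]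
    intro h
    exact hna (s.antisymm (sdiff_eq_empty.1 h) ▸ ha))
  exact ⟨a, b, ha, hb, s, s'.trans sdiff_subset, disjoint_sdiff_right.mono_right s'⟩

lemma p4 {a b c d : Set α} (ha : Atom 𝒜 a) (hb : Atom 𝒜 b) (hc : Atom 𝒜 c) (hd : Atom 𝒜 d)
    (e1 : (a ∩ b).Nonempty) (e2 : (b ∩ c).Nonempty) (e3 : (c ∩ d).Nonempty)
    (e4 : ¬ (a ∩ c).Nonempty) (e5 : ¬ (b ∩ d).Nonempty) (e6 : ¬ (a ∩ d).Nonempty) : False := by
  rw [not_nonempty_iff_eq_empty, ← disjoint_iff_inter_eq_empty] at e4 e5 e6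
  obtain ⟨D, hD, a1, -, a3, a4⟩ := L.helly2 hb.1 hc.1 L.empty (L.compl _ (L.union _ ha.1 _ hd.1 e6))
    (fun x hx => Or.inr fun h => h.elim (fun h => disjoint_left.1 e4 h hx.2)
      (fun h => disjoint_left.1 e5 hx.1 h)) (by simp)
  rw [empty_union] at a4
  rcases (D ∩ (b ∪ d)ᶜ).eq_empty_or_nonempty with h | h
  · have : D ⊆ b := fun x hx => by
      by_contra hb
      exact (eq_empty_iff_forall_notMem.1 h x) ⟨hx, fun h => h.elim hb fun h => a4 hx (Or.inr h)⟩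
    rcases hb.2.2 D hD this with h | h
    · exact absurd (e2.mono a1) (by simp [h])
    · obtain ⟨x, hx1, hx2⟩ := e1
      exact a4 (h ▸ hx2 : x ∈ D) (Or.inl hx1)
  · obtain ⟨x, hx1, hx2⟩ := e3
    rcases L.ap2 hc hD (L.compl _ (L.union _ hb.1 _ hd.1 e5)) h
      (fun y hy => (a3 hy.1).resolve_left fun h => hy.2 (Or.inl h)) hx1 with h | h
    · exact a4 h (Or.inr hx2)
    · exact h (Or.inr hx2)

lemma cross {a b H G : Set α} (ha : a ∈ 𝒜) (hb : b ∈ 𝒜) (hH : H ∈ 𝒜) (hG : Atom 𝒜 G)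
    (hd : Disjoint a b) (n1 : (a ∩ H).Nonempty) (n2 : (b ∩ H).Nonempty) (s1 : a ∩ H ⊆ G)
    (s2 : b ∩ H ⊆ G) : G ⊆ H := fun x hx => by
  by_contra h
  exact disjoint_left.1 hd ((L.ap2 hG ha hH n1 s1 hx).resolve_right h)
    ((L.ap2 hG hb hH n2 s2 hx).resolve_right h)

lemma central_of [Finite α] {U : Set α} (h : ∀ a, Atom 𝒜 a → a ⊆ U ∨ Disjoint a U) :
    ∀ D ∈ 𝒜, D ∩ U ∈ 𝒜 := by
  intro D
  induction D using WellFoundedLT.induction with
  | ind D ih =>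
    intro hD
    rcases D.eq_empty_or_nonempty with rfl | hne
    · simpa using L.empty
    obtain ⟨a, ha, s⟩ := exists_atom hD hne
    have h1 := ih (D \ a) (by
      refine ⟨sdiff_subset, fun hs => ?_⟩
      obtain ⟨x, hx⟩ := ha.2.1
      exact (hs (s hx)).2 hx) (L.diff ha.1 hD s)
    rcases h a ha with h2 | h2
    · have : D ∩ U = a ∪ (D \ a ∩ U) := by
        ext x
        refine ⟨fun hx => ?_, fun hx => hx.elim (fun h => ⟨s h, h2 h⟩) fun h => ⟨h.1.1, h.2⟩⟩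
        by_cases hxa : x ∈ a
        · exact Or.inl hxa
        · exact Or.inr ⟨⟨hx.1, hxa⟩, hx.2⟩
      rw [this]
      exact L.union _ ha.1 _ h1 (disjoint_sdiff_right.mono_right inter_subset_left)
    · have : D ∩ U = D \ a ∩ U := by
        ext x
        exact ⟨fun hx => ⟨⟨hx.1, fun h => disjoint_left.1 h2 h hx.2⟩, hx.2⟩, fun h => ⟨h.1.1, h.2⟩⟩
      rwa [this]

theorem t1 [Finite α] (hno : ∀ D, ¬ (Atom 𝒜 D ∧ Atom 𝒜 Dᶜ)) {D0 : Set α} (h0 : D0 ∈ 𝒜)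
    (h1 : D0.Nonempty) (h2 : D0ᶜ.Nonempty) :
    ∃ U : Set α, U.Nonempty ∧ Uᶜ.Nonempty ∧ ∀ D ∈ 𝒜, D ∩ U ∈ 𝒜 := by
  classical
  set T : Finset (Set α) := (Set.toFinite {a | Atom 𝒜 a}).toFinset with hT
  have mT : ∀ a, a ∈ T ↔ Atom 𝒜 a := fun a => by simp [hT]
  have hcard : 2 ≤ T.card := by
    obtain ⟨a, ha, s⟩ := exists_atom h0 h1
    obtain ⟨b, hb, s'⟩ := exists_atom (L.compl _ h0) h2
    refine Finset.one_lt_card.2 ⟨a, (mT a).2 ha, b, (mT b).2 hb, fun h => ?_⟩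
    obtain ⟨x, hx⟩ := ha.2.1
    exact s' (h ▸ hx) (s hx)
  obtain ⟨S, s1, ⟨G1, hG1⟩, ⟨H1, hH1⟩, h | h⟩ := seinsche (r := fun a b : Set α => (a ∩ b).Nonempty)
    (fun a b h => by rwa [inter_comm]) T hcard
    fun a ha b hb c hc d hd => L.p4 ((mT a).1 ha) ((mT b).1 hb) ((mT c).1 hc) ((mT d).1 hd)
  · have hdis : ∀ b ∈ T \ S, Disjoint b (⋃₀ (S : Set (Set α))) := fun b hb => by
      rw [disjoint_sUnion_right]
      intro a ha
      have := h a ha b hb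
      rw [not_nonempty_iff_eq_empty, ← disjoint_iff_inter_eq_empty] at this
      exact this.symm
    refine ⟨⋃₀ (S : Set (Set α)), ((mT G1).1 (s1 hG1)).2.1.mono (subset_sUnion_of_mem hG1), ?_,
      L.central_of fun a ha => ?_⟩
    · obtain ⟨x, hx⟩ := ((mT H1).1 (Finset.mem_sdiff.1 hH1).1).2.1
      exact ⟨x, disjoint_left.1 (hdis H1 hH1) hx⟩
    · by_cases haS : a ∈ S
      · exact Or.inl (subset_sUnion_of_mem haS)
      · exact Or.inr (hdis a (Finset.mem_sdiff.2 ⟨(mT a).2 ha, haS⟩))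
  exfalso
  have same : ∀ a b, Atom 𝒜 a → Atom 𝒜 b → Disjoint a b → (a ∈ S ↔ b ∈ S) := by
    intro a b ha hb hd
    refine ⟨fun h1 => by_contra fun h2 => ?_, fun h1 => by_contra fun h2 => ?_⟩
    · exact not_disjoint_iff_nonempty_inter.2 (h a h1 b (Finset.mem_sdiff.2 ⟨(mT b).2 hb, h2⟩)) hd
    · exact not_disjoint_iff_nonempty_inter.2 (h b h1 a (Finset.mem_sdiff.2 ⟨(mT a).2 ha, h2⟩))
        hd.symm
  have other : ∀ a, Atom 𝒜 a → ∃ b, Atom 𝒜 b ∧ Disjoint a b := by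
    intro a ha
    obtain ⟨b, hb, s⟩ := exists_atom (L.compl _ ha.1) (by
      rw [nonempty_compl]
      rintro rfl
      rcases ha.2.2 D0 h0 (subset_univ _) with h | h
      · simp [h] at h1
      · simp [h] at h2)
    exact ⟨b, hb, disjoint_compl_right.mono_right s⟩
  have aG1 := (mT G1).1 (s1 hG1)
  have aH1 := (mT H1).1 (Finset.mem_sdiff.1 hH1).1
  obtain ⟨G3, aG3, dG⟩ := other G1 aG1
  obtain ⟨H3, aH3, dH⟩ := other H1 aH1
  have hG3 : G3 ∈ S := (same _ _ aG1 aG3 dG).1 hG1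
  have hH3 : H3 ∈ T \ S := Finset.mem_sdiff.2 ⟨(mT _).2 aH3, fun h =>
    (Finset.mem_sdiff.1 hH1).2 ((same _ _ aH1 aH3 dH).2 h)⟩
  obtain ⟨D, hD, a1, a2, a3, a4⟩ := L.helly2 (L.compl _ aG3.1) aH1.1 aG1.1 (L.compl _ aH3.1)
    (fun x hx => Or.inr (disjoint_left.1 dH hx.2)) (fun x hx => Or.inl (disjoint_left.1 dG hx.1))
  have gen : ∀ X ∈ 𝒜, X.Nonempty → ∀ G ∈ S, ∀ G' ∈ S, ∀ H ∈ T \ S, ∀ H' ∈ T \ S, Disjoint G G' →
      Disjoint H H' → X ∩ H ⊆ G → X ∩ G' ⊆ H' → Atom 𝒜 X := by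
    intro X hX hne G hG G' hG' H hH H' hH' d1 d2 c1 c2
    by_contra hna
    obtain ⟨a, b, ha, hb, sa, sb, hd⟩ := L.two_atoms hX hne hna
    obtain ⟨x, hx1, hx2⟩ := h G hG H' hH'
    by_cases haS : a ∈ S
    · have := L.cross ha.1 hb.1 ((mT _).1 (Finset.mem_sdiff.1 hH).1).1 ((mT _).1 (s1 hG)) hd
        (h a haS H hH) (h b ((same _ _ ha hb hd).1 haS) H hH)
        ((inter_subset_inter_left _ sa).trans c1) ((inter_subset_inter_left _ sb).trans c1)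
      exact disjoint_left.1 d2 (this hx1) hx2
    · have := L.cross ha.1 hb.1 ((mT _).1 (s1 hG')).1 ((mT _).1 (Finset.mem_sdiff.1 hH').1) hd
        (by rw [inter_comm]; exact h G' hG' a (Finset.mem_sdiff.2 ⟨(mT _).2 ha, haS⟩))
        (by rw [inter_comm]; exact h G' hG' b (Finset.mem_sdiff.2 ⟨(mT _).2 hb, fun h' =>
          haS ((same _ _ ha hb hd).2 h')⟩))
        ((inter_subset_inter_left _ sa).trans c2) ((inter_subset_inter_left _ sb).trans c2)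
      exact disjoint_left.1 d1 hx1 (this hx2)
  refine hno D ⟨gen D hD ?_ G1 hG1 G3 hG3 H3 hH3 H1 hH1 dG dH.symm
    (fun x hx => (a4 hx.1).resolve_right fun h => h hx.2)
    (fun x hx => (a3 hx.1).resolve_left fun h => h hx.2),
    gen Dᶜ (L.compl D hD) ?_ G3 hG3 G1 hG1 H1 hH1 H3 hH3 dG.symm dH
    (fun x hx => by_contra fun h => hx.1 (a1 ⟨h, hx.2⟩))
    (fun x hx => by_contra fun h => hx.1 (a2 ⟨hx.2, h⟩))⟩
  · obtain ⟨x, hx1, hx2⟩ := h G1 hG1 H1 hH1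
    exact ⟨x, a2 ⟨hx1, disjoint_left.1 dH hx2⟩⟩
  · obtain ⟨x, hx1, hx2⟩ := h G3 hG3 H3 hH3
    exact ⟨x, fun hx => (a3 hx).elim (fun h => h hx1) fun h => disjoint_left.1 dH h hx2⟩

end LS

end Vale.Agent.P248
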