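import Mathlib

namespace Vale.Agent.P248

/-- The polar body `K° = {y | ⟨y, x⟩ ≤ 1 for all x ∈ K}` in `ℝ^n`. -/
def polar {n : ℕ} (K : Set (Fin n → ℝ)) : Set (Fin n → ℝ) :=
  {y | ∀ x ∈ K, ∑ i, y i * x i ≤ 1}

/-- An origin-symmetric convex body: compact, convex, nonempty interior, `K = -K`. -/
def IsSymmBody {n : ℕ} (K : Set (Fin n → ℝ)) : Prop :=
  IsCompact K ∧ Convex ℝ K ∧ (interior K).Nonempty ∧ ∀ x ∈ K, -x ∈ K

/-- Hanner polytopes: segments `[-a, a]`, closed under products and under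
`conv ((H₁ × {0}) ∪ ({0} × H₂))` in `ℝ^(k+l)`. -/
inductive IsHanner : (n : ℕ) → Set (Fin n → ℝ) → Prop
  | seg (a : ℝ) (ha : 0 < a) : IsHanner 1 {x | -a ≤ x 0 ∧ x 0 ≤ a}
  | prod {k l : ℕ} (H₁ : Set (Fin k → ℝ)) (H₂ : Set (Fin l → ℝ)) :
      IsHanner k H₁ → IsHanner l H₂ →
      IsHanner (k + l) {z | ∃ x ∈ H₁, ∃ y ∈ H₂, z = Fin.append x y}
  | sum {k l : ℕ} (H₁ : Set (Fin k → ℝ)) (H₂ : Set (Fin l → ℝ)) :
      IsHanner k H₁ → IsHanner l H₂ →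
      IsHanner (k + l) (convexHull ℝ
        ((fun x => Fin.append x (0 : Fin l → ℝ)) '' H₁ ∪
          (fun y => Fin.append (0 : Fin k → ℝ) y) '' H₂))

end Vale.Agent.P248
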