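import Vale.Agent.P248.CL

open Set Metric Filter Topology MeasureTheory Matrix
open scoped Real

namespace Vale.Agent.P248

variable {n : ℕ}

lemma hull_of_supp {L : Set (Fin n → ℝ)} {V : Finset (Fin n → ℝ)}
    (h : ∀ z c, (∀ v ∈ V, z ⬝ᵥ v ≤ c) → ∀ x ∈ L, z ⬝ᵥ x ≤ c) :
    L ⊆ convexHull ℝ (V : Set (Fin n → ℝ)) := by
  intro x hx
  by_contra hxK
  obtain ⟨f, u, h1, h2⟩ := geometric_hahn_banach_closed_point (convex_convexHull ℝ _)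
    (V.finite_toSet.isClosed_convexHull ℝ) hxK
  obtain ⟨y, hy⟩ := exists_vec f
  have := h y u (fun v hv => by rw [hy]; exact (h1 v (subset_convexHull ℝ _ hv)).le) x hx
  rw [hy] at this
  linarith

lemma SS_ratio {κ : ℝ} (hκ : 0 ≤ κ) :
    Tendsto (fun δ : ℝ => SS (1 - δ * κ) / (2 / π * Real.negMulLog δ)) (𝓝[>] 0) (𝓝 κ) := by
  obtain ⟨C, hC0, hC⟩ := SS_asymp
  have hπ := Real.pi_pos
  have t1 : Tendsto (fun δ : ℝ => (C * κ + 2 / π * |Real.negMulLog κ|) / (2 / π) * (-Real.log δ)⁻¹)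
      (𝓝[>] 0) (𝓝 0) := by
    have := (tendsto_inv_atTop_zero.comp
      (tendsto_neg_atBot_atTop.comp Real.tendsto_log_nhdsGT_zero)).const_mul
      ((C * κ + 2 / π * |Real.negMulLog κ|) / (2 / π))
    simpa using this
  rw [tendsto_iff_norm_sub_tendsto_zero]
  refine squeeze_zero' (Eventually.of_forall fun _ => norm_nonneg _) ?_ t1
  have t2 : ∀ᶠ δ in 𝓝[>] (0 : ℝ), δ * κ < 1 :=
    (Continuous.tendsto' (f := fun δ : ℝ => δ * κ) (by fun_prop) 0 0 (by simp)).mono_left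
      nhdsWithin_le_nhds |>.eventually (gt_mem_nhds one_pos)
  filter_upwards [self_mem_nhdsWithin, mem_nhdsWithin_of_mem_nhds (gt_mem_nhds one_pos), t2]
    with δ h0 h1 h2
  have h0' : 0 < δ := h0
  have hl : 0 < -Real.log δ := by linarith [Real.log_neg h0' h1]
  have h3 := hC (δ * κ) ⟨by positivity, h2.le⟩
  rw [Real.negMulLog_mul] at h3
  have e1 : Real.negMulLog δ = δ * (-Real.log δ) := by rw [Real.negMulLog]; ring
  have hp : 0 < 2 / π * Real.negMulLog δ := by rw [e1]; positivity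
  rw [Real.norm_eq_abs, div_sub' hp.ne', abs_div, abs_of_pos hp, div_le_iff₀ hp]
  have e2 : (C * κ + 2 / π * |Real.negMulLog κ|) / (2 / π) * (-Real.log δ)⁻¹ *
      (2 / π * Real.negMulLog δ) = C * (δ * κ) + 2 / π * (δ * |Real.negMulLog κ|) := by
    have hl' : Real.log δ ≠ 0 := (Real.log_neg h0' h1).ne
    rw [e1]; field_simp
  rw [e2]
  have h4 : |2 / π * (δ * Real.negMulLog κ)| = 2 / π * (δ * |Real.negMulLog κ|) := by
    rw [abs_mul, abs_mul, abs_of_pos h0', abs_of_pos (show 0 < 2 / π by positivity)]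
  have h5 := abs_add_le (SS (1 - δ * κ) - 2 / π * (κ * Real.negMulLog δ + δ * Real.negMulLog κ))
    (2 / π * (δ * Real.negMulLog κ))
  rw [h4] at h5
  refine le_trans (le_of_eq ?_) (h5.trans (by linarith))
  congr 1; ring

namespace Frame

variable {K : Set (Fin n → ℝ)} {V W : Finset (Fin n → ℝ)} (F : Frame K V W)
include F

lemma mem_K {x : Fin n → ℝ} (h : ∀ w ∈ W, w ⬝ᵥ x ≤ 1) : x ∈ K := by
  rw [← F.body.polar_polar]
  intro a ha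
  change x ⬝ᵥ a ≤ 1
  rw [dotProduct_comm]
  exact F.suppW x 1 h a ha

lemma mem_P {b : Fin n → ℝ} (h : ∀ v ∈ V, b ⬝ᵥ v ≤ 1) : b ∈ polar K := F.suppV b 1 h

lemma hullW {b : Fin n → ℝ} (hb : b ∈ polar K) :
    ∃ l : (Fin n → ℝ) → ℝ, (∀ a ∈ W, 0 ≤ l a) ∧ ∑ a ∈ W, l a = 1 ∧ ∑ a ∈ W, l a • a = b :=
  Finset.mem_convexHull'.1 (hull_of_supp (L := polar K) (fun z c h x hx => by
    rw [dotProduct_comm]
    exact F.suppW z c (fun w hw => by rw [dotProduct_comm]; exact h w hw) x hx) hb)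

lemma hullV : K = convexHull ℝ (V : Set (Fin n → ℝ)) :=
  (hull_of_supp F.suppV).antisymm (convexHull_min F.subV F.body.2.1)

lemma zeroV {c : Fin n → ℝ} (h : ∀ u ∈ V, c ⬝ᵥ u ≤ 0) : c = 0 :=
  eq_zero_of_dot F.body (F.suppV c 0 h)

lemma zeroW {x : Fin n → ℝ} (h : ∀ w ∈ W, w ⬝ᵥ x ≤ 0) : x = 0 :=
  eq_zero_of_dot F.body.polar fun a ha => by rw [dotProduct_comm]; exact F.suppW x 0 h a ha

lemma neW : W.Nonempty := by
  by_contra h
  rw [Finset.not_nonempty_iff_eq_empty] at h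
  have := F.suppW 0 (-1) (by simp [h]) 0 F.body.polar.zero_mem
  norm_num at this

lemma neV : V.Nonempty := by
  by_contra h
  rw [Finset.not_nonempty_iff_eq_empty] at h
  have := F.suppV 0 (-1) (by simp [h]) 0 F.body.zero_mem
  norm_num at this

lemma le1 {v w : Fin n → ℝ} (hv : v ∈ V) (hw : w ∈ W) : w ⬝ᵥ v ≤ 1 := by
  rcases F.pm v hv w hw with h | h <;> rw [h]; norm_num

lemma pplus {v z b : Fin n → ℝ} (hv : v ∈ V) (hz : ∀ a ∈ W, a ⬝ᵥ v = 1 → 0 ≤ a ⬝ᵥ z)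
    (hb : b ∈ polar K) : ∃ η, (∀ a ∈ W, a ⬝ᵥ η ≤ (a ⬝ᵥ v) * (a ⬝ᵥ z)) ∧
      ∀ ζ, b ⬝ᵥ ζ ≤ 0 ∨ ∃ a ∈ W, a ⬝ᵥ η = (a ⬝ᵥ v) * (a ⬝ᵥ z) ∧ b ⬝ᵥ ζ ≤ a ⬝ᵥ ζ := by
  have hπ := Real.pi_pos
  set κ : (Fin n → ℝ) → ℝ := fun a => (a ⬝ᵥ v) * (a ⬝ᵥ z) with hκ
  have hκ0 : ∀ a ∈ W, 0 ≤ κ a := by
    intro a ha
    rcases F.pm v hv a ha with h | h
    · simp only [hκ, h, one_mul]; exact hz a ha h
    · have := hz (-a) (F.negW a ha) (by rw [neg_dotProduct, h, neg_neg])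
      simp only [hκ, h]; rw [neg_dotProduct] at this; linarith
  have hx : ∀ a ∈ W, ∀ δ : ℝ, a ⬝ᵥ (v - δ • z) = 1 - δ * κ a ∨ a ⬝ᵥ (v - δ • z) = -(1 - δ * κ a) := by
    intro a ha δ
    rw [dotProduct_sub, dotProduct_smul, smul_eq_mul]
    rcases F.pm v hv a ha with h | h
    · left; simp only [hκ, h]; ring
    · right; simp only [hκ, h]; ring
  have hS : ∀ a ∈ W, ∀ δ : ℝ, SS (a ⬝ᵥ (v - δ • z)) = SS (1 - δ * κ a) := by
    intro a ha δ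
    rcases hx a ha δ with h | h <;> rw [h]
    exact SS_neg _
  have hu : Tendsto (fun k : ℕ => 1 / ((k : ℝ) + 1)) atTop (𝓝[>] 0) :=
    tendsto_nhdsWithin_iff.2 ⟨tendsto_one_div_add_atTop_nhds_zero_nat,
      Eventually.of_forall fun k => mem_Ioi.2 Nat.one_div_pos_of_nat⟩
  obtain ⟨B, hB⟩ := (W.finite_toSet.image κ).bddAbove
  have hB' : ∀ a ∈ W, κ a ≤ B := fun a ha => hB ⟨a, ha, rfl⟩
  have hB0 : 0 ≤ B := by
    obtain ⟨a, ha⟩ := F.neW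
    exact (hκ0 a ha).trans (hB' a ha)
  have hev : ∀ᶠ δ in 𝓝[>] (0 : ℝ), (0 < δ ∧ δ < 1) ∧ δ * B < 1 ∧
      ∀ a ∈ W, SS (1 - δ * κ a) / (2 / π * Real.negMulLog δ) < κ a + 1 := by
    refine (eventually_mem_nhdsWithin.and (mem_nhdsWithin_of_mem_nhds (gt_mem_nhds one_pos))).and
      (Eventually.and ?_ ((eventually_all_finset W).2 fun a ha =>
        (SS_ratio (hκ0 a ha)).eventually (gt_mem_nhds (lt_add_one _))))
    exact (Continuous.tendsto' (f := fun δ : ℝ => δ * B) (by fun_prop) 0 0 (by simp)).mono_left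
      nhdsWithin_le_nhds |>.eventually (gt_mem_nhds one_pos)
  obtain ⟨k0, hk0⟩ := eventually_atTop.1 (hu.eventually hev)
  set δ : ℕ → ℝ := fun k => 1 / (((k + k0 : ℕ) : ℝ) + 1) with hδ
  have hδt : Tendsto δ atTop (𝓝[>] 0) := hu.comp (tendsto_add_atTop_nat k0)
  have hδ' := fun k => hk0 (k + k0) (Nat.le_add_left _ _)
  have hl : ∀ k, 0 < 2 / π * Real.negMulLog (δ k) := fun k =>
    mul_pos (by positivity) (by
      have h1 : 0 < δ k := (hδ' k).1.1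
      have h2 := Real.log_neg h1 (hδ' k).1.2
      rw [Real.negMulLog]; nlinarith)
  have hxK : ∀ k, v - δ k • z ∈ K := fun k => F.mem_K fun a ha => by
    have h1 := mul_le_mul_of_nonneg_left (hB' a ha) (hδ' k).1.1.le
    have h2 := mul_nonneg (hδ' k).1.1.le (hκ0 a ha)
    have h3 := (hδ' k).2.1
    rcases hx a ha (δ k) with h | h <;> rw [h] <;> linarith
  choose y hy1 hy2 using fun k => F.star _ (hxK k) b hb
  set η : ℕ → Fin n → ℝ := fun k => (2 / π * Real.negMulLog (δ k))⁻¹ • y k with hη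
  have hηa : ∀ k a, a ⬝ᵥ η k = a ⬝ᵥ y k / (2 / π * Real.negMulLog (δ k)) := fun k a => by
    rw [div_eq_inv_mul]
    change a ⬝ᵥ ((2 / π * Real.negMulLog (δ k))⁻¹ • y k) = _
    rw [dotProduct_smul, smul_eq_mul]
  have hη1 : ∀ k, ∀ a ∈ W, a ⬝ᵥ η k ≤ SS (1 - δ k * κ a) / (2 / π * Real.negMulLog (δ k)) := by
    intro k a ha
    rw [hηa, ← hS a ha]
    exact div_le_div_of_nonneg_right (hy1 k a ha) (hl k).le
  obtain ⟨R, -, hR⟩ := F.body.1.isBounded.exists_pos_norm_le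
  obtain ⟨η0, -, φ, hφ, hη0⟩ := (isCompact_closedBall (0 : Fin n → ℝ) ((B + 1) * R)).tendsto_subseq
    (x := η) fun k => by
      rw [mem_closedBall_zero_iff]
      exact scale_bound (a := id) (P := fun a => a ∈ W) (fun x hx => hR x (F.mem_K hx))
        (by positivity) fun a ha => by
          simp only [id]; linarith [hη1 k a ha, (hδ' k).2.2 a ha, hB' a ha]
  have hr : ∀ a ∈ W, Tendsto (fun k => SS (1 - δ (φ k) * κ a) / (2 / π * Real.negMulLog (δ (φ k))))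
      atTop (𝓝 (κ a)) := fun a ha => (SS_ratio (hκ0 a ha)).comp (hδt.comp hφ.tendsto_atTop)
  refine ⟨η0, fun a ha => le_of_tendsto_of_tendsto' (tendsto_dot tendsto_const_nhds hη0) (hr a ha)
    fun k => hη1 (φ k) a ha, fun ζ => ?_⟩
  by_cases hbζ : b ⬝ᵥ ζ ≤ 0
  · exact Or.inl hbζ
  right
  have hfr : ∃ a ∈ W, ∃ᶠ k in atTop,
      a ⬝ᵥ y (φ k) = SS (a ⬝ᵥ (v - δ (φ k) • z)) ∧ b ⬝ᵥ ζ ≤ a ⬝ᵥ ζ := by
    by_contra hcon
    push Not at hcon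
    obtain ⟨k, hk⟩ := ((eventually_all_finset W).2 hcon).exists
    obtain ⟨a, ha, h1, h2⟩ := (hy2 (φ k) ζ).resolve_left hbζ
    exact absurd h2 (not_le.2 (hk a ha h1))
  obtain ⟨a, ha, hf⟩ := hfr
  refine ⟨a, ha, tendsto_nhds_unique_of_frequently_eq (tendsto_dot tendsto_const_nhds hη0)
    (hr a ha) (hf.mono fun k hk => ?_), hf.exists.choose_spec.2⟩
  change a ⬝ᵥ η (φ k) = _
  rw [hηa, hk.1, hS a ha]

end Frame

/-- facial cone of a vertex -/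
def Cone (V : Finset (Fin n → ℝ)) (v c : Fin n → ℝ) : Prop := ∀ u ∈ V, c ⬝ᵥ u ≤ c ⬝ᵥ v

/-- value of the dual norm -/
def IsN (V : Finset (Fin n → ℝ)) (b : Fin n → ℝ) (s : ℝ) : Prop :=
  (∀ u ∈ V, b ⬝ᵥ u ≤ s) ∧ ∃ u ∈ V, b ⬝ᵥ u = s

lemma Cone.add {V : Finset (Fin n → ℝ)} {v c d : Fin n → ℝ} (hc : Cone V v c) (hd : Cone V v d) :
    Cone V v (c + d) := fun u hu => by
  rw [add_dotProduct, add_dotProduct]; linarith [hc u hu, hd u hu]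

namespace Frame

variable {K : Set (Fin n → ℝ)} {V W : Finset (Fin n → ℝ)} (F : Frame K V W)
include F

lemma exists_isN (b : Fin n → ℝ) : ∃ s, IsN V b s := by
  obtain ⟨u, hu, h⟩ := Finset.exists_max_image V (fun u => b ⬝ᵥ u) F.neV
  exact ⟨_, h, u, hu, rfl⟩

lemma bound_nonneg {b : Fin n → ℝ} {s : ℝ} (h : ∀ u ∈ V, b ⬝ᵥ u ≤ s) : 0 ≤ s := by
  obtain ⟨u, hu⟩ := F.neV
  have h1 := h u hu
  have h2 := h _ (F.negV u hu)
  rw [dotProduct_neg] at h2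
  linarith

lemma hull_scaled {b : Fin n → ℝ} {s : ℝ} (h : ∀ u ∈ V, b ⬝ᵥ u ≤ s) :
    ∃ l : (Fin n → ℝ) → ℝ, (∀ a ∈ W, 0 ≤ l a) ∧ ∑ a ∈ W, l a = s ∧ ∑ a ∈ W, l a • a = b := by
  rcases (F.bound_nonneg h).eq_or_lt with h0 | h0
  · subst h0
    exact ⟨0, by simp, by simp, by simp [F.zeroV h]⟩
  · obtain ⟨l, h1, h2, h3⟩ := F.hullW (b := s⁻¹ • b) (F.mem_P fun v hv => by
      rw [smul_dotProduct, smul_eq_mul, inv_mul_le_iff₀ h0, mul_one]; exact h v hv)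
    refine ⟨fun a => s * l a, fun a ha => mul_nonneg h0.le (h1 a ha), ?_, ?_⟩
    · rw [← Finset.mul_sum, h2, mul_one]
    · simp only [mul_smul]
      rw [← Finset.smul_sum, h3, smul_smul, mul_inv_cancel₀ h0.ne', one_smul]

lemma cone_nonneg {v c ξ : Fin n → ℝ} (hv : v ∈ V) (hc : Cone V v c)
    (hξ : ∀ a ∈ W, a ⬝ᵥ v = 1 → 0 ≤ a ⬝ᵥ ξ) : 0 ≤ c ⬝ᵥ ξ := by
  obtain ⟨l, h1, h2, h3⟩ := F.hull_scaled hc
  have h4 : ∑ a ∈ W, l a * (1 - a ⬝ᵥ v) = 0 := by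
    simp only [mul_sub, Finset.sum_sub_distrib, mul_one]
    rw [h2, ← h3, sum_dotProduct]
    simp
  have h5 := (Finset.sum_eq_zero_iff_of_nonneg fun a ha =>
    mul_nonneg (h1 a ha) (by linarith [F.le1 hv ha])).1 h4
  rw [← h3, sum_dotProduct]
  refine Finset.sum_nonneg fun a ha => ?_
  rw [smul_dotProduct, smul_eq_mul]
  rcases mul_eq_zero.1 (h5 a ha) with h | h
  · rw [h, zero_mul]
  · exact mul_nonneg (h1 a ha) (hξ a ha (by linarith))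

lemma dec {v b : Fin n → ℝ} {s : ℝ} (hv : v ∈ V) (h : ∀ u ∈ V, b ⬝ᵥ u ≤ s) :
    ∃ p q, Cone V v p ∧ Cone V v q ∧ b = p - q ∧ s = p ⬝ᵥ v + q ⬝ᵥ v := by
  classical
  obtain ⟨l, h1, h2, h3⟩ := F.hull_scaled h
  refine ⟨∑ a ∈ W with a ⬝ᵥ v = 1, l a • a, ∑ a ∈ W with ¬ a ⬝ᵥ v = 1, l a • (-a), ?_, ?_, ?_, ?_⟩
  · intro u hu
    rw [sum_dotProduct, sum_dotProduct]
    refine Finset.sum_le_sum fun a ha => ?_
    rw [Finset.mem_filter] at ha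
    rw [smul_dotProduct, smul_dotProduct, ha.2]
    exact mul_le_mul_of_nonneg_left (F.le1 hu ha.1) (h1 a ha.1)
  · intro u hu
    rw [sum_dotProduct, sum_dotProduct]
    refine Finset.sum_le_sum fun a ha => ?_
    rw [Finset.mem_filter] at ha
    rw [smul_dotProduct, smul_dotProduct, neg_dotProduct a v, (F.pm v hv a ha.1).resolve_left ha.2,
      neg_neg]
    exact mul_le_mul_of_nonneg_left (F.le1 hu (F.negW a ha.1)) (h1 a ha.1)
  · simp only [smul_neg, Finset.sum_neg_distrib, sub_neg_eq_add]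
    rw [Finset.sum_filter_add_sum_filter_not, h3]
  · rw [← h2, ← Finset.sum_filter_add_sum_filter_not W (fun a => a ⬝ᵥ v = 1), sum_dotProduct,
      sum_dotProduct]
    congr 1
    · refine Finset.sum_congr rfl fun a ha => ?_
      rw [Finset.mem_filter] at ha
      rw [smul_dotProduct, ha.2]; simp
    · refine Finset.sum_congr rfl fun a ha => ?_
      rw [Finset.mem_filter] at ha
      rw [smul_dotProduct, neg_dotProduct, (F.pm v hv a ha.1).resolve_left ha.2]; simp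

lemma dom {v b1 b2 : Fin n → ℝ} {s : ℝ} (hv : v ∈ V) (h1 : Cone V v b1) (h2 : Cone V v b2)
    (hs : IsN V (b1 - b2) s) : ∃ c, Cone V v c ∧ Cone V v (b1 - c) ∧ Cone V v (b2 - c) ∧
      s = b1 ⬝ᵥ v + b2 ⬝ᵥ v - 2 * (c ⬝ᵥ v) := by
  have hs0 := F.bound_nonneg hs.1
  rcases hs0.eq_or_lt with h0 | h0
  · subst h0
    have : b1 = b2 := sub_eq_zero.1 (F.zeroV hs.1)
    subst this
    exact ⟨b1, h1, by simp [Cone], by simp [Cone], by ring⟩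
  obtain ⟨t, ht⟩ : ∃ t, t = (b1 ⬝ᵥ v + b2 ⬝ᵥ v - s) / 2 := ⟨_, rfl⟩
  obtain ⟨α, hα⟩ : ∃ α, α = b1 ⬝ᵥ v - t := ⟨_, rfl⟩
  obtain ⟨β, hβ⟩ : ∃ β, β = b2 ⬝ᵥ v - t := ⟨_, rfl⟩
  have ht0 : 0 ≤ t := by
    obtain ⟨u, hu, h⟩ := hs.2
    have a1 := h1 u hu
    have a2 := h2 _ (F.negV u hu)
    rw [sub_dotProduct] at h
    rw [dotProduct_neg] at a2
    linarith
  have hα0 : 0 ≤ α := by
    have := hs.1 _ (F.negV v hv)
    rw [sub_dotProduct, dotProduct_neg, dotProduct_neg] at this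
    linarith
  have hβ0 : 0 ≤ β := by
    have := hs.1 _ hv
    rw [sub_dotProduct] at this
    linarith
  set G : Set (Fin n → ℝ) := polar K ∩ {a | a ⬝ᵥ v = 1} with hG
  have hGc : IsCompact G := F.body.polar.1.inter_right
    (isClosed_eq (cont_dot continuous_id continuous_const) continuous_const)
  have hGv : Convex ℝ G := F.body.polar.2.1.inter fun x hx y hy a b _ _ hab => by
    have hx' : x ⬝ᵥ v = 1 := hx
    have hy' : y ⬝ᵥ v = 1 := hy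
    change (a • x + b • y) ⬝ᵥ v = 1
    rw [add_dotProduct, smul_dotProduct, smul_dotProduct, hx', hy']; simpa using hab
  have hGW : ∀ a ∈ W, a ⬝ᵥ v = 1 → a ∈ G := fun a ha h => ⟨F.subW a ha, h⟩
  have hGne : G.Nonempty := by
    obtain ⟨a, ha⟩ := F.neW
    rcases F.pm v hv a ha with h | h
    · exact ⟨a, hGW a ha h⟩
    · exact ⟨-a, hGW _ (F.negW a ha) (by rw [neg_dotProduct, h, neg_neg])⟩
  have hGcone : ∀ a ∈ G, ∀ r : ℝ, 0 ≤ r → Cone V v (r • a) ∧ (r • a) ⬝ᵥ v = r := by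
    intro a ha r hr
    have ha2 : a ⬝ᵥ v = 1 := ha.2
    refine ⟨fun u hu => ?_, by rw [smul_dotProduct, ha2]; simp⟩
    rw [smul_dotProduct, smul_dotProduct, ha2]
    exact mul_le_mul_of_nonneg_left (ha.1 u (F.subV u hu)) hr
  set L : (Fin n → ℝ) × (Fin n → ℝ) × (Fin n → ℝ) → EE n :=
    fun x => (t • x.1 + α • x.2.1, t • x.1 + β • x.2.2) with hL
  by_cases hmem : (b1, b2) ∈ L '' (G ×ˢ G ×ˢ G)
  · obtain ⟨⟨c, g, g'⟩, ⟨hc, hg, hg'⟩, h⟩ := hmem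
    simp only [hL, Prod.mk.injEq] at h
    refine ⟨t • c, (hGcone c hc t ht0).1, ?_, ?_, ?_⟩
    · rw [← h.1, add_sub_cancel_left]; exact (hGcone g hg α hα0).1
    · rw [← h.2, add_sub_cancel_left]; exact (hGcone g' hg' β hβ0).1
    · rw [(hGcone c hc t ht0).2]; linarith
  exfalso
  have hlin : IsLinearMap ℝ L := ⟨fun x y => by
      simp only [hL, Prod.fst_add, Prod.snd_add, smul_add, Prod.mk_add_mk]
      congr 1 <;> abel, fun r x => by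
      simp only [hL, Prod.smul_fst, Prod.smul_snd, Prod.smul_mk, smul_add, smul_comm r]⟩
  obtain ⟨f, u, hf1, hf2⟩ := geometric_hahn_banach_point_closed
    ((hGv.prod (hGv.prod hGv)).is_linear_image hlin)
    ((hGc.prod (hGc.prod hGc)).image (by simp only [hL]; fun_prop)).isClosed hmem
  obtain ⟨ζ1, hζ1⟩ := exists_vec (f.comp (ContinuousLinearMap.inl ℝ _ _))
  obtain ⟨ζ2, hζ2⟩ := exists_vec (f.comp (ContinuousLinearMap.inr ℝ _ _))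
  have hf : ∀ x y, f (x, y) = x ⬝ᵥ ζ1 + y ⬝ᵥ ζ2 := fun x y => by
    rw [dotProduct_comm x, dotProduct_comm y, hζ1, hζ2]
    simp [← map_add]
  obtain ⟨c0, hc0, m0⟩ := hGc.exists_isMinOn hGne (f := fun a => a ⬝ᵥ ζ1 + a ⬝ᵥ ζ2)
    ((cont_dot continuous_id continuous_const).add
      (cont_dot continuous_id continuous_const)).continuousOn
  obtain ⟨g1, hg1, m1⟩ := hGc.exists_isMinOn hGne (f := fun a => a ⬝ᵥ ζ1)
    (cont_dot continuous_id continuous_const).continuousOn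
  obtain ⟨g2, hg2, m2⟩ := hGc.exists_isMinOn hGne (f := fun a => a ⬝ᵥ ζ2)
    (cont_dot continuous_id continuous_const).continuousOn
  have m0' : ∀ a ∈ G, c0 ⬝ᵥ ζ1 + c0 ⬝ᵥ ζ2 ≤ a ⬝ᵥ ζ1 + a ⬝ᵥ ζ2 := fun a ha => m0 ha
  have m1' : ∀ a ∈ G, g1 ⬝ᵥ ζ1 ≤ a ⬝ᵥ ζ1 := fun a ha => m1 ha
  have m2' : ∀ a ∈ G, g2 ⬝ᵥ ζ2 ≤ a ⬝ᵥ ζ2 := fun a ha => m2 ha
  have hsep := hf1.trans (hf2 _ ⟨(c0, g1, g2), ⟨hc0, hg1, hg2⟩, rfl⟩)
  simp only [hL, hf, add_dotProduct, smul_dotProduct, smul_eq_mul] at hsep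
  obtain ⟨μ, hμ⟩ : ∃ μ, μ = (c0 ⬝ᵥ ζ1 + c0 ⬝ᵥ ζ2) / 2 := ⟨_, rfl⟩
  obtain ⟨z, hz⟩ : ∃ z, z = (1 / 2 : ℝ) • (ζ1 + ζ2) - μ • v := ⟨_, rfl⟩
  have hza : ∀ a, a ⬝ᵥ z = (a ⬝ᵥ ζ1 + a ⬝ᵥ ζ2) / 2 - μ * (a ⬝ᵥ v) := fun a => by
    rw [hz, dotProduct_sub, dotProduct_smul, dotProduct_smul, dotProduct_add, smul_eq_mul,
      smul_eq_mul]; ring
  obtain ⟨η, hη1, hη2⟩ := F.pplus hv (z := z) (b := s⁻¹ • (b1 - b2))
    (fun a ha h => by rw [hza, h]; linarith [m0' a (hGW a ha h)])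
    (F.mem_P fun u hu => by
      rw [smul_dotProduct, smul_eq_mul, inv_mul_le_iff₀ h0, mul_one]; exact hs.1 u hu)
  have c1 := F.cone_nonneg hv h1 (ξ := z - η) fun a ha h => by
    have := hη1 a ha
    rw [h, one_mul] at this
    rw [dotProduct_sub]; linarith
  have c2 := F.cone_nonneg hv h2 (ξ := z + η) fun a ha h => by
    have := hη1 _ (F.negW a ha)
    rw [neg_dotProduct, neg_dotProduct, neg_dotProduct, h] at this
    rw [dotProduct_add]; linarith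
  rw [dotProduct_sub, hza] at c1
  rw [dotProduct_add, hza] at c2
  obtain ⟨ζ0, hζ0⟩ : ∃ ζ0, ζ0 = ((g1 ⬝ᵥ ζ1 - g2 ⬝ᵥ ζ2) / 2) • v - η - (1 / 2 : ℝ) • (ζ1 - ζ2) :=
    ⟨_, rfl⟩
  have hζa : ∀ a, a ⬝ᵥ ζ0 = (g1 ⬝ᵥ ζ1 - g2 ⬝ᵥ ζ2) / 2 * (a ⬝ᵥ v) - a ⬝ᵥ η -
      (a ⬝ᵥ ζ1 - a ⬝ᵥ ζ2) / 2 := fun a => by
    rw [hζ0, dotProduct_sub, dotProduct_sub, dotProduct_smul, dotProduct_smul, dotProduct_sub,
      smul_eq_mul, smul_eq_mul]; ring
  obtain ⟨κ, hκ⟩ : ∃ κ, κ = μ - (g1 ⬝ᵥ ζ1 + g2 ⬝ᵥ ζ2) / 2 := ⟨_, rfl⟩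
  have hκ0 : 0 ≤ κ := by linarith [m1' c0 hc0, m2' c0 hc0]
  have hbig : κ < (s⁻¹ • (b1 - b2)) ⬝ᵥ ζ0 := by
    rw [smul_dotProduct, smul_eq_mul, lt_inv_mul_iff₀ h0, sub_dotProduct, hζa, hζa]
    have e1 : b1 ⬝ᵥ v = α + t := by linarith
    have e2 : b2 ⬝ᵥ v = β + t := by linarith
    have e3 : s = α + β := by linarith
    rw [e1] at c1
    rw [e2] at c2
    rw [e1, e2, e3, hκ]
    have e4 : t * (c0 ⬝ᵥ ζ1) + t * (c0 ⬝ᵥ ζ2) = 2 * (μ * t) := by rw [hμ]; ring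
    linarith
  rcases hη2 ζ0 with h | ⟨a, ha, h3, h4⟩
  · linarith
  · have h5 : a ⬝ᵥ ζ0 ≤ κ := by
      rw [hζa, h3, hza, hκ]
      rcases F.pm v hv a ha with h | h
      · have := m1' a (hGW a ha h)
        rw [h]; linarith
      · have := m2' _ (hGW _ (F.negW a ha) (by rw [neg_dotProduct, h, neg_neg]))
        rw [neg_dotProduct] at this
        rw [h]; linarith
    linarith

end Frame

end Vale.Agent.P248
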