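import Vale.Agent.P248.MA

open Complex Set Metric Filter Topology MeasureTheory Matrix
open scoped Real

namespace Vale.Agent.P248

variable {n : ℕ}

/-- radial model integrand -/
noncomputable def rad (A b r : ℝ) (k : ℕ) (s : ℝ) : ℝ :=
  if s ≤ r then A * s ^ (2 * k) * Real.exp (-(b * s ^ (2 * (k + 1)))) else 0

lemma integral_rad (A : ℝ) {b r : ℝ} (hb : 0 < b) (hr : 0 < r) (k : ℕ) :
    ∫ w : ℂ, rad A b r k ‖w‖ =
      A * π / (b * (k + 1)) * (1 - Real.exp (-(b * r ^ (2 * (k + 1))))) := by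
  rw [integral_fun_norm_addHaar volume (rad A b r k)]
  have h1 : ∫ y in Ioi (0 : ℝ), y ^ (Module.finrank ℝ ℂ - 1) • rad A b r k y =
      ∫ y in (0 : ℝ)..r, y * (A * y ^ (2 * k) * Real.exp (-(b * y ^ (2 * (k + 1))))) := by
    rw [intervalIntegral.integral_of_le hr.le, ← Ioi_inter_Iic, inter_comm,
      ← Measure.restrict_restrict measurableSet_Iic, ← integral_indicator measurableSet_Iic]
    congr 1
    funext y
    simp [rad, indicator]
  have h2 : ∀ y ∈ uIcc (0 : ℝ) r, HasDerivAt
      (fun y : ℝ => -(A / (b * (2 * (k + 1)))) * Real.exp (-(b * y ^ (2 * (k + 1)))))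
      (y * (A * y ^ (2 * k) * Real.exp (-(b * y ^ (2 * (k + 1)))))) y := by
    intro y _
    have := ((((hasDerivAt_pow (2 * (k + 1)) y).const_mul b).neg).exp).const_mul
      (-(A / (b * (2 * (k + 1)))))
    refine this.congr_deriv ?_
    rw [show 2 * (k + 1) - 1 = 2 * k + 1 by omega]
    simp only [Pi.neg_apply]
    push_cast
    field_simp
    ring
  rw [h1, intervalIntegral.integral_eq_sub_of_hasDerivAt h2
    (Continuous.intervalIntegrable (by fun_prop) _ _)]
  simp [Measure.real]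
  field_simp
  ring

/-- identification of `ℂ^n` with phase space -/
noncomputable def toEE (n : ℕ) : (Fin n → ℂ) ≃ᵐ EE n :=
  (MeasurableEquiv.piCongrRight fun _ => measurableEquivRealProd).trans
    (MeasurableEquiv.arrowProdEquivProdArrow ℝ ℝ (Fin n))

lemma toEE_mp : MeasurePreserving (toEE n) :=
  (volume_measurePreserving_arrowProdEquivProdArrow ℝ ℝ (Fin n)).comp
    (volume_preserving_pi fun _ => volume_preserving_equiv_real_prod)

lemma ell_toEE (z : Fin n → ℂ) (i : Fin n) : ell (Pi.single i 1) (toEE n z) = z i := by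
  apply Complex.ext
  · rw [ell_re, single_one_dotProduct]; rfl
  · rw [ell_im, single_one_dotProduct]; rfl

lemma local_lower {C : Set (EE n)} (hC : MeasurableSet C) {f : EE n → ℝ} (hf : IntegrableOn f C)
    (hf0 : ∀ p, 0 ≤ f p) {A b r : ℝ} (hA : 0 ≤ A) (hb : 0 < b) (hr : 0 < r) (k : ℕ)
    (h : ∀ p : EE n, (∀ i, ‖ell (Pi.single i 1) p‖ ≤ r) → p ∈ C ∧
      ∏ i, (A * ‖ell (Pi.single i 1) p‖ ^ (2 * k) *
        Real.exp (-(b * ‖ell (Pi.single i 1) p‖ ^ (2 * (k + 1))))) ≤ f p) :
    (A * π / (b * (k + 1)) * (1 - Real.exp (-(b * r ^ (2 * (k + 1)))))) ^ n ≤ ∫ p in C, f p := by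
  have h1 : ∫ p : EE n, ∏ i, rad A b r k ‖ell (Pi.single i 1) p‖ =
      (A * π / (b * (k + 1)) * (1 - Real.exp (-(b * r ^ (2 * (k + 1)))))) ^ n := by
    rw [← toEE_mp.integral_comp']
    simp only [ell_toEE]
    rw [integral_fintype_prod_volume_eq_pow (fun w : ℂ => rad A b r k ‖w‖), integral_rad A hb hr,
      Fintype.card_fin]
  rw [← h1, ← integral_indicator hC]
  apply integral_mono_of_nonneg
  · refine ae_of_all _ fun p => Finset.prod_nonneg fun i _ => ?_
    unfold rad
    split_ifs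
    · positivity
    · exact le_rfl
  · exact (integrable_indicator_iff hC).2 hf
  · refine ae_of_all _ fun p => ?_
    by_cases hp : ∀ i, ‖ell (Pi.single i 1) p‖ ≤ r
    · obtain ⟨h2, h3⟩ := h p hp
      simp only [indicator_of_mem h2]
      refine le_trans (le_of_eq ?_) h3
      exact Finset.prod_congr rfl fun i _ => if_pos (hp i)
    · push Not at hp
      obtain ⟨i, hi⟩ := hp
      simp only
      rw [Finset.prod_eq_zero (Finset.mem_univ i) (if_neg (not_le.2 hi))]
      exact indicator_nonneg (fun p _ => hf0 p) p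

end Vale.Agent.P248
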