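import Vale.Agent.P248.Geo
import Vale.Agent.P248.Local

open Complex Set Metric Filter Topology MeasureTheory Matrix
open scoped Real

namespace Vale.Agent.P248

variable {n : ℕ} {J : Type} [Fintype J] [DecidableEq J]

/-- extended family of vectors -/
def aa (a : J → Fin n → ℝ) : J ⊕ Fin n → Fin n → ℝ := Sum.elim a fun i => Pi.single i 1

/-- the potential used in the proof -/
noncomputable def PP (J : Type) (n m : ℕ) (σ : ℝ) : Pot (J ⊕ Fin n) :=
  Pot.ofHol (Sum.elim (fun _ => DD) fun _ => univ)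
    (Sum.elim (fun _ => Gm (m + 1 + 1)) fun _ w => σ * w ^ (m + 1))
    (by rintro (j | i); exacts [isOpen_DD, isOpen_univ])
    (by
      rintro (j | i)
      · exact Gm_analytic _
      · intro w _
        simp only [Sum.elim_inr]
        fun_prop)

lemma muG_pow (m : ℕ) (σ : ℝ) (w : ℂ) :
    muG (fun w => σ * w ^ (m + 1)) w = 4 * σ ^ 2 * (m + 1) ^ 2 * ‖w‖ ^ (2 * m) := by
  have := ((hasDerivAt_pow (m + 1) w).const_mul (σ : ℂ)).deriv
  rw [muG, this, normSq_eq_norm_sq]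
  simp only [Nat.add_sub_cancel, norm_mul, norm_pow, Complex.norm_natCast, Complex.norm_real,
    mul_pow, Real.norm_eq_abs, sq_abs]
  push_cast
  ring

omit [DecidableEq J] in
lemma Psi_PP (a : J → Fin n → ℝ) (m : ℕ) (σ : ℝ) (p : EE n) : (PP J n m σ).Psi (aa a) p =
    ∑ j, normSq (Gm (m + 1 + 1) (ell (a j) p)) +
      σ ^ 2 * ∑ i, ‖ell (Pi.single i 1) p‖ ^ (2 * (m + 1)) := by
  rw [Pot.Psi, Fintype.sum_sum_type, Finset.mul_sum]
  congr 1
  refine Finset.sum_congr rfl fun i _ => ?_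
  change normSq (σ * (ell (Pi.single i 1) p) ^ (m + 1)) = _
  rw [normSq_eq_norm_sq, norm_mul, norm_pow, Complex.norm_real, mul_pow, Real.norm_eq_abs, sq_abs]
  ring

omit [Fintype J] [DecidableEq J] in
lemma mem_U_PP {a : J → Fin n → ℝ} {m : ℕ} {σ : ℝ} {p : EE n} :
    p ∈ (PP J n m σ).U (aa a) ↔ ∀ j, ell (a j) p ∈ DD := by
  constructor
  · exact fun h j => h (Sum.inl j)
  · rintro h (j | i)
    · exact h j
    · exact mem_univ _

lemma dH_PP (a : J → Fin n → ℝ) (m : ℕ) (σ : ℝ) (p : EE n) :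
    ∏ i, (4 * σ ^ 2 * (m + 1) ^ 2 * ‖ell (Pi.single i 1) p‖ ^ (2 * m)) ≤
      (PP J n m σ).dH (aa a) p := by
  have h := det_Hm_mono (aa a) (m := (PP J n m σ).mu (aa a) p)
    (m' := Sum.elim 0 fun i => 4 * σ ^ 2 * (m + 1) ^ 2 * ‖ell (Pi.single i 1) p‖ ^ (2 * m))
    (by rintro (j | i); exacts [le_rfl, by simp only [Sum.elim_inr]; positivity])
    (by
      rintro (j | i)
      · exact muG_nonneg _ _
      · exact le_of_eq (muG_pow m σ _).symm)
  refine le_trans (le_of_eq ?_) h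
  rw [← det_diagonal]
  congr 1
  ext k l
  rw [Hm_apply, Fintype.sum_sum_type]
  by_cases hkl : k = l
  · subst hkl; simp [aa, Pi.single_apply]
  · simp [aa, Pi.single_apply, hkl]

lemma exists_SS_bound : ∃ M : ℝ, 0 < M ∧ ∀ q, SS q ≤ M := by
  obtain ⟨M, h0, hM⟩ := exists_lf_bound
  exact ⟨M, h0, fun q => ((le_abs_self _).trans (abs_im_le_norm _)).trans
    (hM _ (norm_expI _).le)⟩

omit [Fintype J] [DecidableEq J] in
lemma U_bounded {a : J → Fin n → ℝ} {R : ℝ} (hR : ∀ x, (∀ j, |a j ⬝ᵥ x| ≤ 1) → ‖x‖ ≤ R) :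
    ∃ R' : ℝ, 0 < R' ∧ ∀ p : EE n, (∀ j, ell (a j) p ∈ DD) → ‖p‖ ≤ R' := by
  obtain ⟨M, h0, hM⟩ := exists_SS_bound
  have hR0 : 0 ≤ R := by simpa using hR 0 (by simp)
  refine ⟨R + R * M + 1, by positivity, fun p hp => ?_⟩
  have h1 := hR p.1 fun j => by simpa using (DD_bound (hp j)).1
  have h2 := hR (M⁻¹ • p.2) fun j => by
    have := (DD_bound (hp j)).2.trans (hM _)
    rw [dotProduct_smul, smul_eq_mul, abs_mul, abs_of_pos (inv_pos.2 h0), inv_mul_le_iff₀ h0]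
    simpa using this
  rw [norm_smul, Real.norm_of_nonneg (inv_pos.2 h0).le, inv_mul_le_iff₀ h0] at h2
  rw [Prod.norm_def, max_le_iff]
  have := mul_nonneg hR0 h0.le
  constructor <;> linarith

omit [DecidableEq J] in
lemma compact_sub {a : J → Fin n → ℝ} {R : ℝ} (hR : ∀ x, (∀ j, |a j ⬝ᵥ x| ≤ 1) → ‖x‖ ≤ R)
    (m : ℕ) (σ : ℝ) {τ : ℝ} (h0 : 0 < τ) (h1 : τ < 1) :
    IsCompact ((PP J n m σ).Sub (aa a) τ) := by
  obtain ⟨R', -, hR'⟩ := U_bounded hR
  obtain ⟨ρ, hρ0, hρ1, hρ⟩ : ∃ ρ : ℝ, 0 ≤ ρ ∧ ρ < 1 ∧ τ ≤ ρ ^ (2 * (m + 1 + 1)) := by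
    have hk : (1 : ℝ) ≤ ((2 * (m + 1 + 1) : ℕ) : ℝ) := Nat.one_le_cast.2 (by omega)
    set k := 2 * (m + 1 + 1)
    have a1 : (1 - τ) / k ≤ 1 := by rw [div_le_one (by linarith)]; linarith
    have a2 : 0 < (1 - τ) / k := div_pos (by linarith) (by linarith)
    refine ⟨1 + -((1 - τ) / k), by linarith, by linarith, ?_⟩
    refine le_trans (le_of_eq ?_) (one_add_mul_le_pow (by linarith) k)
    field_simp
    ring
  have hK0 : IsCompact (lf '' closedBall 0 ρ) :=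
    (isCompact_closedBall 0 ρ).image_of_continuousOn
      (lf_contOn.mono (closedBall_subset_closedBall hρ1.le))
  set K : Set (EE n) := closedBall 0 R' ∩ ⋂ j, ell (a j) ⁻¹' (lf '' closedBall 0 ρ) with hK
  have hKc : IsCompact K := (isCompact_closedBall 0 R').inter_right
    (isClosed_iInter fun j => hK0.isClosed.preimage (ell (a j)).continuous)
  have hKU : K ⊆ (PP J n m σ).U (aa a) := fun p hp => mem_U_PP.2 fun j =>
    image_mono (closedBall_subset_ball hρ1) (mem_iInter.1 hp.2 j)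
  have e : (PP J n m σ).Sub (aa a) τ = K ∩ (PP J n m σ).Psi (aa a) ⁻¹' Iic τ := by
    ext p
    refine ⟨fun hp => ⟨⟨?_, mem_iInter.2 fun j => ?_⟩, hp.2⟩, fun hp => ⟨hKU hp.1, hp.2⟩⟩
    · simpa using hR' p (mem_U_PP.1 hp.1)
    · have hD := mem_U_PP.1 hp.1 j
      refine ⟨_, ?_, lf_gg hD⟩
      have h2 := hp.2
      rw [Psi_PP] at h2
      have h3 : normSq (Gm (m + 1 + 1) (ell (a j) p)) ≤
          ∑ j, normSq (Gm (m + 1 + 1) (ell (a j) p)) :=
        Finset.single_le_sum (f := fun j => normSq (Gm (m + 1 + 1) (ell (a j) p)))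
          (fun j _ => normSq_nonneg _) (Finset.mem_univ j)
      have h4 : 0 ≤ σ ^ 2 * ∑ i, ‖ell (Pi.single i 1) p‖ ^ (2 * (m + 1)) := by positivity
      rw [Gm, normSq_eq_norm_sq, norm_pow, ← pow_mul, mul_comm] at h3
      simp only [mem_closedBall, dist_zero_right]
      exact (pow_le_pow_iff_left₀ (norm_nonneg _) hρ0 (n := 2 * (m + 1 + 1)) (by omega)).1
        (by linarith)
  rw [e]
  apply hKc.of_isClosed_subset _ inter_subset_left
  exact ContinuousOn.preimage_isClosed_of_isClosed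
    (fun p hp => ((PP J n m σ).contDiffAt_Psi _ (hKU hp)).continuousAt.continuousWithinAt)
    hKc.isClosed isClosed_Iic

lemma ell_eq_sum (b : Fin n → ℝ) (p : EE n) : ell b p = ∑ i, b i • ell (Pi.single i 1) p := by
  apply Complex.ext
  · simp [dotProduct, Pi.single_apply]
  · simp [dotProduct, Pi.single_apply]

omit [DecidableEq J] in
lemma exists_radius {N : ℕ} (a : J → Fin (N + 1) → ℝ) (m : ℕ) {σ ε τ : ℝ} (hσ : 0 < σ) (hε : 0 < ε)
    (hτ : 0 < τ) : ∃ r : ℝ, 0 < r ∧ ∀ p : EE (N + 1), (∀ i, ‖ell (Pi.single i 1) p‖ ≤ r) →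
      p ∈ (PP J (N + 1) m σ).Sub (aa a) τ ∧ (PP J (N + 1) m σ).Psi (aa a) p ≤
        (1 + ε) * σ ^ 2 * ∑ i, ‖ell (Pi.single i 1) p‖ ^ (2 * (m + 1)) := by
  obtain ⟨L, hL0, hL⟩ := (gg_hasDerivAt zero_mem_DD).isBigO_sub.exists_pos
  obtain ⟨r0, hr0, hr⟩ := Metric.eventually_nhds_iff.1
    (hL.bound.and (isOpen_DD.mem_nhds zero_mem_DD))
  simp only [gg_zero, sub_zero, dist_zero_right] at hr
  set B := ∑ j, ∑ i, |a j i| with hB
  have hB0 : 0 ≤ B := by positivity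
  have t1 : ∀ᶠ r in 𝓝[>] (0 : ℝ), B * r < r0 :=
    (Continuous.tendsto' (f := fun r : ℝ => B * r) (by fun_prop) 0 0 (by simp)).mono_left
      nhdsWithin_le_nhds |>.eventually (gt_mem_nhds hr0)
  have t2 : ∀ᶠ r in 𝓝[>] (0 : ℝ), Fintype.card J * (L * B) ^ (2 * (m + 1 + 1)) * r ^ 2 < ε * σ ^ 2 :=
    (Continuous.tendsto' (f := fun r : ℝ => Fintype.card J * (L * B) ^ (2 * (m + 1 + 1)) * r ^ 2)
      (by fun_prop) 0 0 (by simp)).mono_left
      nhdsWithin_le_nhds |>.eventually (gt_mem_nhds (by positivity))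
  have t3 : ∀ᶠ r in 𝓝[>] (0 : ℝ), (1 + ε) * σ ^ 2 * ((N + 1) * r ^ (2 * (m + 1))) < τ :=
    (Continuous.tendsto' (f := fun r : ℝ => (1 + ε) * σ ^ 2 * ((N + 1) * r ^ (2 * (m + 1))))
      (by fun_prop) 0 0 (by simp)).mono_left
      nhdsWithin_le_nhds |>.eventually (gt_mem_nhds hτ)
  obtain ⟨r, ⟨⟨h1, h2⟩, h3⟩, h4⟩ := (((t1.and t2).and t3).and self_mem_nhdsWithin).exists
  refine ⟨r, h4, fun p hp => ?_⟩
  obtain ⟨i0, -, hi0⟩ := Finset.exists_max_image Finset.univ (fun i => ‖ell (Pi.single i 1) p‖)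
    Finset.univ_nonempty
  set t := ‖ell (Pi.single i0 1) p‖ with ht
  have ht0 : 0 ≤ t := norm_nonneg _
  have htr : t ≤ r := hp i0
  have h5 : ∀ j, ‖ell (a j) p‖ ≤ B * t := by
    intro j
    rw [ell_eq_sum]
    refine (norm_sum_le _ _).trans (le_trans ?_ (mul_le_mul_of_nonneg_right
      (Finset.single_le_sum (f := fun j => ∑ i, |a j i|) (fun j _ => by positivity)
        (Finset.mem_univ j)) ht0))
    rw [Finset.sum_mul]
    refine Finset.sum_le_sum fun i _ => ?_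
    rw [norm_smul, Real.norm_eq_abs]
    exact mul_le_mul_of_nonneg_left (hi0 i (Finset.mem_univ _)) (abs_nonneg _)
  have h6 : ∀ j, ‖ell (a j) p‖ < r0 := fun j =>
    (h5 j).trans_lt ((mul_le_mul_of_nonneg_left htr hB0).trans_lt h1)
  have h7 : ∑ j, normSq (Gm (m + 1 + 1) (ell (a j) p)) ≤
      ε * σ ^ 2 * ∑ i, ‖ell (Pi.single i 1) p‖ ^ (2 * (m + 1)) := by
    have b1 : ∀ j, normSq (Gm (m + 1 + 1) (ell (a j) p)) ≤ (L * (B * t)) ^ (2 * (m + 1 + 1)) := by
      intro j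
      rw [Gm, normSq_eq_norm_sq, norm_pow, ← pow_mul, mul_comm]
      exact pow_le_pow_left₀ (norm_nonneg _)
        ((hr (h6 j)).1.trans (mul_le_mul_of_nonneg_left (h5 j) hL0.le)) _
    have b2 : t ^ (2 * (m + 1)) ≤ ∑ i, ‖ell (Pi.single i 1) p‖ ^ (2 * (m + 1)) :=
      Finset.single_le_sum (f := fun i => ‖ell (Pi.single i 1) p‖ ^ (2 * (m + 1)))
        (fun j _ => by positivity) (Finset.mem_univ i0)
    have b3 : t ^ 2 ≤ r ^ 2 := pow_le_pow_left₀ ht0 htr 2
    calc _ ≤ ∑ _j : J, (L * (B * t)) ^ (2 * (m + 1 + 1)) := Finset.sum_le_sum fun j _ => b1 j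
      _ = (Fintype.card J * (L * B) ^ (2 * (m + 1 + 1)) * t ^ 2) * t ^ (2 * (m + 1)) := by
        simp only [Finset.sum_const, Finset.card_univ, nsmul_eq_mul]; ring
      _ ≤ _ := by
        apply mul_le_mul _ b2 (by positivity) (by positivity)
        exact (mul_le_mul_of_nonneg_left b3 (by positivity)).trans h2.le
  have h8 : (PP J (N + 1) m σ).Psi (aa a) p ≤
      (1 + ε) * σ ^ 2 * ∑ i, ‖ell (Pi.single i 1) p‖ ^ (2 * (m + 1)) := by
    rw [Psi_PP]; linarith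
  refine ⟨⟨mem_U_PP.2 fun j => (hr (h6 j)).2, h8.trans (le_trans ?_ h3.le)⟩, h8⟩
  apply mul_le_mul_of_nonneg_left _ (by positivity)
  calc _ ≤ ∑ _i : Fin (N + 1), r ^ (2 * (m + 1)) :=
        Finset.sum_le_sum fun i _ => pow_le_pow_left₀ (norm_nonneg _) (hp i) _
    _ = _ := by simp

lemma mass_lower {N : ℕ} {a : J → Fin (N + 1) → ℝ} {R : ℝ}
    (hR : ∀ x, (∀ j, |a j ⬝ᵥ x| ≤ 1) → ‖x‖ ≤ R) (m : ℕ) {σ ε τ : ℝ} (hσ : 0 < σ) (hε : 0 < ε)
    (h0 : 0 < τ) (h1 : τ < 1) :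
    (4 * π * (m + 1) / (1 + ε)) ^ (N + 1) ≤ (N + 1).factorial / τ ^ (N + 1) *
      ∫ p in (PP J (N + 1) m σ).Sub (aa a) τ, (PP J (N + 1) m σ).dH (aa a) p := by
  have hC := compact_sub hR m σ h0 h1
  obtain ⟨r, hr0, hr⟩ := exists_radius a m hσ hε h0
  set P := PP J (N + 1) m σ with hP
  have key : ∀ lam : ℝ, 0 < lam → (4 * π * (m + 1) / (1 + ε) *
      (1 - Real.exp (-(lam * ((1 + ε) * σ ^ 2 * r ^ (2 * (m + 1))))))) ^ (N + 1) ≤
      (N + 1).factorial / τ ^ (N + 1) * ∫ p in P.Sub (aa a) τ, P.dH (aa a) p := by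
    intro lam hl
    refine le_trans ?_ (P.ma_exp (aa a) hl h0 hC)
    have := local_lower (n := N + 1) hC.isClosed.measurableSet
      (f := fun p => lam ^ (N + 1) * Real.exp (-(lam * P.Psi (aa a) p)) * P.dH (aa a) p)
      (A := lam * (4 * σ ^ 2 * (m + 1) ^ 2)) (b := lam * ((1 + ε) * σ ^ 2)) (r := r)
      (ContinuousOn.integrableOn_compact hC fun p hp => ContinuousAt.continuousWithinAt (by
        have h1 := (P.contDiffAt_Psi (aa a) hp.1).continuousAt
        have h2 := P.continuousAt_dH (aa a) hp.1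
        fun_prop))
      (fun p => mul_nonneg (by positivity) (P.dH_nonneg _ p)) (by positivity) (by positivity) hr0 m
      (fun p hp => ⟨(hr p hp).1, by
        have e : ∏ i, (lam * (4 * σ ^ 2 * (m + 1) ^ 2) * ‖ell (Pi.single i 1) p‖ ^ (2 * m) *
            Real.exp (-(lam * ((1 + ε) * σ ^ 2) * ‖ell (Pi.single i 1) p‖ ^ (2 * (m + 1))))) =
            lam ^ (N + 1) * Real.exp (-(lam * ((1 + ε) * σ ^ 2 *
              ∑ i, ‖ell (Pi.single i 1) p‖ ^ (2 * (m + 1))))) *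
              ∏ i, (4 * σ ^ 2 * (m + 1) ^ 2 * ‖ell (Pi.single i 1) p‖ ^ (2 * m)) := by
          rw [Finset.prod_mul_distrib, ← Real.exp_sum, Finset.sum_neg_distrib, ← Finset.mul_sum]
          simp only [mul_assoc lam, Finset.prod_mul_distrib (f := fun _ => lam), Finset.prod_const,
            Finset.card_univ, Fintype.card_fin]
          ring
        rw [e]
        apply mul_le_mul _ (dH_PP a m σ p) (by positivity) (by positivity)
        apply mul_le_mul_of_nonneg_left _ (by positivity)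
        exact Real.exp_le_exp.2 (neg_le_neg (mul_le_mul_of_nonneg_left (hr p hp).2 hl.le))⟩)
    refine le_trans (le_of_eq ?_) this
    congr 2
    · field_simp
    · rw [mul_assoc lam]
  have t1 : Tendsto (fun lam : ℝ => Real.exp (-(lam * ((1 + ε) * σ ^ 2 * r ^ (2 * (m + 1))))))
      atTop (𝓝 0) :=
    Real.tendsto_exp_neg_atTop_nhds_zero.comp (tendsto_id.atTop_mul_const (by positivity))
  have t2 := ((t1.const_sub 1).const_mul (4 * π * (m + 1) / (1 + ε))).pow (N + 1)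
  rw [sub_zero, mul_one] at t2
  exact le_of_tendsto t2 ((eventually_gt_atTop 0).mono key)

lemma pint_pow_le (m : ℕ) (σ : ℝ) {R : ℝ} {w : ℂ} (h1 : |w.re| ≤ R) (h2 : |w.im| ≤ R) :
    |pint (muG fun w => σ * w ^ (m + 1)) w| ≤ σ ^ 2 * (4 * (m + 1) ^ 2 * (2 * R) ^ (2 * m) * R) := by
  have h := intervalIntegral.norm_integral_le_of_norm_le_const (a := 0) (b := w.im)
    (f := fun t : ℝ => muG (fun w => σ * w ^ (m + 1)) (w.re + t * I))
    (C := σ ^ 2 * (4 * (m + 1) ^ 2 * (2 * R) ^ (2 * m))) (fun t ht => by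
      have a1 : |t| ≤ |w.im| := by
        have := abs_sub_left_of_mem_uIcc (uIoc_subset_uIcc ht)
        simpa using this
      have a2 : ‖(w.re : ℂ) + t * I‖ ≤ 2 * R := by
        refine (norm_add_le _ _).trans ?_
        simp only [Complex.norm_real, Real.norm_eq_abs, norm_mul, norm_I, mul_one]
        linarith
      rw [Real.norm_of_nonneg (muG_nonneg _ _), muG_pow]
      have := pow_le_pow_left₀ (norm_nonneg _) a2 (2 * m)
      have := mul_le_mul_of_nonneg_left this (show 0 ≤ 4 * σ ^ 2 * ((m : ℝ) + 1) ^ 2 by positivity)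
      linarith)
  rw [sub_zero] at h
  have hR : 0 ≤ R := (abs_nonneg _).trans h1
  have := mul_le_mul_of_nonneg_left h2
    (show 0 ≤ σ ^ 2 * (4 * ((m : ℝ) + 1) ^ 2 * (2 * R) ^ (2 * m)) by positivity)
  exact h.trans (by linarith)

/-- hypothesis on the target set -/
def Target (a : J → Fin n → ℝ) (δ : ℝ) (T : Set (EE n)) : Prop :=
  ∀ (x y e : Fin n → ℝ) (p : J → ℝ), (∀ j, |a j ⬝ᵥ x| ≤ 1) → (∀ j, |a j ⬝ᵥ y| ≤ SS (a j ⬝ᵥ x)) →
    ∑ j, |p j| ≤ 1 + δ → (∀ j, 0 ≤ p j * (a j ⬝ᵥ y)) →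
    (∀ j, |a j ⬝ᵥ y| < SS (a j ⬝ᵥ x) - δ → |p j| ≤ δ) → ‖e‖ ≤ δ → (x, ∑ j, p j • a j + e) ∈ T

lemma finite_aux {N : ℕ} {a : J → Fin (N + 1) → ℝ} {R : ℝ}
    (hR : ∀ x, (∀ j, |a j ⬝ᵥ x| ≤ 1) → ‖x‖ ≤ R) {δ : ℝ} (hδ : 0 < δ) {T : Set (EE (N + 1))}
    (hT : MeasurableSet T) (hmem : Target a δ T) : ∃ m0 : ℕ, ∀ m : ℕ, m0 ≤ m → ∀ ε τ : ℝ, 0 < ε →
      0 < τ → τ < 1 → ENNReal.ofReal ((4 * τ * ((m + 1) / (m + 2)) / (1 + ε)) ^ (N + 1) /
        (N + 1).factorial) ≤ volume T := by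
  have hπ := Real.pi_pos
  obtain ⟨δ', hδ'0, hδ'⟩ : ∃ δ' : ℝ, 0 < δ' ∧ (Fintype.card J + 2) * δ' = δ :=
    ⟨δ / (Fintype.card J + 2), by positivity, by field_simp⟩
  have hcard : 0 ≤ (Fintype.card J : ℝ) * δ' := by positivity
  obtain ⟨m0, hm0⟩ := lens_p hδ'0
  obtain ⟨R', hR'0, hR'⟩ := U_bounded hR
  refine ⟨m0, fun m hm ε τ hε h0 h1 => ?_⟩
  obtain ⟨c, hc⟩ : ∃ c : ℝ, c = π * (m + 2) := ⟨_, rfl⟩
  have hc0 : 0 < c := by rw [hc]; positivity
  obtain ⟨B, hB⟩ : ∃ B : ℝ, B = 4 * (m + 1) ^ 2 * (2 * R') ^ (2 * m) * R' := ⟨_, rfl⟩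
  have hB0 : 0 < B := by rw [hB]; positivity
  obtain ⟨σ, hσ0, hσ⟩ : ∃ σ : ℝ, 0 < σ ∧ σ ^ 2 * B = c * δ :=
    ⟨√(c * δ / B), by positivity, by rw [Real.sq_sqrt (by positivity)]; field_simp⟩
  have hmass := mass_lower hR m hσ0 hε h0 h1
  have hgeo := (PP J (N + 1) m σ).geo (aa a)
    (by
      rintro (j | i) w hw t ht
      · exact vert_mem' hw ht
      · exact mem_univ _)
    (fun k => ⟨Sum.inr k, rfl, rfl, fun w hw => by
      change 0 < muG (fun w => σ * w ^ (m + 1)) w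
      rw [muG_pow]; positivity⟩)
    (compact_sub hR m σ h0 h1) (fun p hp => hp.1) hc0 hT (fun p hp => by
      have hD := mem_U_PP.1 hp.1
      have hl := fun j => hm0 (m + 1) (by omega) _ (hD j)
      have hc' : π * (((m + 1 : ℕ) : ℝ) + 1) = c := by rw [hc]; push_cast; ring
      simp only [hc'] at hl
      have habs : ∀ s : ℝ, |c⁻¹ * s| = c⁻¹ * |s| := fun s => by
        rw [abs_mul, abs_of_pos (inv_pos.2 hc0)]
      have := hmem p.1 p.2
        (c⁻¹ • ∑ i, pint (muG fun w => σ * w ^ (m + 1)) (ell (Pi.single i 1) p) •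
          (Pi.single i 1 : Fin (N + 1) → ℝ))
        (fun j => c⁻¹ * pint (muG (Gm (m + 1 + 1))) (ell (a j) p))
        (fun j => by simpa using (DD_bound (hD j)).1) (fun j => by simpa using (DD_bound (hD j)).2)
        (by
          have b1 : ∀ j, |c⁻¹ * pint (muG (Gm (m + 1 + 1))) (ell (a j) p)| ≤
              (1 + δ') * normSq (Gm (m + 1 + 1) (ell (a j) p)) + δ' := fun j => by
            rw [habs, inv_mul_le_iff₀ hc0]; exact (hl j).1
          refine (Finset.sum_le_sum fun j _ => b1 j).trans ?_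
          rw [Finset.sum_add_distrib, ← Finset.mul_sum]
          have b2 := hp.2
          rw [Psi_PP] at b2
          have b3 : 0 ≤ σ ^ 2 * ∑ i, ‖ell (Pi.single i 1) p‖ ^ (2 * (m + 1)) := by positivity
          have b4 := mul_le_mul_of_nonneg_left
            (show ∑ j, normSq (Gm (m + 1 + 1) (ell (a j) p)) ≤ 1 by linarith)
            (show 0 ≤ 1 + δ' by linarith)
          simp only [Finset.sum_const, Finset.card_univ, nsmul_eq_mul]
          linarith)
        (fun j => by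
          have := pint_mul_nonneg (muG_nonneg (Gm (m + 1 + 1))) (ell (a j) p)
          rw [ell_im] at this
          rw [mul_assoc]; exact mul_nonneg (inv_pos.2 hc0).le this)
        (fun j hj => by
          rw [habs, inv_mul_le_iff₀ hc0]
          refine ((hl j).2 (by simp only [ell_re, ell_im]; linarith)).trans ?_
          exact mul_le_mul_of_nonneg_left (by linarith) hc0.le)
        (by
          rw [pi_norm_le_iff_of_nonneg hδ.le]
          intro i
          have b1 := hR' p hD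
          have b2 := pint_pow_le m σ (R := R') (w := ell (Pi.single i 1) p)
            (by simpa using ((norm_le_pi_norm p.1 i).trans (norm_fst_le p)).trans b1)
            (by simpa using ((norm_le_pi_norm p.2 i).trans (norm_snd_le p)).trans b1)
          rw [← hB, hσ] at b2
          simp only [Pi.smul_apply, Finset.sum_apply, smul_eq_mul, Real.norm_eq_abs]
          rw [Finset.sum_eq_single i (fun k _ hk => by simp [Ne.symm hk]) (by simp), habs,
            inv_mul_le_iff₀ hc0]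
          simpa using b2)
      convert this using 2
      rw [Fintype.sum_sum_type, smul_add, Finset.smul_sum]
      simp only [smul_smul]
      rfl)
  refine le_trans (ENNReal.ofReal_le_ofReal ?_) hgeo
  rw [div_le_div_iff₀ (by positivity) (by positivity)]
  rw [div_mul_eq_mul_div, le_div_iff₀ (by positivity)] at hmass
  refine le_trans (le_of_eq ?_) (hmass.trans (le_of_eq (mul_comm _ _)))
  rw [← mul_pow, ← mul_pow, hc]
  congr 1
  field_simp

theorem finite_vol {N : ℕ} {a : J → Fin (N + 1) → ℝ} {R : ℝ}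
    (hR : ∀ x, (∀ j, |a j ⬝ᵥ x| ≤ 1) → ‖x‖ ≤ R) {δ : ℝ} (hδ : 0 < δ) {T : Set (EE (N + 1))}
    (hT : MeasurableSet T) (hmem : Target a δ T) :
    ENNReal.ofReal (4 ^ (N + 1) / (N + 1).factorial) ≤ volume T := by
  obtain ⟨m0, hm0⟩ := finite_aux hR hδ hT hmem
  have t1 : Tendsto (fun m : ℕ => ((m : ℝ) + 2)⁻¹) atTop (𝓝 0) :=
    tendsto_inv_atTop_zero.comp (tendsto_atTop_add_const_right _ _ tendsto_natCast_atTop_atTop)
  have t2 : ContinuousAt (fun u : ℝ => ENNReal.ofReal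
      ((4 * (1 - u) * (1 - u) / (1 + u)) ^ (N + 1) / (N + 1).factorial)) 0 := by
    apply ENNReal.continuous_ofReal.continuousAt.comp
    exact ((ContinuousAt.div (by fun_prop) (by fun_prop) (by simp)).pow _).div_const _
  have t3 := t2.tendsto.comp t1
  simp only [sub_zero, mul_one, add_zero, div_one] at t3
  refine le_of_tendsto t3 ((eventually_ge_atTop m0).mono fun m hm => ?_)
  have h2 : (0 : ℝ) < (m : ℝ) + 2 := by positivity
  have h3 : ((m : ℝ) + 2)⁻¹ < 1 := inv_lt_one_of_one_lt₀ (by linarith [Nat.cast_nonneg (α := ℝ) m])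
  have := hm0 m hm ((m : ℝ) + 2)⁻¹ (1 - ((m : ℝ) + 2)⁻¹) (inv_pos.2 h2) (by linarith)
    (by linarith [inv_pos.2 h2])
  have e : ((m : ℝ) + 1) / (m + 2) = 1 - ((m : ℝ) + 2)⁻¹ := by field_simp; ring
  rw [e] at this
  exact this

end Vale.Agent.P248
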