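import Vale.Agent.P248.Lens3

open Complex Set Metric Filter Topology MeasureTheory
open scoped Real

namespace Vale.Agent.P248

/-- Laplacian of `|G|^2` -/
noncomputable def muG (G : ℂ → ℂ) (w : ℂ) : ℝ := 4 * normSq (deriv G w)

/-- vertical primitive -/
noncomputable def pint (μ : ℂ → ℝ) (w : ℂ) : ℝ := ∫ t in (0 : ℝ)..w.im, μ (w.re + t * I)

lemma muG_nonneg (G : ℂ → ℂ) (w : ℂ) : 0 ≤ muG G w := mul_nonneg (by norm_num) (normSq_nonneg _)

lemma pint_mul_nonneg {μ : ℂ → ℝ} (hμ : ∀ w, 0 ≤ μ w) (w : ℂ) : 0 ≤ pint μ w * w.im := by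
  rcases le_total 0 w.im with h | h
  · exact mul_nonneg (intervalIntegral.integral_nonneg h fun _ _ => hμ _) h
  · apply mul_nonneg_of_nonpos_of_nonpos _ h
    rw [pint, intervalIntegral.integral_symm, neg_nonpos]
    exact intervalIntegral.integral_nonneg h fun _ _ => hμ _

lemma muG_contAt {G : ℂ → ℂ} {w : ℂ} (hG : AnalyticAt ℂ G w) : ContinuousAt (muG G) w :=
  (continuous_normSq.continuousAt.comp hG.deriv.continuousAt).const_mul _

lemma hasDerivAt_pint {μ : ℂ → ℝ} {O : Set ℂ} (hO : IsOpen O) (hμ : ∀ w ∈ O, ContinuousAt μ w)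
    {q s : ℝ} (hv : ∀ t ∈ uIcc 0 s, (q : ℂ) + t * I ∈ O) :
    HasDerivAt (fun s : ℝ => ∫ t in (0 : ℝ)..s, μ (q + t * I)) (μ (q + s * I)) s := by
  have hc : ∀ t : ℝ, (q : ℂ) + t * I ∈ O → ContinuousAt (fun t : ℝ => μ (q + t * I)) t :=
    fun t ht => ContinuousAt.comp (f := fun t : ℝ => (q : ℂ) + t * I) (hμ _ ht) (by fun_prop)
  apply intervalIntegral.integral_hasDerivAt_right
  · exact ContinuousOn.intervalIntegrable fun t ht => (hc t (hv t ht)).continuousWithinAt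
  · exact ContinuousAt.stronglyMeasurableAtFilter (s := {t : ℝ | (q : ℂ) + t * I ∈ O})
      (hO.preimage (by fun_prop)) hc s (hv s right_mem_uIcc)
  · exact hc s (hv s right_mem_uIcc)

/-- powers of the Riemann map -/
noncomputable def Gm (m : ℕ) (w : ℂ) : ℂ := gg w ^ m

lemma Gm_analytic (m : ℕ) : AnalyticOnNhd ℂ (Gm m) DD := fun w hw => (gg_analytic w hw).pow m

lemma muG_Gm (m : ℕ) {w : ℂ} (hw : w ∈ DD) : muG (Gm (m + 1)) w =
    4 * ((m + 1 : ℝ) ^ 2 * ((gg w).re ^ 2 + (gg w).im ^ 2) ^ m / normSq (deriv lf (gg w))) := by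
  have := ((gg_hasDerivAt hw).fun_pow (m + 1)).deriv
  unfold muG Gm
  rw [this]
  simp only [map_mul, map_pow, map_inv₀, Nat.add_sub_cancel, normSq_natCast]
  rw [normSq_apply (gg w)]
  push_cast
  ring

lemma muG_Gm_neg (m : ℕ) {w : ℂ} (hw : w ∈ DD) : muG (Gm (m + 1)) (-w) = muG (Gm (m + 1)) w := by
  rw [muG_Gm m hw, muG_Gm m (neg_mem_DD hw), gg_neg hw, deriv_lf_neg]
  simp

lemma pint_neg (m : ℕ) {w : ℂ} (hw : w ∈ DD) :
    pint (muG (Gm (m + 1))) (-w) = -pint (muG (Gm (m + 1))) w := by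
  unfold pint
  have h := intervalIntegral.integral_comp_neg (a := 0) (b := w.im)
    (fun t : ℝ => muG (Gm (m + 1)) ((-w).re + t * I))
  rw [neg_zero] at h
  rw [neg_im, intervalIntegral.integral_symm, ← h]
  congr 1
  apply intervalIntegral.integral_congr
  intro t ht
  have := muG_Gm_neg m (vert_mem' hw ht)
  simp only
  rw [← this]
  congr 1
  simp; ring

lemma pint_bound {ε η : ℝ} (hε : 0 < ε) (hη : 0 < η) : ∃ m0 : ℕ, ∀ m : ℕ, m0 ≤ m → ∀ w ∈ DD,
    0 ≤ w.im → pint (muG (Gm (m + 1))) w ≤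
      π * (m + 1) * ((1 + ε) * ((gg w).re ^ 2 + (gg w).im ^ 2) ^ (m + 1) + η * (π / 2)) := by
  have hπ := Real.pi_pos
  obtain ⟨m0, hm0⟩ := core_ineq hε hη
  refine ⟨m0, fun m hm w hw hy => ?_⟩
  set V : ℝ → ℝ := fun s => π * (m + 1) * ((1 + ε) *
    ((gg (w.re + s * I)).re ^ 2 + (gg (w.re + s * I)).im ^ 2) ^ (m + 1) +
      η * (LL (gg (w.re + s * I))).im) - ∫ t in (0 : ℝ)..s, muG (Gm (m + 1)) (w.re + t * I) with hV
  have hder : ∀ s ∈ Icc 0 w.im, ∃ d, HasDerivAt V d s ∧ (0 < s → 0 ≤ d) := by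
    intro s hs
    have hD := vert_mem hw hs
    obtain ⟨d, hd1, hd2⟩ := hasDerivAt_phi hD
    have h3 := hasDerivAt_pint isOpen_DD (fun w hw => muG_contAt (Gm_analytic (m + 1) w hw))
      (q := w.re) (s := s) fun t ht => vert_mem hw (by
        rw [uIcc_of_le hs.1] at ht; exact ⟨ht.1, ht.2.trans hs.2⟩)
    have h4 := (((((hasDerivAt_rad hD).fun_pow (m + 1)).const_mul (1 + ε)).add
      (hd1.const_mul η)).const_mul (π * (m + 1))).sub h3
    refine ⟨_, h4, fun hs0 => ?_⟩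
    rw [muG_Gm m hD]
    set z := gg (w.re + s * I) with hz
    have hz1 := gg_norm hD
    have hzy : 0 < z.im := by
      apply im_pos_of_lf hz1
      rw [lf_gg hD]; simpa using hs0
    have hc := hm0 (m + 1) (by omega) z hz1 hzy
    have hF : 0 < normSq (deriv lf z) := normSq_pos.2 (deriv_ne hz1)
    set r := z.re ^ 2 + z.im ^ 2 with hr
    have hr0 : 0 < r := by positivity
    set F := normSq (deriv lf z)
    have hd3 : d = 4 / π ^ 2 * QQ z / (r * F) := by
      rw [← hd2]; field_simp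
    rw [hd3]
    simp only [Nat.add_sub_cancel]
    push_cast at hc ⊢
    have e : π * (m + 1) * ((1 + ε) * ((m + 1) * r ^ m * (2 * (4 / π ^ 2 * (LL z).im) / F)) +
        η * (4 / π ^ 2 * QQ z / (r * F))) - 4 * ((m + 1) ^ 2 * r ^ m / F) =
        4 * (m + 1) / (π * r * F) * (2 * (1 + ε) * (m + 1) * (LL z).im * r ^ (m + 1) + η * QQ z -
          π * (m + 1) * r ^ (m + 1)) := by
      field_simp
      ring
    rw [e]
    exact mul_nonneg (by positivity) (by linarith)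
  have key := le_of_deriv hy (f := V) (fun s hs => by
      obtain ⟨d, h, -⟩ := hder s hs
      exact h.continuousAt.continuousWithinAt)
    fun s hs => by
      obtain ⟨d, h, h2⟩ := hder s (Ioo_subset_Icc_self hs)
      exact ⟨d, h, h2 hs.1⟩
  have hD0 := vert_mem hw (t := 0) ⟨le_rfl, hy⟩
  have h0 : (LL (gg (w.re + (0 : ℝ) * I))).im = 0 := by
    apply phi_zero (re_lt_of_norm (gg_norm hD0))
    apply im_zero_of_lf (gg_norm hD0)
    rw [lf_gg hD0]; simp
  simp only [hV, h0, intervalIntegral.integral_same, re_add_im] at key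
  have h1 : 0 ≤ π * (m + 1) * ((1 + ε) *
    ((gg (w.re + (0 : ℝ) * I)).re ^ 2 + (gg (w.re + (0 : ℝ) * I)).im ^ 2) ^ (m + 1) + η * 0) - 0 := by
    rw [sub_zero]; positivity
  have h2 := phi_le (re_lt_of_norm (gg_norm hw)) (sq_lt_of_norm (gg_norm hw)).le
  have h3 := mul_le_mul_of_nonneg_left h2 (show 0 ≤ π * (m + 1) * η by positivity)
  unfold pint
  linarith

lemma lens_p {δ : ℝ} (hδ : 0 < δ) : ∃ m0 : ℕ, ∀ m : ℕ, m0 ≤ m → ∀ w ∈ DD,
    |pint (muG (Gm (m + 1))) w| ≤ π * (m + 1) * ((1 + δ) * normSq (Gm (m + 1) w) + δ) ∧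
    (|w.im| < SS w.re - δ → |pint (muG (Gm (m + 1))) w| ≤ π * (m + 1) * (2 * δ)) := by
  have hπ := Real.pi_pos
  obtain ⟨m0, hm0⟩ := pint_bound hδ (show 0 < δ / (π / 2) by positivity)
  obtain ⟨ρ, hρ0, hρ1, hρ⟩ := near_circle hδ
  obtain ⟨m1, hm1⟩ := eventually_atTop.1
    ((tendsto_pow_atTop_nhds_zero_of_lt_one hρ0 hρ1).eventually
      (gt_mem_nhds (show (0 : ℝ) < δ / (1 + δ) by positivity)))
  refine ⟨max m0 m1, fun m hm w hw => ?_⟩
  have e : ∀ w, normSq (Gm (m + 1) w) = ((gg w).re ^ 2 + (gg w).im ^ 2) ^ (m + 1) := by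
    intro w
    rw [Gm, map_pow, normSq_apply]; ring
  have e2 : δ / (π / 2) * (π / 2) = δ := by field_simp
  have h1 : |pint (muG (Gm (m + 1))) w| ≤ π * (m + 1) * ((1 + δ) * normSq (Gm (m + 1) w) + δ) := by
    have hs := pint_mul_nonneg (muG_nonneg (Gm (m + 1)))
    rcases lt_trichotomy w.im 0 with h | h | h
    · have := hm0 m (le_of_max_le_left hm) (-w) (neg_mem_DD hw) (by simpa using h.le)
      rw [pint_neg m hw, gg_neg hw, e2] at this
      rw [abs_of_nonpos (by nlinarith [hs w]), e]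
      simpa using this
    · rw [pint, h, intervalIntegral.integral_same, abs_zero]
      have := normSq_nonneg (Gm (m + 1) w)
      positivity
    · have := hm0 m (le_of_max_le_left hm) w hw h.le
      rw [e2] at this
      rwa [abs_of_nonneg (by nlinarith [hs w]), e]
  refine ⟨h1, fun h => h1.trans (mul_le_mul_of_nonneg_left ?_ (by positivity))⟩
  have h2 := hρ w hw h
  have h3 := hm1 (2 * (m + 1)) (by have := le_of_max_le_right hm; omega)
  have h4 : normSq (Gm (m + 1) w) ≤ ρ ^ (2 * (m + 1)) := by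
    rw [e, ← sq_norm', ← pow_mul]
    exact pow_le_pow_left₀ (norm_nonneg _) h2 _
  rw [lt_div_iff₀ (by positivity)] at h3
  nlinarith

end Vale.Agent.P248
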