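import Vale.Agent.P248.Theta
import Vale.Agent.P248.Lens4

open Complex Set Metric Filter Topology MeasureTheory Matrix
open scoped Real

namespace Vale.Agent.P248

variable {n : ℕ} {ι : Type} [Fintype ι] [DecidableEq ι]

lemma cd_re {F : ℂ → ℂ} {w : ℂ} (h : AnalyticAt ℂ F w) : ContDiffAt ℝ 1 (fun w => (F w).re) w :=
  reCLM.contDiff.contDiffAt.comp w ((h.contDiffAt (n := 1)).restrict_scalars ℝ)

lemma cd_im {F : ℂ → ℂ} {w : ℂ} (h : AnalyticAt ℂ F w) : ContDiffAt ℝ 1 (fun w => (F w).im) w :=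
  imCLM.contDiff.contDiffAt.comp w ((h.contDiffAt (n := 1)).restrict_scalars ℝ)

lemma fd_re {F : ℂ → ℂ} {w : ℂ} (h : AnalyticAt ℂ F w) :
    HasFDerivAt (fun w => (F w).re) (reCLM.comp (deriv F w • (1 : ℂ →L[ℝ] ℂ))) w :=
  reCLM.hasFDerivAt.comp w h.differentiableAt.hasDerivAt.complexToReal_fderiv

lemma fd_im {F : ℂ → ℂ} {w : ℂ} (h : AnalyticAt ℂ F w) :
    HasFDerivAt (fun w => (F w).im) (imCLM.comp (deriv F w • (1 : ℂ →L[ℝ] ℂ))) w :=
  imCLM.hasFDerivAt.comp w h.differentiableAt.hasDerivAt.complexToReal_fderiv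

lemma normSq_fun (F : ℂ → ℂ) :
    (fun w => normSq (F w)) = fun w => (F w).re * (F w).re + (F w).im * (F w).im := by
  funext w; rw [normSq_apply]

lemma muG_fun (F : ℂ → ℂ) : muG F =
    fun w => 4 * ((deriv F w).re * (deriv F w).re + (deriv F w).im * (deriv F w).im) := by
  funext w; rw [muG, normSq_apply]

/-- potentials coming from holomorphic functions -/
noncomputable def Pot.ofHol (O : ι → Set ℂ) (G : ι → ℂ → ℂ) (hO : ∀ i, IsOpen (O i))
    (hG : ∀ i, AnalyticOnNhd ℂ (G i) (O i)) : Pot ι where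
  O := O
  ψ := fun i w => normSq (G i w)
  α := fun i w => 2 * ((G i w).re * (deriv (G i) w).re + (G i w).im * (deriv (G i) w).im)
  β := fun i w => 2 * ((G i w).im * (deriv (G i) w).re - (G i w).re * (deriv (G i) w).im)
  μ := fun i => muG (G i)
  isOpen := hO
  cψ := fun i w hw => by
    rw [normSq_fun]
    exact ((cd_re (hG i w hw)).mul (cd_re (hG i w hw))).add
      ((cd_im (hG i w hw)).mul (cd_im (hG i w hw)))
  cα := fun i w hw => contDiffAt_const.mul (((cd_re (hG i w hw)).mul (cd_re (hG i w hw).deriv)).add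
      ((cd_im (hG i w hw)).mul (cd_im (hG i w hw).deriv)))
  cβ := fun i w hw => contDiffAt_const.mul (((cd_im (hG i w hw)).mul (cd_re (hG i w hw).deriv)).sub
      ((cd_re (hG i w hw)).mul (cd_im (hG i w hw).deriv)))
  cμ := fun i w hw => by
    rw [muG_fun]
    exact contDiffAt_const.mul (((cd_re (hG i w hw).deriv).mul (cd_re (hG i w hw).deriv)).add
      ((cd_im (hG i w hw).deriv).mul (cd_im (hG i w hw).deriv)))
  dα := fun i w hw => by
    rw [normSq_fun, (((fd_re (hG i w hw)).fun_mul (fd_re (hG i w hw))).fun_add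
      ((fd_im (hG i w hw)).fun_mul (fd_im (hG i w hw)))).fderiv]
    simp; ring
  dβ := fun i w hw => by
    rw [normSq_fun, (((fd_re (hG i w hw)).fun_mul (fd_re (hG i w hw))).fun_add
      ((fd_im (hG i w hw)).fun_mul (fd_im (hG i w hw)))).fderiv]
    simp; ring
  lap := fun i w hw => by
    rw [((((fd_re (hG i w hw)).fun_mul (fd_re (hG i w hw).deriv)).fun_add
      ((fd_im (hG i w hw)).fun_mul (fd_im (hG i w hw).deriv))).const_mul 2).fderiv,
      ((((fd_im (hG i w hw)).fun_mul (fd_re (hG i w hw).deriv)).fun_sub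
      ((fd_re (hG i w hw)).fun_mul (fd_im (hG i w hw).deriv))).const_mul 2).fderiv, muG_fun]
    simp; ring
  cs := fun i w _ => by
    rw [muG, normSq_apply, normSq_apply]
    apply le_of_eq; ring
  ψ0 := fun i w => normSq_nonneg _
  μ0 := fun i w => muG_nonneg _ _

lemma vint_sub {μ : ℂ → ℝ} {O : Set ℂ} (hμ : ∀ w ∈ O, ContinuousAt μ w)
    {q s s' : ℝ} (hv : ∀ t ∈ uIcc 0 s, (q : ℂ) + t * I ∈ O)
    (hv' : ∀ t ∈ uIcc 0 s', (q : ℂ) + t * I ∈ O) :
    (∫ t in (0 : ℝ)..s, μ (q + t * I)) - ∫ t in (0 : ℝ)..s', μ (q + t * I) =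
      ∫ t in s'..s, μ (q + t * I) := by
  have hc : ∀ t : ℝ, (q : ℂ) + t * I ∈ O → ContinuousAt (fun t : ℝ => μ (q + t * I)) t :=
    fun t ht => ContinuousAt.comp (f := fun t : ℝ => (q : ℂ) + t * I) (hμ _ ht) (by fun_prop)
  exact intervalIntegral.integral_interval_sub_left
    (ContinuousOn.intervalIntegrable fun t ht => (hc t (hv t ht)).continuousWithinAt)
    (ContinuousOn.intervalIntegrable fun t ht => (hc t (hv' t ht)).continuousWithinAt)

lemma vint_mul_nonneg {f : ℝ → ℝ} (hf : ∀ t, 0 ≤ f t) (s s' : ℝ) :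
    0 ≤ (∫ t in s'..s, f t) * (s - s') := by
  rcases le_total s' s with h | h
  · exact mul_nonneg (intervalIntegral.integral_nonneg h fun _ _ => hf _) (by linarith)
  · apply mul_nonneg_of_nonpos_of_nonpos _ (by linarith)
    rw [intervalIntegral.integral_symm, neg_nonpos]
    exact intervalIntegral.integral_nonneg h fun _ _ => hf _

lemma vint_mul_pos {f : ℝ → ℝ} (hc : Continuous f) (hf : ∀ t, 0 ≤ f t) (hf' : ∀ t ≠ 0, 0 < f t)
    {s s' : ℝ} (h : s ≠ s') : 0 < (∫ t in s'..s, f t) * (s - s') := by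
  have key : ∀ a b : ℝ, a < b → 0 < ∫ t in a..b, f t := by
    intro a b hab
    apply intervalIntegral.integral_pos hab hc.continuousOn (fun t _ => hf t)
    by_cases ha : a = 0
    · exact ⟨b, ⟨hab.le, le_rfl⟩, hf' b (by linarith)⟩
    · exact ⟨a, ⟨le_rfl, hab.le⟩, hf' a ha⟩
  rcases lt_or_gt_of_ne h with h | h
  · apply mul_pos_of_neg_of_neg _ (by linarith)
    rw [intervalIntegral.integral_symm, neg_lt_zero]
    exact key _ _ h
  · exact mul_pos (key _ _ h) (by linarith)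

omit [DecidableEq ι] in
lemma Pot.geo (P : Pot ι) (a : ι → Fin n → ℝ)
    (hv : ∀ i, ∀ w ∈ P.O i, ∀ t ∈ uIcc 0 w.im, (w.re : ℂ) + t * I ∈ P.O i)
    (hs : ∀ k : Fin n, ∃ i, a i = Pi.single k 1 ∧ P.O i = univ ∧ ∀ w ≠ 0, 0 < P.μ i w)
    {C : Set (EE n)} (hC : IsCompact C) (hCU : C ⊆ P.U a) {c : ℝ} (hc : 0 < c)
    {T : Set (EE n)} (hT : MeasurableSet T)
    (hmem : ∀ p ∈ C, (p.1, c⁻¹ • ∑ i, pint (P.μ i) (ell (a i) p) • a i) ∈ T) :
    ENNReal.ofReal ((∫ p in C, P.dH a p) / c ^ n) ≤ volume T := by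
  have hcont : ContinuousOn (fun p => P.dH a p / c ^ n) C := fun p hp =>
    ((P.continuousAt_dH a (hCU hp)).div_const _).continuousWithinAt
  have hCm := hC.isClosed.measurableSet
  rw [← integral_div, ofReal_integral_eq_lintegral_ofReal (hcont.integrableOn_compact hC)
    (ae_of_all _ fun p => div_nonneg (P.dH_nonneg a p) (by positivity)),
    ← lintegral_indicator hCm, Measure.volume_eq_prod, lintegral_prod _
      ((aemeasurable_indicator_iff hCm).2 (by
        rw [← Measure.volume_eq_prod]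
        exact (hcont.aemeasurable hCm).ennreal_ofReal)), Measure.prod_apply hT]
  refine lintegral_mono fun x => ?_
  have hμc : ∀ i, ∀ w ∈ P.O i, ContinuousAt (P.μ i) w := fun i w hw => (P.cμ i w hw).continuousAt
  set F : (Fin n → ℝ) → (Fin n → ℝ) := fun y =>
    c⁻¹ • ∑ i, (∫ t in (0 : ℝ)..(a i ⬝ᵥ y), P.μ i ((a i ⬝ᵥ x : ℝ) + t * I)) • a i with hF
  set F' : (Fin n → ℝ) → (Fin n → ℝ) →L[ℝ] (Fin n → ℝ) := fun y =>
    c⁻¹ • ∑ i, (P.mu a (x, y) i • dotL (a i)).smulRight (a i) with hF'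
  have hS : MeasurableSet (Prod.mk x ⁻¹' C) := measurable_prodMk_left hCm
  have hvx : ∀ y ∈ Prod.mk x ⁻¹' C, ∀ i, ∀ t ∈ uIcc 0 (a i ⬝ᵥ y),
      ((a i ⬝ᵥ x : ℝ) : ℂ) + t * I ∈ P.O i := by
    intro y hy i t ht
    simpa using hv i _ (hCU hy i) t (by simpa using ht)
  have hder : ∀ y ∈ Prod.mk x ⁻¹' C, HasFDerivWithinAt F (F' y) (Prod.mk x ⁻¹' C) y := by
    intro y hy
    apply HasFDerivAt.hasFDerivWithinAt
    refine HasFDerivAt.const_smul (HasFDerivAt.fun_sum fun i _ => ?_) c⁻¹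
    apply HasFDerivAt.smul_const
    have h1 := hasDerivAt_pint (P.isOpen i) (hμc i) (hvx y hy i)
    have h2 := HasDerivAt.comp_hasFDerivAt_of_eq y h1 (dotL (a i)).hasFDerivAt (by simp)
    have e : P.mu a (x, y) i = P.μ i ((a i ⬝ᵥ x : ℝ) + (a i ⬝ᵥ y : ℝ) * I) := by
      simp [Pot.mu, ell_apply]
    rw [e]
    refine h2.congr_of_eventuallyEq (Eventually.of_forall fun z => ?_)
    simp
  have hinj : InjOn F (Prod.mk x ⁻¹' C) := by
    intro y hy y' hy' h
    by_contra hne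
    obtain ⟨k, hk⟩ := Function.ne_iff.1 hne
    obtain ⟨i0, h1, h2, h3⟩ := hs k
    have h4 := smul_right_injective _ (inv_ne_zero hc.ne') h
    have h5 : ∑ i, (∫ t in (a i ⬝ᵥ y')..(a i ⬝ᵥ y), P.μ i ((a i ⬝ᵥ x : ℝ) + t * I)) *
        (a i ⬝ᵥ y - a i ⬝ᵥ y') = 0 := by
      have h6 := congrArg (fun v => v ⬝ᵥ (y - y')) (sub_eq_zero.2 h4)
      simp only [← Finset.sum_sub_distrib, sum_dotProduct, zero_dotProduct, ← sub_smul,
        smul_dotProduct, smul_eq_mul] at h6
      rw [← h6]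
      refine Finset.sum_congr rfl fun i _ => ?_
      rw [vint_sub (hμc i) (hvx y hy i) (hvx y' hy' i), dotProduct_sub]
    refine absurd h5 (ne_of_gt (Finset.sum_pos' (fun i _ => vint_mul_nonneg (fun t => P.μ0 i _) _ _)
      ⟨i0, Finset.mem_univ _, vint_mul_pos ?_ (fun t => P.μ0 i0 _) ?_ ?_⟩))
    · rw [continuous_iff_continuousAt]
      intro t
      exact ContinuousAt.comp (f := fun t : ℝ => ((a i0 ⬝ᵥ x : ℝ) : ℂ) + t * I)
        (hμc i0 _ (by simp [h2])) (by fun_prop)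
    · intro t ht
      apply h3
      intro h0
      have := congrArg Complex.im h0
      simp at this; exact ht this
    · simpa [h1] using hk
  have hdet : ∀ y, |(F' y).det| = P.dH a (x, y) / c ^ n := by
    intro y
    have : (F' y : (Fin n → ℝ) →ₗ[ℝ] (Fin n → ℝ)) = toLin' (c⁻¹ • Hm a (P.mu a (x, y))) := by
      apply LinearMap.ext
      intro v
      simp [hF', Hm_mulVec]
    rw [ContinuousLinearMap.det, this, LinearMap.det_toLin', det_smul, Fintype.card_fin,
      ← Pot.dH, abs_of_nonneg (mul_nonneg (by positivity) (P.dH_nonneg a _)), inv_pow]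
    ring
  have key := lintegral_abs_det_fderiv_eq_addHaar_image volume hS hder hinj
  simp only [hdet] at key
  calc _ = ∫⁻ y in Prod.mk x ⁻¹' C, ENNReal.ofReal (P.dH a (x, y) / c ^ n) := by
        rw [← lintegral_indicator hS]; rfl
    _ = _ := key
    _ ≤ _ := by
      apply measure_mono
      rintro _ ⟨y, hy, rfl⟩
      simpa [hF, pint] using hmem _ hy

end Vale.Agent.P248
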