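import Mathlib

open Complex Set Metric Filter Topology
open scoped Real

namespace Vale.Agent.P248

/-- the lens map -/
noncomputable def lf (z : ℂ) : ℂ := ∑' k : ℕ, (4 / (π : ℂ) ^ 2) * ((z ^ k - (-z) ^ k) / (k : ℂ) ^ 2)

/-- logarithm of the Cayley transform -/
noncomputable def LL (z : ℂ) : ℂ := log (1 + z) - log (1 - z)

lemma lf_summ : Summable fun k : ℕ => 4 / π ^ 2 * (2 * (1 / (k : ℝ) ^ 2)) :=
  ((Real.summable_one_div_nat_pow.2 (by norm_num)).mul_left 2).mul_left _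

lemma lf_term_le (k : ℕ) (z : ℂ) (hz : ‖z‖ ≤ 1) :
    ‖(4 / (π : ℂ) ^ 2) * ((z ^ k - (-z) ^ k) / (k : ℂ) ^ 2)‖ ≤
      4 / π ^ 2 * (2 * (1 / (k : ℝ) ^ 2)) := by
  rw [norm_mul, norm_div, norm_div, norm_pow, norm_pow, Complex.norm_natCast, Complex.norm_real,
    Real.norm_of_nonneg Real.pi_pos.le]
  have h1 : ‖z ^ k - (-z) ^ k‖ ≤ 2 := by
    have a1 : ‖z ^ k‖ ≤ 1 := by rw [norm_pow]; exact pow_le_one₀ (norm_nonneg _) hz
    have a2 : ‖(-z) ^ k‖ ≤ 1 := by rw [norm_pow, norm_neg]; exact pow_le_one₀ (norm_nonneg _) hz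
    linarith [norm_sub_le (z ^ k) ((-z) ^ k)]
  have h2 : ‖(4 : ℂ)‖ = 4 := by simp
  rw [h2]
  apply mul_le_mul_of_nonneg_left _ (by positivity)
  rw [mul_one_div]
  exact div_le_div_of_nonneg_right h1 (by positivity)

lemma lf_contOn : ContinuousOn lf (closedBall 0 1) :=
  continuousOn_tsum (fun k => by fun_prop) lf_summ fun k z hz => lf_term_le k z (by simpa using hz)

lemma lf_diffOn : DifferentiableOn ℂ lf (ball 0 1) :=
  differentiableOn_tsum_of_summable_norm lf_summ (fun k => by fun_prop) isOpen_ball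
    fun k z hz => lf_term_le k z (le_of_lt (by simpa using hz))

lemma lf_analytic : AnalyticOnNhd ℂ lf (ball 0 1) := lf_diffOn.analyticOnNhd isOpen_ball

lemma lf_hasDerivAt {z : ℂ} (hz : ‖z‖ < 1) : HasDerivAt lf (deriv lf z) z :=
  (lf_analytic z (by simpa using hz)).differentiableAt.hasDerivAt

lemma mul_deriv_lf {z : ℂ} (hz : ‖z‖ < 1) : z * deriv lf z = 4 / (π : ℂ) ^ 2 * LL z := by
  have h1 := (hasSum_deriv_of_summable_norm lf_summ (U := ball 0 1)
    (F := fun (k : ℕ) (z : ℂ) => (4 / (π : ℂ) ^ 2) * ((z ^ k - (-z) ^ k) / (k : ℂ) ^ 2))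
    (fun k => by fun_prop) isOpen_ball
    (fun k z hz => lf_term_le k z (le_of_lt (by simpa using hz))) (z := z)
    (by simpa using hz)).mul_left z
  have h2 := ((hasSum_taylorSeries_neg_log hz).sub
    (hasSum_taylorSeries_neg_log (z := -z) (by simpa using hz))).mul_left (4 / (π : ℂ) ^ 2)
  have h3 : (fun k : ℕ => z * deriv (fun z : ℂ =>
      (4 / (π : ℂ) ^ 2) * ((z ^ k - (-z) ^ k) / (k : ℂ) ^ 2)) z) =
      fun k : ℕ => 4 / (π : ℂ) ^ 2 * (z ^ k / k - (-z) ^ k / k) := by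
    funext k
    have d1 := ((((hasDerivAt_id z).fun_pow k).fun_sub ((hasDerivAt_neg z).fun_pow k)).div_const
      ((k : ℂ) ^ 2)).const_mul (4 / (π : ℂ) ^ 2)
    simp only [id] at d1
    rw [d1.deriv]
    rcases k with _ | k
    · simp
    · have : ((k + 1 : ℕ) : ℂ) ≠ 0 := Nat.cast_ne_zero.2 (by omega)
      simp only [Nat.add_sub_cancel]
      field_simp
      ring
  rw [h3] at h1
  have := h1.unique h2
  change z * deriv lf z = _ at this
  rw [this, LL]
  simp only [sub_neg_eq_add]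
  ring

lemma lf_neg (z : ℂ) : lf (-z) = -lf z := by
  unfold lf
  rw [← tsum_neg]
  congr 1; funext k; simp; ring

lemma lf_zero : lf 0 = 0 := by
  have := lf_neg 0
  rw [neg_zero] at this
  linear_combination this / 2

lemma lf_conj (z : ℂ) : lf ((starRingEnd ℂ) z) = (starRingEnd ℂ) (lf z) := by
  unfold lf
  rw [Complex.conj_tsum]
  congr 1; funext k; simp [map_ofNat]

lemma lf_im_ofReal (x : ℝ) : (lf x).im = 0 := by
  have := lf_conj x
  rw [conj_ofReal] at this
  have h := congrArg Complex.im this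
  simp at h; linarith

lemma lf_re_I : (lf I).re = 0 := by
  have := lf_conj I
  rw [conj_I, lf_neg] at this
  have h := congrArg Complex.re this
  simp at h; linarith

lemma exists_lf_bound : ∃ M : ℝ, 0 < M ∧ ∀ z : ℂ, ‖z‖ ≤ 1 → ‖lf z‖ ≤ M := by
  obtain ⟨M, hM⟩ := (isCompact_closedBall (0 : ℂ) 1).exists_bound_of_continuousOn lf_contOn
  exact ⟨max M 1, by positivity, fun z hz => (hM z (by simpa using hz)).trans (le_max_left _ _)⟩

section L

variable {z : ℂ}

lemma LL_exp (hz : |z.re| < 1) : exp (LL z) = (1 + z) / (1 - z) := by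
  obtain ⟨h1, h2⟩ := abs_lt.1 hz
  have a1 : 1 + z ≠ 0 := fun h => by have := congrArg Complex.re h; simp at this; linarith
  have a2 : 1 - z ≠ 0 := fun h => by have := congrArg Complex.re h; simp at this; linarith
  rw [LL, exp_sub, exp_log a1, exp_log a2]

lemma LL_im_lt (hz : |z.re| < 1) : |(LL z).im| < π := by
  obtain ⟨h1, h2⟩ := abs_lt.1 hz
  have a1 : |arg (1 + z)| < π / 2 := abs_arg_lt_pi_div_two_iff.2 (Or.inl (by simp; linarith))
  have a2 : |arg (1 - z)| < π / 2 := abs_arg_lt_pi_div_two_iff.2 (Or.inl (by simp; linarith))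
  simp only [LL, sub_im, log_im]
  linarith [abs_sub (arg (1 + z)) (arg (1 - z))]

/-- the modulus of `1 - z ^ 2` -/
noncomputable def NN (z : ℂ) : ℝ := ((1 - z.re) ^ 2 + z.im ^ 2) * Real.exp (LL z).re

lemma A_pos (hz : |z.re| < 1) : 0 < (1 - z.re) ^ 2 + z.im ^ 2 := by
  obtain ⟨h1, h2⟩ := abs_lt.1 hz
  have : 0 < (1 - z.re) ^ 2 := by apply pow_pos; linarith
  positivity

lemma B_pos (hz : |z.re| < 1) : 0 < (1 + z.re) ^ 2 + z.im ^ 2 := by
  obtain ⟨h1, h2⟩ := abs_lt.1 hz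
  have : 0 < (1 + z.re) ^ 2 := by apply pow_pos; linarith
  positivity

lemma NN_pos (hz : |z.re| < 1) : 0 < NN z := mul_pos (A_pos hz) (Real.exp_pos _)

lemma NN_cos (hz : |z.re| < 1) : NN z * Real.cos (LL z).im = 1 - (z.re ^ 2 + z.im ^ 2) := by
  have h := congrArg Complex.re (LL_exp hz)
  rw [exp_re, div_re, normSq_apply] at h
  have hA := A_pos hz
  simp only [add_re, one_re, sub_re, add_im, one_im, sub_im, zero_add, zero_sub] at h
  have e : (1 - z.re) * (1 - z.re) + -z.im * -z.im = (1 - z.re) ^ 2 + z.im ^ 2 := by ring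
  rw [e] at h
  rw [NN, mul_assoc, h]
  field_simp
  ring

lemma NN_sin (hz : |z.re| < 1) : NN z * Real.sin (LL z).im = 2 * z.im := by
  have h := congrArg Complex.im (LL_exp hz)
  rw [exp_im, div_im, normSq_apply] at h
  have hA := A_pos hz
  simp only [add_re, one_re, sub_re, add_im, one_im, sub_im, zero_add, zero_sub] at h
  have e : (1 - z.re) * (1 - z.re) + -z.im * -z.im = (1 - z.re) ^ 2 + z.im ^ 2 := by ring
  rw [e] at h
  rw [NN, mul_assoc, h]
  field_simp
  ring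

lemma NN_sq (hz : |z.re| < 1) :
    NN z ^ 2 = (1 - (z.re ^ 2 + z.im ^ 2)) ^ 2 + 4 * z.im ^ 2 := by
  have h1 := NN_cos hz
  have h2 := NN_sin hz
  have h3 := Real.sin_sq_add_cos_sq (LL z).im
  calc NN z ^ 2 = (NN z * Real.cos (LL z).im) ^ 2 + (NN z * Real.sin (LL z).im) ^ 2 := by
        linear_combination (-NN z ^ 2) * h3
    _ = _ := by rw [h1, h2]; ring

lemma exp_two_rho (hz : |z.re| < 1) :
    ((1 - z.re) ^ 2 + z.im ^ 2) * Real.exp (2 * (LL z).re) = (1 + z.re) ^ 2 + z.im ^ 2 := by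
  have h := NN_sq hz
  have hA := A_pos hz
  rw [NN, mul_pow, ← Real.exp_nat_mul] at h
  apply mul_left_cancel₀ hA.ne'
  push_cast at h
  linear_combination h

lemma NN_le (hz : |z.re| < 1) (h1 : z.re ^ 2 + z.im ^ 2 ≤ 1) : NN z ≤ 2 := by
  have h := NN_sq hz
  have hp := NN_pos hz
  have : NN z ^ 2 ≤ 2 ^ 2 := by nlinarith [sq_nonneg z.re, sq_nonneg z.im]
  exact (pow_le_pow_iff_left₀ hp.le (by norm_num) (by norm_num)).1 this

lemma phi_pos (hz : |z.re| < 1) (hy : 0 < z.im) : 0 < (LL z).im := by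
  have h := NN_sin hz
  have hp := NN_pos hz
  have hs : 0 < Real.sin (LL z).im := by
    by_contra hc
    push Not at hc
    nlinarith
  by_contra hc
  push Not at hc
  have := Real.sin_nonpos_of_nonpos_of_neg_pi_le hc (abs_lt.1 (LL_im_lt hz)).1.le
  linarith

lemma LL_neg (z : ℂ) : LL (-z) = -LL z := by
  simp [LL, sub_eq_add_neg]

lemma phi_zero (hz : |z.re| < 1) (hy : z.im = 0) : (LL z).im = 0 := by
  have h := NN_sin hz
  have hp := NN_pos hz
  rw [hy, mul_zero] at h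
  have hs : Real.sin (LL z).im = 0 := by
    rcases mul_eq_zero.1 h with h | h
    · exact absurd h hp.ne'
    · exact h
  have := abs_lt.1 (LL_im_lt hz)
  exact (Real.sin_eq_zero_iff_of_lt_of_lt this.1 this.2).1 hs

lemma phi_le (hz : |z.re| < 1) (h1 : z.re ^ 2 + z.im ^ 2 ≤ 1) : (LL z).im ≤ π / 2 := by
  have h := NN_cos hz
  have hp := NN_pos hz
  by_contra hc
  push Not at hc
  have := Real.cos_neg_of_pi_div_two_lt_of_lt hc (by linarith [(abs_lt.1 (LL_im_lt hz)).2])
  nlinarith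

lemma phi_eq (hz : |z.re| < 1) (h1 : z.re ^ 2 + z.im ^ 2 = 1) (hy : 0 < z.im) :
    (LL z).im = π / 2 := by
  have h := NN_cos hz
  have hp := NN_pos hz
  refine le_antisymm (phi_le hz h1.le) ?_
  by_contra hc
  push Not at hc
  have := Real.cos_pos_of_mem_Ioo ⟨by linarith [phi_pos hz hy, Real.pi_pos], hc⟩
  have := mul_pos hp this
  linarith

lemma im_le_phi (hz : |z.re| < 1) (h1 : z.re ^ 2 + z.im ^ 2 ≤ 1) (hy : 0 < z.im) :
    z.im ≤ (LL z).im := by
  have h := NN_sin hz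
  have h2 := NN_le hz h1
  have h3 := Real.sin_le (phi_pos hz hy).le
  have hp := NN_pos hz
  have hs : 0 < Real.sin (LL z).im := by
    by_contra hc
    push Not at hc
    nlinarith
  nlinarith

lemma im_mul_phi (hz : |z.re| < 1) (h1 : z.re ^ 2 + z.im ^ 2 ≤ 1) :
    z.im ^ 2 ≤ z.im * (LL z).im := by
  rcases lt_trichotomy z.im 0 with hy | hy | hy
  · have := im_le_phi (z := -z) (by simpa using hz) (by simpa using h1) (by simpa using hy)
    rw [LL_neg] at this
    simp only [neg_im] at this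
    nlinarith
  · simp [hy]
  · nlinarith [im_le_phi hz h1 hy]

lemma re_le_rho (hz : |z.re| < 1) (h1 : z.re ^ 2 + z.im ^ 2 ≤ 1) (hx : 0 ≤ z.re) :
    z.re ≤ 2 * (LL z).re := by
  have h := exp_two_rho hz
  have hB := B_pos hz
  have h3 := Real.add_one_le_exp (-(2 * (LL z).re))
  have h4 : Real.exp (2 * (LL z).re) * Real.exp (-(2 * (LL z).re)) = 1 := by
    rw [← Real.exp_add]; simp
  have h5 : (1 - z.re) ^ 2 + z.im ^ 2 =
      ((1 + z.re) ^ 2 + z.im ^ 2) * Real.exp (-(2 * (LL z).re)) := by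
    rw [← h, mul_assoc, h4, mul_one]
  have h6 := mul_le_mul_of_nonneg_left h3 hB.le
  have h7 : (1 + z.re) ^ 2 + z.im ^ 2 ≤ 4 := by nlinarith [(abs_lt.1 hz).2]
  by_contra hc
  push Not at hc
  nlinarith

lemma re_mul_rho (hz : |z.re| < 1) (h1 : z.re ^ 2 + z.im ^ 2 ≤ 1) :
    z.re ^ 2 ≤ 2 * (z.re * (LL z).re) := by
  rcases le_total z.re 0 with hx | hx
  · have := re_le_rho (z := -z) (by simpa using hz) (by simpa using h1) (by simpa using hx)
    rw [LL_neg] at this
    simp only [neg_re] at this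
    nlinarith
  · nlinarith [re_le_rho hz h1 hx]

end L

lemma re_lt_of_norm {z : ℂ} (hz : ‖z‖ < 1) : |z.re| < 1 := (abs_re_le_norm z).trans_lt hz

lemma sq_norm' (z : ℂ) : ‖z‖ ^ 2 = z.re ^ 2 + z.im ^ 2 := by
  rw [Complex.sq_norm, normSq_apply]; ring

lemma sq_lt_of_norm {z : ℂ} (hz : ‖z‖ < 1) : z.re ^ 2 + z.im ^ 2 < 1 := by
  rw [← sq_norm']; nlinarith [norm_nonneg z]

lemma coef_eq : (4 / (π : ℂ) ^ 2) = ((4 / π ^ 2 : ℝ) : ℂ) := by push_cast; rfl

lemma re_deriv_ge {z : ℂ} (hz : ‖z‖ < 1) : 2 / π ^ 2 ≤ (deriv lf z).re := by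
  have key : ∀ z : ℂ, ‖z‖ < 1 → z ≠ 0 → 2 / π ^ 2 ≤ (deriv lf z).re := by
    intro z hz h0
    have h := mul_deriv_lf hz
    rw [coef_eq] at h
    have h1 := congrArg Complex.re h
    have h2 := congrArg Complex.im h
    simp only [mul_re, mul_im, ofReal_re, ofReal_im, zero_mul, sub_zero, add_zero] at h1 h2
    have h3 := re_mul_rho (re_lt_of_norm hz) (sq_lt_of_norm hz).le
    have h4 := im_mul_phi (re_lt_of_norm hz) (sq_lt_of_norm hz).le
    have h5 : 0 < z.re ^ 2 + z.im ^ 2 := by rw [← sq_norm']; positivity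
    have h6 : (z.re ^ 2 + z.im ^ 2) * (deriv lf z).re =
        4 / π ^ 2 * (z.re * (LL z).re + z.im * (LL z).im) := by
      linear_combination z.re * h1 + z.im * h2
    have hc : 0 < 2 / π ^ 2 := by positivity
    have h7 : (z.re ^ 2 + z.im ^ 2) * (2 / π ^ 2) ≤ (z.re ^ 2 + z.im ^ 2) * (deriv lf z).re := by
      rw [h6, show 4 / π ^ 2 = 2 * (2 / π ^ 2) by ring]
      nlinarith [sq_nonneg z.im]
    exact le_of_mul_le_mul_left h7 h5
  by_cases h0 : z = 0
  · subst h0
    have hc : ContinuousAt (fun z => (deriv lf z).re) 0 :=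
      continuous_re.continuousAt.comp ((lf_analytic.deriv 0 (by simp)).continuousAt)
    refine ge_of_tendsto (hc.tendsto.mono_left (nhdsWithin_le_nhds (s := {0}ᶜ))) ?_
    filter_upwards [self_mem_nhdsWithin, mem_nhdsWithin_of_mem_nhds (ball_mem_nhds 0 one_pos)]
      with w h1 h2
    exact key w (by simpa using h2) h1
  · exact key z hz h0

lemma re_deriv_pos {z : ℂ} (hz : ‖z‖ < 1) : 0 < (deriv lf z).re :=
  lt_of_lt_of_le (by positivity) (re_deriv_ge hz)

lemma deriv_ne {z : ℂ} (hz : ‖z‖ < 1) : deriv lf z ≠ 0 := fun h => by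
  have := re_deriv_pos hz
  simp [h] at this

lemma lf_seg {z v : ℂ} (hz : ‖z‖ < 1) (hzv : ‖z + v‖ < 1) (hv : v ≠ 0) :
    0 < ((lf (z + v) - lf z) * (starRingEnd ℂ) v).re := by
  have hmem : ∀ t ∈ Icc (0 : ℝ) 1, ‖z + t * v‖ < 1 := by
    intro t ht
    have := (convex_ball (0 : ℂ) 1).add_smul_mem (x := z) (y := v) (by simpa using hz)
      (by simpa using hzv) ht
    simpa using this
  have hd : ∀ t ∈ Icc (0 : ℝ) 1, HasDerivAt (fun t : ℝ => (lf (z + t * v) * (starRingEnd ℂ) v).re)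
      ((deriv lf (z + t * v) * v * (starRingEnd ℂ) v).re) t := by
    intro t ht
    have h1 : HasDerivAt (fun s : ℂ => lf (z + s * v) * (starRingEnd ℂ) v)
        (deriv lf (z + t * v) * v * (starRingEnd ℂ) v) (t : ℂ) := by
      have := (lf_hasDerivAt (hmem t ht)).comp (t : ℂ)
        (((hasDerivAt_id (t : ℂ)).mul_const v).const_add z)
      simpa using this.mul_const ((starRingEnd ℂ) v)
    exact h1.real_of_complex
  obtain ⟨c, hc, hc2⟩ := exists_hasDerivAt_eq_slope _ _ zero_lt_one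
    (fun t ht => (hd t ht).continuousAt.continuousWithinAt)
    (fun t ht => hd t (Ioo_subset_Icc_self ht))
  have hp := re_deriv_pos (hmem c (Ioo_subset_Icc_self hc))
  rw [mul_assoc, mul_conj, re_mul_ofReal] at hc2
  have hn : 0 < normSq v := normSq_pos.2 hv
  have := mul_pos hp hn
  rw [hc2] at this
  simpa [sub_mul] using this

lemma lf_injOn : InjOn lf (ball 0 1) := by
  intro z hz w hw h
  by_contra hne
  have := lf_seg (z := z) (v := w - z) (by simpa using hz) (by simpa using hw)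
    (sub_ne_zero.2 (Ne.symm hne))
  simp [h] at this

lemma lf_im_pos {z : ℂ} (hz : ‖z‖ < 1) (hy : 0 < z.im) : 0 < (lf z).im := by
  have h1 : ‖(z.re : ℂ)‖ < 1 := by simpa using re_lt_of_norm hz
  have := lf_seg (z := z.re) (v := z.im * I) h1 (by simpa using hz) (by simp [hy.ne'])
  rw [re_add_im] at this
  simp [lf_im_ofReal] at this
  exact (pos_iff_pos_of_mul_pos this).2 hy

lemma im_pos_of_lf {z : ℂ} (hz : ‖z‖ < 1) (h : 0 < (lf z).im) : 0 < z.im := by
  rcases lt_trichotomy z.im 0 with hy | hy | hy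
  · have := lf_im_pos (z := -z) (by simpa using hz) (by simpa using hy)
    rw [lf_neg] at this; simp at this; linarith
  · have : z = z.re := by apply Complex.ext <;> simp [hy]
    rw [this, lf_im_ofReal] at h; exact absurd h (lt_irrefl _)
  · exact hy

lemma im_zero_of_lf {z : ℂ} (hz : ‖z‖ < 1) (h : (lf z).im = 0) : z.im = 0 := by
  rcases lt_trichotomy z.im 0 with hy | hy | hy
  · have := lf_im_pos (z := -z) (by simpa using hz) (by simpa using hy)
    rw [lf_neg] at this; simp at this; linarith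
  · exact hy
  · have := lf_im_pos hz hy; linarith

end Vale.Agent.P248
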