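import Vale.Agent.P248.Lens1

open Complex Set Metric Filter Topology
open scoped Real

namespace Vale.Agent.P248

/-- the lens -/
def DD : Set ℂ := lf '' ball 0 1

/-- inverse of the lens map -/
noncomputable def gg : ℂ → ℂ := Function.invFunOn lf (ball 0 1)

lemma gg_lf {z : ℂ} (hz : ‖z‖ < 1) : gg (lf z) = z :=
  lf_injOn.leftInvOn_invFunOn (by simpa using hz)

lemma lf_mem {z : ℂ} (hz : ‖z‖ < 1) : lf z ∈ DD := ⟨z, by simpa using hz, rfl⟩

lemma gg_norm {w : ℂ} (hw : w ∈ DD) : ‖gg w‖ < 1 := by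
  obtain ⟨z, hz, rfl⟩ := hw
  have hz' : ‖z‖ < 1 := by simpa using hz
  rwa [gg_lf hz']

lemma lf_gg {w : ℂ} (hw : w ∈ DD) : lf (gg w) = w := by
  obtain ⟨z, hz, rfl⟩ := hw
  rw [gg_lf (by simpa using hz)]

lemma lf_strict {z : ℂ} (hz : ‖z‖ < 1) : HasStrictDerivAt lf (deriv lf z) z :=
  (lf_analytic z (by simpa using hz)).hasStrictDerivAt

lemma isOpen_DD : IsOpen DD := by
  rw [isOpen_iff_mem_nhds]
  rintro _ ⟨z, hz, rfl⟩
  have hz' : ‖z‖ < 1 := by simpa using hz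
  rw [← (lf_strict hz').map_nhds_eq (deriv_ne hz')]
  exact image_mem_map (isOpen_ball.mem_nhds hz)

lemma gg_hasDerivAt {w : ℂ} (hw : w ∈ DD) : HasDerivAt gg (deriv lf (gg w))⁻¹ w := by
  obtain ⟨z, hz, rfl⟩ := hw
  have hz' : ‖z‖ < 1 := by simpa using hz
  rw [gg_lf hz']
  refine ((lf_strict hz').to_local_left_inverse (deriv_ne hz') ?_).hasDerivAt
  filter_upwards [isOpen_ball.mem_nhds hz] with x hx
  exact gg_lf (by simpa using hx)

lemma gg_analytic : AnalyticOnNhd ℂ gg DD :=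
  DifferentiableOn.analyticOnNhd
    (fun _ hw => (gg_hasDerivAt hw).differentiableAt.differentiableWithinAt) isOpen_DD

lemma neg_mem_DD {w : ℂ} (hw : w ∈ DD) : -w ∈ DD := by
  obtain ⟨z, hz, rfl⟩ := hw
  exact ⟨-z, by simpa using hz, lf_neg z⟩

lemma gg_neg {w : ℂ} (hw : w ∈ DD) : gg (-w) = -gg w := by
  obtain ⟨z, hz, rfl⟩ := hw
  have hz' : ‖z‖ < 1 := by simpa using hz
  rw [← lf_neg, gg_lf hz', gg_lf (by simpa using hz')]

lemma zero_mem_DD : (0 : ℂ) ∈ DD := lf_zero ▸ lf_mem (by simp)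

lemma gg_zero : gg 0 = 0 := by
  have := gg_lf (z := 0) (by simp)
  rwa [lf_zero] at this

lemma deriv_lf_neg (z : ℂ) : deriv lf (-z) = deriv lf z := by
  have h : lf = fun z => -lf (-z) := by funext z; rw [lf_neg, neg_neg]
  conv_rhs => rw [h]
  rw [deriv.fun_neg, deriv_comp_neg, neg_neg]

lemma hasDerivAt_vert {q t : ℝ} (h : (q : ℂ) + t * I ∈ DD) :
    HasDerivAt (fun t : ℝ => gg (q + t * I)) ((deriv lf (gg (q + t * I)))⁻¹ * I) t := by
  have := (gg_hasDerivAt h).comp (t : ℂ) (((hasDerivAt_id (t : ℂ)).mul_const I).const_add (q : ℂ))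
  simpa using this.comp_ofReal

lemma hasDerivAt_re' {γ : ℝ → ℂ} {γ' : ℂ} {t : ℝ} (h : HasDerivAt γ γ' t) :
    HasDerivAt (fun t => (γ t).re) γ'.re t := reCLM.hasFDerivAt.comp_hasDerivAt t h

lemma hasDerivAt_im' {γ : ℝ → ℂ} {γ' : ℂ} {t : ℝ} (h : HasDerivAt γ γ' t) :
    HasDerivAt (fun t => (γ t).im) γ'.im t := imCLM.hasFDerivAt.comp_hasDerivAt t h

lemma im_mul_deriv {z : ℂ} (hz : ‖z‖ < 1) :
    z.re * (deriv lf z).im + z.im * (deriv lf z).re = 4 / π ^ 2 * (LL z).im := by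
  have h := mul_deriv_lf hz
  rw [coef_eq] at h
  simpa only [mul_im, ofReal_re, ofReal_im, zero_mul, add_zero] using congrArg Complex.im h

lemma re_mul_deriv {z : ℂ} (hz : ‖z‖ < 1) :
    z.re * (deriv lf z).re - z.im * (deriv lf z).im = 4 / π ^ 2 * (LL z).re := by
  have h := mul_deriv_lf hz
  rw [coef_eq] at h
  simpa only [mul_re, ofReal_re, ofReal_im, zero_mul, sub_zero] using congrArg Complex.re h

lemma hasDerivAt_rad {q t : ℝ} (h : (q : ℂ) + t * I ∈ DD) :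
    HasDerivAt (fun t : ℝ => (gg (q + t * I)).re ^ 2 + (gg (q + t * I)).im ^ 2)
      (2 * (4 / π ^ 2 * (LL (gg (q + t * I))).im) / normSq (deriv lf (gg (q + t * I)))) t := by
  have h1 := hasDerivAt_vert h
  have h2 := ((hasDerivAt_re' h1).fun_pow 2).fun_add ((hasDerivAt_im' h1).fun_pow 2)
  refine h2.congr_deriv ?_
  rw [← im_mul_deriv (gg_norm h)]
  simp
  ring

lemma vert_mem {w : ℂ} (hw : w ∈ DD) {t : ℝ} (ht : t ∈ Icc 0 w.im) : (w.re : ℂ) + t * I ∈ DD := by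
  set r := ‖gg w‖ with hr
  have hr1 : r < 1 := gg_norm hw
  have hK : IsCompact (lf '' closedBall 0 r) :=
    (isCompact_closedBall 0 r).image_of_continuousOn
      (lf_contOn.mono (closedBall_subset_closedBall hr1.le))
  have hsub : lf '' closedBall 0 r ⊆ DD := image_mono (closedBall_subset_ball hr1)
  set B : Set ℝ := {u | (w.re : ℂ) + (w.im - u : ℝ) * I ∈ lf '' closedBall 0 r} with hB
  have hBc : IsClosed B := hK.isClosed.preimage (by fun_prop)
  have key : Icc 0 w.im ⊆ B := by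
    apply (hBc.inter isClosed_Icc).Icc_subset_of_forall_mem_nhdsWithin
    · refine ⟨gg w, by simp [hr], ?_⟩
      rw [lf_gg hw]; simp
    · rintro u ⟨hu, hu2⟩
      have hD := hsub hu
      have hd := (hasDerivAt_rad hD).comp u ((hasDerivAt_id u).const_sub w.im)
      have hpos : 0 < (gg (w.re + (w.im - u : ℝ) * I)).im := by
        apply im_pos_of_lf (gg_norm hD)
        rw [lf_gg hD]; simp; exact hu2.2
      have hphi := phi_pos (re_lt_of_norm (gg_norm hD)) hpos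
      have hF : 0 < normSq (deriv lf (gg (w.re + (w.im - u : ℝ) * I))) :=
        normSq_pos.2 (deriv_ne (gg_norm hD))
      have hneg : 2 * (4 / π ^ 2 * (LL (gg (w.re + (w.im - u : ℝ) * I))).im) /
          normSq (deriv lf (gg (w.re + (w.im - u : ℝ) * I))) * (-1) < 0 := by
        have : 0 < 2 * (4 / π ^ 2 * (LL (gg (w.re + (w.im - u : ℝ) * I))).im) /
          normSq (deriv lf (gg (w.re + (w.im - u : ℝ) * I))) := by positivity
        linarith
      have hs := (hasDerivAt_iff_tendsto_slope_left_right.1 hd).2.eventually (gt_mem_nhds hneg)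
      have hcont : ContinuousAt (fun u : ℝ => (w.re : ℂ) + (w.im - u : ℝ) * I) u := by fun_prop
      have hD' := hcont.eventually (isOpen_DD.mem_nhds hD)
      filter_upwards [hs, self_mem_nhdsWithin, mem_nhdsWithin_of_mem_nhds hD'] with v h1 h2 h3
      refine ⟨_, ?_, lf_gg h3⟩
      rw [slope_def_field] at h1
      have h4 : 0 < v - u := sub_pos.2 h2
      have h5 := (div_neg_iff.1 h1).resolve_left (fun h => by linarith [h.2])
      simp only [Function.comp_apply, ← sq_norm'] at h5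
      obtain ⟨z, hz, hz2⟩ := hu
      have hz' : ‖z‖ ≤ r := by simpa using hz
      rw [← hz2, gg_lf (hz'.trans_lt hr1)] at h5
      simp only [mem_closedBall, dist_zero_right]
      have := abs_lt_of_sq_lt_sq' (by linarith [h5.1] :
        ‖gg (w.re + (w.im - v : ℝ) * I)‖ ^ 2 < ‖z‖ ^ 2) (norm_nonneg _)
      linarith [this.2]
  have := hsub (key (a := w.im - t) ⟨by linarith [ht.2], by linarith [ht.1]⟩)
  simpa using this

lemma vert_mem' {w : ℂ} (hw : w ∈ DD) {t : ℝ} (ht : t ∈ uIcc 0 w.im) :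
    (w.re : ℂ) + t * I ∈ DD := by
  rcases le_total 0 w.im with h | h
  · rw [uIcc_of_le h] at ht; exact vert_mem hw ht
  · rw [uIcc_of_ge h] at ht
    have := neg_mem_DD (vert_mem (neg_mem_DD hw) (t := -t)
      ⟨by linarith [ht.2], by simp; linarith [ht.1]⟩)
    simpa [add_comm] using this

lemma LL_hasDerivAt {z : ℂ} (hz : |z.re| < 1) : HasDerivAt LL ((1 + z)⁻¹ + (1 - z)⁻¹) z := by
  obtain ⟨h1, h2⟩ := abs_lt.1 hz
  have a1 : 1 + z ∈ slitPlane := Or.inl (by simp; linarith)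
  have a2 : 1 - z ∈ slitPlane := Or.inl (by simp; linarith)
  have := (((hasDerivAt_id z).const_add 1).clog a1).sub (((hasDerivAt_id z).const_sub 1).clog a2)
  refine this.congr_deriv ?_
  simp [div_eq_mul_inv]

lemma NN_sq' {z : ℂ} (hz : |z.re| < 1) :
    NN z ^ 2 = ((1 - z.re) ^ 2 + z.im ^ 2) * ((1 + z.re) ^ 2 + z.im ^ 2) := by
  rw [NN_sq hz]; ring

/-- the quantity controlling the growth of the angle -/
noncomputable def QQ (z : ℂ) : ℝ :=
  (2 * z.re * (1 - (z.re ^ 2 + z.im ^ 2)) * (LL z).re +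
    2 * z.im * (1 + (z.re ^ 2 + z.im ^ 2)) * (LL z).im) / NN z ^ 2

lemma hasDerivAt_phi {q t : ℝ} (h : (q : ℂ) + t * I ∈ DD) :
    ∃ d, HasDerivAt (fun t : ℝ => (LL (gg (q + t * I))).im) d t ∧
      ((gg (q + t * I)).re ^ 2 + (gg (q + t * I)).im ^ 2) *
        normSq (deriv lf (gg (q + t * I))) * d = 4 / π ^ 2 * QQ (gg (q + t * I)) := by
  have h1 := hasDerivAt_vert h
  have hz := gg_norm h
  have hz' := re_lt_of_norm hz
  have h2 := hasDerivAt_im' ((LL_hasDerivAt hz').scomp t h1)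
  refine ⟨_, h2, ?_⟩
  set z := gg (q + t * I)
  have e1 := im_mul_deriv hz
  have e2 := re_mul_deriv hz
  have hF : 0 < normSq (deriv lf z) := normSq_pos.2 (deriv_ne hz)
  have hA := A_pos hz'
  have hB := B_pos hz'
  rw [QQ, NN_sq' hz', ← mul_div_assoc, mul_add]
  have e3 : 4 / π ^ 2 * (2 * z.re * (1 - (z.re ^ 2 + z.im ^ 2)) * (LL z).re) =
      2 * z.re * (1 - (z.re ^ 2 + z.im ^ 2)) * (4 / π ^ 2 * (LL z).re) := by ring
  have e4 : 4 / π ^ 2 * (2 * z.im * (1 + (z.re ^ 2 + z.im ^ 2)) * (LL z).im) =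
      2 * z.im * (1 + (z.re ^ 2 + z.im ^ 2)) * (4 / π ^ 2 * (LL z).im) := by ring
  rw [e3, e4, ← e1, ← e2]
  have n1 : normSq (1 + z) = (1 + z.re) ^ 2 + z.im ^ 2 := by simp [normSq_apply]; ring
  have n2 : normSq (1 - z) = (1 - z.re) ^ 2 + z.im ^ 2 := by simp [normSq_apply]; ring
  simp only [smul_eq_mul, mul_im, mul_re, add_re, add_im, inv_re, inv_im, I_re, I_im, n1, n2,
    one_re, one_im, sub_re, sub_im]
  field_simp
  ring

lemma geom_bound {r : ℝ} (h0 : 0 ≤ r) (h1 : r ≤ 1) (j : ℕ) : (j : ℝ) * r ^ j * (1 - r) ≤ 1 := by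
  have g : ∀ j : ℕ, (j : ℝ) * r ^ j * (1 - r) ≤ 1 - r ^ j := by
    intro j
    induction j with
    | zero => simp
    | succ j ih =>
      have p1 : 0 ≤ r ^ j := by positivity
      have p3 : 0 ≤ r ^ j * (1 - r) := mul_nonneg p1 (by linarith)
      have p4 : ((j : ℝ) + 1) * (r ^ j * (1 - r)) * r ≤ ((j : ℝ) + 1) * (r ^ j * (1 - r)) :=
        mul_le_of_le_one_right (by positivity) h1
      push_cast
      rw [pow_succ]
      linarith
  have := g j
  have p : 0 ≤ r ^ j := by positivity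
  linarith

lemma x_rho_big {z : ℂ} (hz' : |z.re| < 1) {R : ℝ} (hR1 : 1 ≤ R) (hρ : R ≤ |(LL z).re|) :
    1 / 4 * R ≤ z.re * (LL z).re := by
  have he := exp_two_rho hz'
  have hA := A_pos hz'
  have hB := B_pos hz'
  rcases le_total 0 (LL z).re with h | h
  · rw [abs_of_nonneg h] at hρ
    have := Real.add_one_le_exp (2 * (LL z).re)
    have h3 : ((1 - z.re) ^ 2 + z.im ^ 2) * 3 ≤ (1 + z.re) ^ 2 + z.im ^ 2 := by
      rw [← he]; apply mul_le_mul_of_nonneg_left _ hA.le; linarith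
    have h4 : 1 / 4 ≤ z.re := by nlinarith [sq_nonneg z.re, sq_nonneg z.im]
    exact mul_le_mul h4 hρ (by linarith) (by linarith)
  · rw [abs_of_nonpos h] at hρ
    have := Real.add_one_le_exp (-(2 * (LL z).re))
    have h4 : Real.exp (2 * (LL z).re) * Real.exp (-(2 * (LL z).re)) = 1 := by
      rw [← Real.exp_add]; simp
    have h5 : (1 - z.re) ^ 2 + z.im ^ 2 =
        ((1 + z.re) ^ 2 + z.im ^ 2) * Real.exp (-(2 * (LL z).re)) := by
      rw [← he, mul_assoc, h4, mul_one]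
    have h3 : ((1 + z.re) ^ 2 + z.im ^ 2) * 3 ≤ (1 - z.re) ^ 2 + z.im ^ 2 := by
      rw [h5]; apply mul_le_mul_of_nonneg_left _ hB.le; linarith
    have h6 : 1 / 4 ≤ -z.re := by nlinarith [sq_nonneg z.re, sq_nonneg z.im]
    have := mul_le_mul h6 hρ (by linarith) (by linarith)
    linarith

lemma NN_lower {z : ℂ} (hz' : |z.re| < 1) {R : ℝ} (hρ : |(LL z).re| < R) :
    Real.exp (-R) ≤ NN z := by
  obtain ⟨hρ1, hρ2⟩ := abs_lt.1 hρ
  rcases le_total z.re 0 with h | h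
  · have hA : 1 ≤ (1 - z.re) ^ 2 + z.im ^ 2 := by nlinarith
    have := Real.exp_le_exp.2 hρ1.le
    rw [NN]; nlinarith [Real.exp_pos (LL z).re]
  · have hB : 1 ≤ (1 + z.re) ^ 2 + z.im ^ 2 := by nlinarith
    have he := exp_two_rho hz'
    have e : NN z = ((1 + z.re) ^ 2 + z.im ^ 2) * Real.exp (-(LL z).re) := by
      rw [NN, ← he, mul_assoc, ← Real.exp_add]; congr 2; ring
    have := Real.exp_le_exp.2 (show -R ≤ -(LL z).re by linarith)
    rw [e]; nlinarith [Real.exp_pos (-(LL z).re)]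

lemma caseA {P N c R η s X T : ℝ} (hP : 0 ≤ P) (hN : 0 < N) (hc0 : 0 < c) (hη : 0 < η)
    (hR : 0 ≤ R) (hcN : c * N ≤ s) (hgeom : P * s ≤ 1) (hx : 1 / 4 * R ≤ X)
    (hR2 : 2 * π ≤ R * (η * c ^ 2)) (hT : 0 ≤ T) : π * P * N ^ 2 ≤ η * (2 * X * s + T) := by
  have hπ := Real.pi_pos
  have s1 : P * (c * N) ≤ 1 := (mul_le_mul_of_nonneg_left hcN hP).trans hgeom
  have s2 : c * N * (R / 2) ≤ 2 * X * s := by
    have := mul_le_mul hcN (show R / 2 ≤ 2 * X by linarith) (by linarith)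
      (le_trans (by positivity) hcN)
    linarith
  have s3 : π * P * N ^ 2 * c ≤ π * N := by
    have := mul_le_mul_of_nonneg_left s1 (show 0 ≤ π * N by positivity)
    linarith
  have s4 : π * N ≤ η * (c * N * (R / 2)) * c := by
    have := mul_le_mul_of_nonneg_right hR2 hN.le
    linarith
  have s5 : π * P * N ^ 2 ≤ η * (c * N * (R / 2)) := le_of_mul_le_mul_right (s3.trans s4) hc0
  exact s5.trans (mul_le_mul_of_nonneg_left (s2.trans (le_add_of_nonneg_right hT)) hη.le)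

lemma caseB {x y ρ φ κ η N : ℝ} {k : ℕ} (hκ1 : κ < 1) (hη : 0 < η)
    (hκr : κ ≤ 1 - (x ^ 2 + y ^ 2)) (hκ0 : 0 < κ) (hN2 : N ^ 2 ≤ 4) (hxρ : x ^ 2 ≤ 2 * (x * ρ))
    (hy : 0 < y) (hyφ : y ≤ φ) (hk : ((k : ℝ) + 1) * (1 - κ) ^ k < η * κ / (4 * π)) :
    π * ((k : ℝ) + 1) * (x ^ 2 + y ^ 2) ^ (k + 1) * N ^ 2 ≤
      η * (2 * x * (1 - (x ^ 2 + y ^ 2)) * ρ + 2 * y * (1 + (x ^ 2 + y ^ 2)) * φ) := by
  have hπ := Real.pi_pos
  have a1 : κ * x ^ 2 ≤ 2 * x * (1 - (x ^ 2 + y ^ 2)) * ρ := by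
    have := mul_le_mul hκr hxρ (sq_nonneg _) (by linarith)
    linarith
  have a2 : κ * y ^ 2 ≤ 2 * y * (1 + (x ^ 2 + y ^ 2)) * φ := by
    have b1 : y ^ 2 ≤ y * φ := by nlinarith
    have b2 : 0 ≤ y * φ := le_trans (sq_nonneg _) b1
    have b3 : 0 ≤ (x ^ 2 + y ^ 2) * (y * φ) := by positivity
    have b4 : κ * y ^ 2 ≤ y ^ 2 := mul_le_of_le_one_left (sq_nonneg _) hκ1.le
    linarith
  set r := x ^ 2 + y ^ 2 with hr
  have hr0 : 0 ≤ r := by positivity
  have s1 : κ * r ≤ 2 * x * (1 - r) * ρ + 2 * y * (1 + r) * φ := by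
    have : κ * r = κ * x ^ 2 + κ * y ^ 2 := by rw [hr]; ring
    linarith
  have s2 : r ^ k ≤ (1 - κ) ^ k := pow_le_pow_left₀ hr0 (by linarith) k
  rw [lt_div_iff₀ (by positivity)] at hk
  have s3 : π * ((k : ℝ) + 1) * r ^ k * 4 ≤ η * κ := by
    have := mul_le_mul_of_nonneg_left s2 (show 0 ≤ π * ((k : ℝ) + 1) * 4 by positivity)
    linarith
  calc π * ((k : ℝ) + 1) * r ^ (k + 1) * N ^ 2 ≤ π * ((k : ℝ) + 1) * r ^ (k + 1) * 4 :=
        mul_le_mul_of_nonneg_left hN2 (by positivity)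
    _ = (π * ((k : ℝ) + 1) * r ^ k * 4) * r := by ring
    _ ≤ η * κ * r := mul_le_mul_of_nonneg_right s3 hr0
    _ = η * (κ * r) := by ring
    _ ≤ _ := mul_le_mul_of_nonneg_left s1 hη.le

lemma core_small {φ0 η : ℝ} (hφ1 : 0 < φ0) (hφ2 : φ0 < π / 2) (hη : 0 < η) :
    ∃ m0 : ℕ, ∀ m : ℕ, m0 ≤ m → ∀ z : ℂ, ‖z‖ < 1 → 0 < z.im → (LL z).im < φ0 →
      π * m * (z.re ^ 2 + z.im ^ 2) ^ m ≤ η * QQ z := by
  have hπ := Real.pi_pos
  obtain ⟨c, hc⟩ : ∃ c, c = Real.cos φ0 := ⟨_, rfl⟩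
  have hc0 : 0 < c := hc ▸ Real.cos_pos_of_mem_Ioo ⟨by linarith, hφ2⟩
  have hc1 : c ≤ 1 := hc ▸ Real.cos_le_one _
  obtain ⟨R, hR⟩ : ∃ R, R = 1 + 2 * π / (η * c ^ 2) := ⟨_, rfl⟩
  have hR1 : 1 ≤ R := by
    have : 0 < 2 * π / (η * c ^ 2) := by positivity
    linarith
  have hR2 : 2 * π ≤ R * (η * c ^ 2) := by
    rw [hR, add_mul, div_mul_cancel₀ _ (by positivity)]
    have : 0 < η * c ^ 2 := by positivity
    linarith
  obtain ⟨κ, hκ⟩ : ∃ κ, κ = c * Real.exp (-R) := ⟨_, rfl⟩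
  have hκ0 : 0 < κ := by rw [hκ]; positivity
  have hκ1 : κ < 1 := by
    have : Real.exp (-R) < 1 := by rw [← Real.exp_zero]; exact Real.exp_lt_exp.2 (by linarith)
    rw [hκ]; nlinarith
  have hlim : Tendsto (fun m : ℕ => ((m : ℝ) + 1) * (1 - κ) ^ m) atTop (𝓝 0) := by
    have t1 := tendsto_self_mul_const_pow_of_lt_one (r := 1 - κ) (by linarith) (by linarith)
    have t2 := tendsto_pow_atTop_nhds_zero_of_lt_one (r := 1 - κ) (by linarith) (by linarith)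
    simpa [add_mul] using t1.add t2
  obtain ⟨m1, hm1⟩ := eventually_atTop.1
    (hlim.eventually (gt_mem_nhds (show (0 : ℝ) < η * κ / (4 * π) by positivity)))
  refine ⟨m1 + 1, fun m hm z hz hy hcase => ?_⟩
  obtain ⟨k, rfl⟩ : ∃ k, m = k + 1 := ⟨m - 1, by omega⟩
  have hk := hm1 k (by omega)
  have hz' := re_lt_of_norm hz
  have hr1 := sq_lt_of_norm hz
  have hφ := phi_pos hz' hy
  have hN := NN_pos hz'
  have hcos : c ≤ Real.cos (LL z).im :=
    hc ▸ Real.cos_le_cos_of_nonneg_of_le_pi hφ.le (by linarith) hcase.le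
  have hcN : c * NN z ≤ 1 - (z.re ^ 2 + z.im ^ 2) := by
    rw [← NN_cos hz', mul_comm]; exact mul_le_mul_of_nonneg_left hcos hN.le
  rw [QQ, ← mul_div_assoc, le_div_iff₀ (by positivity)]
  by_cases hρ : R ≤ |(LL z).re|
  · have := caseA (P := ((k + 1 : ℕ) : ℝ) * (z.re ^ 2 + z.im ^ 2) ^ (k + 1))
      (T := 2 * z.im * (1 + (z.re ^ 2 + z.im ^ 2)) * (LL z).im) (by positivity) hN hc0 hη
      (by linarith) hcN (geom_bound (by positivity) hr1.le _) (x_rho_big hz' hR1 hρ) hR2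
      (by positivity)
    linarith
  · push Not at hρ
    have hκr : κ ≤ 1 - (z.re ^ 2 + z.im ^ 2) :=
      hκ ▸ (mul_le_mul_of_nonneg_left (NN_lower hz' hρ) hc0.le).trans hcN
    have hN2 : NN z ^ 2 ≤ 4 := by nlinarith [NN_le hz' hr1.le]
    push_cast
    exact caseB hκ1 hη hκr hκ0 hN2 (re_mul_rho hz' hr1.le) hy (im_le_phi hz' hr1.le hy) hk

lemma QQ_nonneg {z : ℂ} (hz : ‖z‖ < 1) (hy : 0 < z.im) : 0 ≤ QQ z := by
  have hz' := re_lt_of_norm hz
  have hr1 := sq_lt_of_norm hz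
  have hφ := phi_pos hz' hy
  have hxρ := re_mul_rho hz' hr1.le
  have t1 : 0 ≤ 2 * z.re * (1 - (z.re ^ 2 + z.im ^ 2)) * (LL z).re := by
    have h1 : 0 ≤ 2 * (z.re * (LL z).re) := le_trans (sq_nonneg _) hxρ
    have := mul_nonneg h1 (show 0 ≤ 1 - (z.re ^ 2 + z.im ^ 2) by linarith)
    linarith
  exact div_nonneg (add_nonneg t1 (by positivity)) (by positivity)

lemma core_ineq {ε η : ℝ} (hε : 0 < ε) (hη : 0 < η) : ∃ m0 : ℕ, ∀ m : ℕ, m0 ≤ m → ∀ z : ℂ,
    ‖z‖ < 1 → 0 < z.im → π * m * (z.re ^ 2 + z.im ^ 2) ^ m ≤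
      2 * (1 + ε) * m * (LL z).im * (z.re ^ 2 + z.im ^ 2) ^ m + η * QQ z := by
  have hπ := Real.pi_pos
  have hφ1 : 0 < π / (2 * (1 + ε)) := by positivity
  have hφ2 : π / (2 * (1 + ε)) < π / 2 := by
    apply div_lt_div_of_pos_left hπ (by norm_num); linarith
  obtain ⟨m0, hm0⟩ := core_small hφ1 hφ2 hη
  refine ⟨m0, fun m hm z hz hy => ?_⟩
  have hφ := phi_pos (re_lt_of_norm hz) hy
  have hQ := mul_nonneg hη.le (QQ_nonneg hz hy)
  have hP : 0 ≤ (m : ℝ) * (z.re ^ 2 + z.im ^ 2) ^ m := by positivity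
  by_cases hcase : π / (2 * (1 + ε)) ≤ (LL z).im
  · have : π ≤ 2 * (1 + ε) * (LL z).im := by
      rw [div_le_iff₀ (by positivity)] at hcase; linarith
    have := mul_le_mul_of_nonneg_right this hP
    linarith
  · have := hm0 m hm z hz hy (not_le.1 hcase)
    have : 0 ≤ 2 * (1 + ε) * m * (LL z).im * (z.re ^ 2 + z.im ^ 2) ^ m := by positivity
    linarith

end Vale.Agent.P248
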