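import Vale.Agent.P248.Lens2

open Complex Set Metric Filter Topology
open scoped Real

namespace Vale.Agent.P248

lemma le_of_deriv {f : ℝ → ℝ} {a b : ℝ} (hab : a ≤ b) (hc : ContinuousOn f (Icc a b))
    (hd : ∀ x ∈ Ioo a b, ∃ d, HasDerivAt f d x ∧ 0 ≤ d) : f a ≤ f b := by
  rcases hab.eq_or_lt with rfl | hab
  · exact le_rfl
  obtain ⟨c, hc1, hc2⟩ := exists_hasDerivAt_eq_slope f (deriv f) hab hc fun x hx => by
    obtain ⟨d, h, -⟩ := hd x hx
    exact h.differentiableAt.hasDerivAt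
  obtain ⟨d, h, h0⟩ := hd c hc1
  rw [h.deriv] at hc2
  rw [hc2] at h0
  have := (div_nonneg_iff.1 h0).resolve_right (fun h => by linarith [h.2])
  linarith [this.1]

lemma norm_expI (θ : ℝ) : ‖exp (θ * I)‖ = 1 := norm_exp_ofReal_mul_I θ

lemma cont_bd : Continuous fun θ : ℝ => lf (exp (θ * I)) :=
  lf_contOn.comp_continuous (by fun_prop) fun θ => by simp

lemma expI_re_lt {θ : ℝ} (h : θ ∈ Ioo 0 π) : |(exp (θ * I)).re| < 1 := by
  rw [exp_ofReal_mul_I_re]
  have := Real.sin_pos_of_mem_Ioo h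
  have h2 := Real.sin_sq_add_cos_sq θ
  apply abs_lt_of_sq_lt_sq _ zero_le_one
  nlinarith

lemma bd_deriv {θ : ℝ} (h : θ ∈ Ioo 0 π) : HasDerivAt (fun θ : ℝ => lf (exp (θ * I)))
    (I * (((4 / π ^ 2 : ℝ) : ℂ) * LL (exp (θ * I)))) θ := by
  set z := exp (θ * I) with hz
  have hz0 : z ≠ 0 := exp_ne_zero _
  have hre := expI_re_lt h
  have hcont : ContinuousAt (fun y => (((4 / π ^ 2 : ℝ) : ℂ) * LL y / y) • (1 : ℂ →L[ℝ] ℂ)) z :=
    (((LL_hasDerivAt hre).continuousAt.const_mul _).div continuousAt_id hz0).smul continuousAt_const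
  have h1 : HasFDerivWithinAt lf ((((4 / π ^ 2 : ℝ) : ℂ) * LL z / z) • (1 : ℂ →L[ℝ] ℂ))
      (closure (ball 0 1)) z := by
    apply hasFDerivWithinAt_closure_of_tendsto_fderiv (lf_diffOn.restrictScalars ℝ)
      (convex_ball 0 1) isOpen_ball
    · intro y hy
      rw [closure_ball _ one_ne_zero] at hy
      exact (lf_contOn y hy).mono ball_subset_closedBall
    · refine (hcont.tendsto.mono_left nhdsWithin_le_nhds).congr' ?_
      filter_upwards [self_mem_nhdsWithin, mem_nhdsWithin_of_mem_nhds (isOpen_ne.mem_nhds hz0)]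
        with y hy hy0
      have hy' : ‖y‖ < 1 := by simpa using hy
      rw [(lf_hasDerivAt hy').complexToReal_fderiv.fderiv, ← coef_eq, ← mul_deriv_lf hy']
      congr 1
      field_simp
  rw [closure_ball _ one_ne_zero] at h1
  have h2 : HasDerivAt (fun θ : ℝ => exp (θ * I)) (z * I) θ := by
    have := (((hasDerivAt_id (θ : ℂ)).mul_const I).cexp).comp_ofReal
    simpa using this
  have h3 := h1.comp_hasDerivWithinAt θ (h2.hasDerivWithinAt (s := univ))
    (fun θ _ => by simp)
  rw [hasDerivWithinAt_univ] at h3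
  refine h3.congr_deriv ?_
  simp only [_root_.smul_apply, one_apply_eq_self, smul_eq_mul]
  field_simp

lemma expI_sq (θ : ℝ) : (exp (θ * I)).re ^ 2 + (exp (θ * I)).im ^ 2 = 1 := by
  rw [← sq_norm', norm_expI]; norm_num

lemma bd_phi {θ : ℝ} (h : θ ∈ Ioo 0 π) : (LL (exp (θ * I))).im = π / 2 :=
  phi_eq (expI_re_lt h) (expI_sq θ) (by rw [exp_ofReal_mul_I_im]; exact Real.sin_pos_of_mem_Ioo h)

lemma bd_re {θ : ℝ} (h : θ ∈ Icc 0 π) : (lf (exp (θ * I))).re = 1 - 2 * θ / π := by
  have hπ := Real.pi_pos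
  set u : ℝ → ℝ := fun θ => (lf (exp (θ * I))).re + 2 * θ / π with hu
  have hc : Continuous u := (continuous_re.comp cont_bd).add (by fun_prop)
  have hd : ∀ x ∈ Ioo 0 π, HasDerivAt u 0 x := by
    intro x hx
    have := (hasDerivAt_re' (bd_deriv hx)).add (((hasDerivAt_id x).const_mul 2).div_const π)
    refine this.congr_deriv ?_
    simp only [mul_re, I_re, I_im, mul_im, ofReal_re, ofReal_im, bd_phi hx]
    field_simp
    ring
  have hconst : ∀ a b, 0 ≤ a → a ≤ b → b ≤ π → u a = u b := by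
    intro a b ha hab hb
    apply le_antisymm
    · exact le_of_deriv hab hc.continuousOn fun x hx =>
        ⟨0, hd x ⟨by linarith [hx.1], by linarith [hx.2]⟩, le_rfl⟩
    · have := le_of_deriv (f := fun x => -u x) hab hc.neg.continuousOn fun x hx =>
        ⟨-0, (hd x ⟨by linarith [hx.1], by linarith [hx.2]⟩).neg, by simp⟩
      simpa using this
  have h1 : u (π / 2) = 1 := by
    simp only [hu]
    have : exp (((π / 2 : ℝ) : ℂ) * I) = I := by push_cast; exact exp_pi_div_two_mul_I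
    rw [this, lf_re_I]; field_simp; ring
  have h2 : u θ = 1 := by
    rcases le_total θ (π / 2) with h3 | h3
    · rw [hconst θ (π / 2) h.1 h3 (by linarith), h1]
    · rw [← hconst (π / 2) θ (by linarith) h3 h.2, h1]
  simp only [hu] at h2
  linarith

lemma bd_rho {θ : ℝ} (h0 : 0 < θ) (h1 : θ < π / 2) :
    0 ≤ (LL (exp (θ * I))).re + Real.log θ ∧ (LL (exp (θ * I))).re + Real.log θ ≤ 3 := by
  have hπ := Real.pi_pos
  have h : θ ∈ Ioo 0 π := ⟨h0, by linarith⟩
  have hN := NN_sin (expI_re_lt h)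
  rw [bd_phi h, Real.sin_pi_div_two, mul_one, NN, exp_ofReal_mul_I_re, exp_ofReal_mul_I_im] at hN
  set E := Real.exp (LL (exp (θ * I))).re with hE
  have hs := Real.sin_pos_of_mem_Ioo h
  have hc := Real.cos_pos_of_mem_Ioo (x := θ) ⟨by linarith, h1⟩
  have hsc := Real.sin_sq_add_cos_sq θ
  have hc1 : Real.cos θ < 1 := by nlinarith
  have hN' : (1 - Real.cos θ) * E = Real.sin θ := by nlinarith
  have e : (LL (exp (θ * I))).re + Real.log θ = Real.log (E * θ) := by
    rw [Real.log_mul (Real.exp_pos _).ne' h0.ne', Real.log_exp]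
  have s1 := Real.sin_le h0.le
  have s2 := Real.mul_le_sin h0.le h1.le
  rw [e]
  constructor
  · apply Real.log_nonneg
    have : (1 - Real.cos θ) * 1 ≤ (1 - Real.cos θ) * (E * θ) := by
      rw [← mul_assoc, hN']; nlinarith
    exact le_of_mul_le_mul_left this (by linarith)
  · have h3 : (1 - Real.cos θ) * (E * θ) ≤ (1 - Real.cos θ) * π := by
      rw [← mul_assoc, hN']
      have s3 : 2 * θ ≤ π * Real.sin θ := by
        rw [div_mul_eq_mul_div, div_le_iff₀ hπ] at s2; linarith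
      have s4 : Real.sin θ ^ 2 ≤ 2 * (1 - Real.cos θ) := by nlinarith
      nlinarith
    have h4 : E * θ ≤ π := le_of_mul_le_mul_left h3 (by linarith)
    have h5 := Real.log_le_sub_one_of_pos (show 0 < E * θ by positivity)
    linarith [Real.pi_lt_four]

lemma bd_im {θ : ℝ} (h0 : 0 ≤ θ) (h1 : θ ≤ π / 2) :
    4 / π ^ 2 * (θ - θ * Real.log θ) ≤ (lf (exp (θ * I))).im ∧
      (lf (exp (θ * I))).im ≤ 4 / π ^ 2 * (θ - θ * Real.log θ + 3 * θ) := by
  have hπ := Real.pi_pos
  set u : ℝ → ℝ := fun θ => (lf (exp (θ * I))).im - 4 / π ^ 2 * (θ - θ * Real.log θ) with hu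
  have hc : Continuous u :=
    (continuous_im.comp cont_bd).sub ((continuous_id.sub Real.continuous_mul_log).const_mul _)
  have hd : ∀ x ∈ Ioo 0 θ, HasDerivAt u (4 / π ^ 2 * ((LL (exp (x * I))).re + Real.log x)) x := by
    intro x hx
    have := (hasDerivAt_im' (bd_deriv (θ := x) ⟨hx.1, by linarith [hx.2]⟩)).sub
      (((hasDerivAt_id x).sub (Real.hasDerivAt_mul_log hx.1.ne')).const_mul (4 / π ^ 2))
    refine this.congr_deriv ?_
    simp only [mul_re, I_re, I_im, mul_im, ofReal_re, ofReal_im]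
    ring
  have hu0 : u 0 = 0 := by
    have := lf_im_ofReal 1
    simpa [hu] using this
  have a1 := le_of_deriv h0 hc.continuousOn fun x hx =>
    ⟨_, hd x hx, mul_nonneg (by positivity) (bd_rho hx.1 (by linarith [hx.2])).1⟩
  have a2 := le_of_deriv (f := fun x => 4 / π ^ 2 * (3 * x) - u x) h0
    (((continuous_const.mul continuous_id).const_mul _).sub hc).continuousOn fun x hx =>
    ⟨_, (((hasDerivAt_id x).const_mul 3).const_mul (4 / π ^ 2)).sub (hd x hx), by
      have := mul_le_mul_of_nonneg_left (bd_rho hx.1 (by linarith [hx.2])).2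
        (show 0 ≤ 4 / π ^ 2 by positivity)
      linarith⟩
  rw [hu0] at a1 a2
  simp only [hu] at a1 a2
  constructor <;> linarith

/-- height function of the lens -/
noncomputable def SS (q : ℝ) : ℝ := (lf (exp ((π * (1 - q) / 2 : ℝ) * I))).im

lemma SS_cont : Continuous SS :=
  continuous_im.comp (cont_bd.comp (f := fun q : ℝ => π * (1 - q) / 2) (by fun_prop))

lemma SS_neg (q : ℝ) : SS (-q) = SS q := by
  unfold SS
  have : exp ((π * (1 - -q) / 2 : ℝ) * I) =
      -(starRingEnd ℂ) (exp ((π * (1 - q) / 2 : ℝ) * I)) := by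
    rw [← exp_conj, ← neg_one_mul (exp _), ← exp_pi_mul_I, ← exp_add]
    congr 1
    simp only [map_mul, conj_ofReal, conj_I]
    push_cast; ring
  rw [this, lf_neg, lf_conj]; simp

lemma SS_asymp : ∃ C : ℝ, 0 ≤ C ∧ ∀ r ∈ Icc (0 : ℝ) 1,
    |SS (1 - r) - 2 / π * Real.negMulLog r| ≤ C * r := by
  have hπ := Real.pi_pos
  refine ⟨2 / π * (|Real.log (π / 2)| + 4), by positivity, fun r hr => ?_⟩
  have h := bd_im (θ := π * r / 2) (by have := hr.1; positivity) (by nlinarith [hr.2])
  have e : SS (1 - r) = (lf (exp ((π * r / 2 : ℝ) * I))).im := by simp [SS]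
  rw [← e] at h
  have e2 : 4 / π ^ 2 * (π * r / 2 - π * r / 2 * Real.log (π * r / 2)) =
      2 / π * Real.negMulLog r + 2 / π * (r * (1 - Real.log (π / 2))) := by
    rcases hr.1.eq_or_lt with h0 | h0
    · subst h0; simp
    · rw [show π * r / 2 = π / 2 * r by ring, Real.log_mul (by positivity) h0.ne', Real.negMulLog]
      field_simp
      ring
  have e3 : 4 / π ^ 2 * (3 * (π * r / 2)) = 2 / π * (3 * r) := by field_simp; ring
  rw [mul_add, e2, e3] at h
  have hp : 0 < 2 / π := by positivity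
  have b1 := le_abs_self (Real.log (π / 2))
  have b2 := neg_abs_le (Real.log (π / 2))
  have b3 := mul_le_mul_of_nonneg_left b1 (mul_nonneg hp.le hr.1)
  have b4 := mul_le_mul_of_nonneg_left b2 (mul_nonneg hp.le hr.1)
  have b5 := mul_nonneg hp.le hr.1
  rw [abs_le]
  constructor <;> nlinarith [h.1, h.2]

lemma SS_one : SS 1 = 0 := by
  have := lf_im_ofReal 1
  simpa [SS] using this

lemma SS_pos {q : ℝ} (hq : |q| < 1) : 0 < SS q := by
  have hπ := Real.pi_pos
  have key : ∀ q : ℝ, 0 ≤ q → q < 1 → 0 < SS q := by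
    intro q h0 h1
    have hθ : 0 < π * (1 - q) / 2 := by have : 0 < 1 - q := by linarith
                                        positivity
    have hθ2 : π * (1 - q) / 2 ≤ π / 2 := by nlinarith
    refine lt_of_lt_of_le ?_ (bd_im hθ.le hθ2).1
    have := Real.log_le_sub_one_of_pos hθ
    have h3 : Real.log (π * (1 - q) / 2) < 1 := by linarith [Real.pi_lt_four]
    apply mul_pos (by positivity)
    nlinarith
  obtain ⟨h1, h2⟩ := abs_lt.1 hq
  rcases le_total 0 q with h | h
  · exact key q h h2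
  · rw [← SS_neg]; exact key _ (by linarith) (by linarith)

lemma SS_nonneg {q : ℝ} (hq : |q| ≤ 1) : 0 ≤ SS q := by
  rcases hq.eq_or_lt with h | h
  · rcases (abs_eq zero_le_one).1 h with rfl | rfl
    · rw [SS_one]
    · rw [SS_neg, SS_one]
  · exact (SS_pos h).le

lemma circle_SS {z : ℂ} (hz : ‖z‖ = 1) : |(lf z).re| ≤ 1 ∧ |(lf z).im| = SS (lf z).re := by
  have hπ := Real.pi_pos
  have key : ∀ z : ℂ, ‖z‖ = 1 → 0 ≤ z.im → |(lf z).re| ≤ 1 ∧ |(lf z).im| = SS (lf z).re := by
    intro z hz hy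
    have h1 : z = exp (arg z * I) := by
      have := norm_mul_exp_arg_mul_I z
      rw [hz] at this; simpa using this.symm
    have h2 : arg z ∈ Icc 0 π := ⟨arg_nonneg_iff.2 hy, arg_le_pi z⟩
    have h3 := bd_re h2
    rw [← h1] at h3
    have h4 : |(lf z).re| ≤ 1 := by
      rw [h3, abs_le]
      have a1 : 0 ≤ 2 * arg z / π := by have := h2.1; positivity
      have a2 : 2 * arg z / π ≤ 2 := by rw [div_le_iff₀ hπ]; linarith [h2.2]
      constructor <;> linarith
    have h5 : SS (lf z).re = (lf z).im := by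
      have : π * (1 - (lf z).re) / 2 = arg z := by rw [h3]; field_simp; ring
      rw [SS, this, ← h1]
    refine ⟨h4, ?_⟩
    rw [← h5, abs_of_nonneg (SS_nonneg h4)]
  rcases le_total 0 z.im with h | h
  · exact key z hz h
  · have := key ((starRingEnd ℂ) z) (by simpa using hz) (by simpa using h)
    rw [lf_conj] at this
    simpa using this

lemma DD_bound {w : ℂ} (hw : w ∈ DD) : |w.re| ≤ 1 ∧ |w.im| ≤ SS w.re := by
  have key : ∀ w ∈ DD, |w.re| ≤ 1 ∧ w.im ≤ SS w.re := by
    intro w hw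
    have hK : IsCompact (lf '' closedBall 0 1 ∩ {v | v.re = w.re}) :=
      ((isCompact_closedBall 0 1).image_of_continuousOn lf_contOn).inter_right
        (isClosed_eq continuous_re continuous_const)
    have hw' : w ∈ lf '' closedBall 0 1 ∩ {v | v.re = w.re} :=
      ⟨image_mono ball_subset_closedBall hw, rfl⟩
    obtain ⟨v, ⟨⟨z, hz, rfl⟩, hv⟩, hmax⟩ := hK.exists_isMaxOn ⟨w, hw'⟩ continuous_im.continuousOn
    have hz1 : ‖z‖ ≤ 1 := by simpa using hz
    have hz2 : ‖z‖ = 1 := by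
      by_contra hne
      have hD := lf_mem (lt_of_le_of_ne hz1 hne)
      have hcont : ContinuousAt (fun u : ℝ => lf z + u * I) 0 := by fun_prop
      have h1 : ∀ᶠ u : ℝ in 𝓝 0, lf z + u * I ∈ DD :=
        hcont.eventually (isOpen_DD.mem_nhds (by simpa using hD))
      obtain ⟨u, hu1, hu2⟩ :=
        ((h1.filter_mono nhdsWithin_le_nhds).and (self_mem_nhdsWithin (s := Ioi (0 : ℝ)))).exists
      have := hmax (a := lf z + u * I) ⟨image_mono ball_subset_closedBall hu1, by simpa using hv⟩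
      simp at this
      exact absurd hu2 (not_lt.2 this)
    obtain ⟨h1, h2⟩ := circle_SS hz2
    have hv' : (lf z).re = w.re := hv
    rw [hv'] at h1 h2
    refine ⟨h1, ?_⟩
    have := hmax hw'
    have h6 : w.im ≤ (lf z).im := this
    linarith [le_abs_self (lf z).im]
  refine ⟨(key w hw).1, abs_le.2 ⟨?_, (key w hw).2⟩⟩
  have := (key _ (neg_mem_DD hw)).2
  simp only [neg_im, neg_re, SS_neg] at this
  linarith

lemma near_circle {δ : ℝ} (hδ : 0 < δ) : ∃ ρ : ℝ, 0 ≤ ρ ∧ ρ < 1 ∧ ∀ w ∈ DD,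
    |w.im| < SS w.re - δ → ‖gg w‖ ≤ ρ := by
  have hK : IsCompact (closedBall (0 : ℂ) 1 ∩ (fun z => SS (lf z).re - |(lf z).im|) ⁻¹' Ici δ) := by
    apply (isCompact_closedBall (0 : ℂ) 1).of_isClosed_subset _ inter_subset_left
    apply ContinuousOn.preimage_isClosed_of_isClosed _ isClosed_closedBall isClosed_Ici
    exact (SS_cont.comp_continuousOn (continuous_re.comp_continuousOn lf_contOn)).sub
      (continuous_im.comp_continuousOn lf_contOn).abs
  have hm : ∀ w ∈ DD, |w.im| < SS w.re - δ →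
      gg w ∈ closedBall (0 : ℂ) 1 ∩ (fun z => SS (lf z).re - |(lf z).im|) ⁻¹' Ici δ := by
    intro w hw h
    refine ⟨by simpa using (gg_norm hw).le, ?_⟩
    simp only [mem_preimage, lf_gg hw, mem_Ici]; linarith
  rcases (closedBall (0 : ℂ) 1 ∩ (fun z => SS (lf z).re - |(lf z).im|) ⁻¹' Ici δ).eq_empty_or_nonempty
    with he | hne
  · refine ⟨0, le_rfl, one_pos, fun w hw h => ?_⟩
    have := hm w hw h
    rw [he] at this; exact this.elim
  · obtain ⟨z, hz, hmax⟩ := hK.exists_isMaxOn hne continuous_norm.continuousOn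
    refine ⟨‖z‖, norm_nonneg _, lt_of_le_of_ne (by simpa using hz.1) fun h => ?_,
      fun w hw h => hmax (hm w hw h)⟩
    have := hz.2
    simp only [mem_preimage, mem_Ici, (circle_SS h).2] at this
    linarith

end Vale.Agent.P248
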