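import Vale.Agent.P248.Alg

open Matrix MeasureTheory Set

namespace Vale.Agent.P248

/-- phase space -/
abbrev EE (n : ℕ) := (Fin n → ℝ) × (Fin n → ℝ)

variable {n : ℕ} {ι : Type} [Fintype ι] [DecidableEq ι]

/-- dot product as a continuous linear map -/
noncomputable def dotL (a : Fin n → ℝ) : (Fin n → ℝ) →L[ℝ] ℝ :=
  ∑ k, a k • (ContinuousLinearMap.proj k : (Fin n → ℝ) →L[ℝ] ℝ)

@[simp] lemma dotL_apply (a x : Fin n → ℝ) : dotL a x = a ⬝ᵥ x := by
  simp [dotL, dotProduct]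

/-- complexified linear form -/
noncomputable def ell (a : Fin n → ℝ) : EE n →L[ℝ] ℂ :=
  ((dotL a).comp (ContinuousLinearMap.fst ℝ _ _)).smulRight (1 : ℂ) +
    ((dotL a).comp (ContinuousLinearMap.snd ℝ _ _)).smulRight Complex.I

lemma ell_apply (a : Fin n → ℝ) (p : EE n) :
    ell a p = (a ⬝ᵥ p.1 : ℝ) + (a ⬝ᵥ p.2 : ℝ) * Complex.I := by
  simp [ell]

@[simp] lemma ell_re (a : Fin n → ℝ) (p : EE n) : (ell a p).re = a ⬝ᵥ p.1 := by
  simp [ell_apply]

@[simp] lemma ell_im (a : Fin n → ℝ) (p : EE n) : (ell a p).im = a ⬝ᵥ p.2 := by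
  simp [ell_apply]

/-- data of a sum of one variable potentials -/
structure Pot (ι : Type) where
  O : ι → Set ℂ
  ψ : ι → ℂ → ℝ
  α : ι → ℂ → ℝ
  β : ι → ℂ → ℝ
  μ : ι → ℂ → ℝ
  isOpen : ∀ i, IsOpen (O i)
  cψ : ∀ i, ∀ w ∈ O i, ContDiffAt ℝ 1 (ψ i) w
  cα : ∀ i, ∀ w ∈ O i, ContDiffAt ℝ 1 (α i) w
  cβ : ∀ i, ∀ w ∈ O i, ContDiffAt ℝ 1 (β i) w
  cμ : ∀ i, ∀ w ∈ O i, ContDiffAt ℝ 1 (μ i) w
  dα : ∀ i, ∀ w ∈ O i, fderiv ℝ (ψ i) w 1 = α i w
  dβ : ∀ i, ∀ w ∈ O i, fderiv ℝ (ψ i) w Complex.I = β i w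
  lap : ∀ i, ∀ w ∈ O i, fderiv ℝ (α i) w 1 + fderiv ℝ (β i) w Complex.I = μ i w
  cs : ∀ i, ∀ w ∈ O i, α i w ^ 2 + β i w ^ 2 ≤ ψ i w * μ i w
  ψ0 : ∀ i w, 0 ≤ ψ i w
  μ0 : ∀ i w, 0 ≤ μ i w

namespace Pot

variable (P : Pot ι) (a : ι → Fin n → ℝ)

def U : Set (EE n) := {p | ∀ i, ell (a i) p ∈ P.O i}

noncomputable def Psi (p : EE n) : ℝ := ∑ i, P.ψ i (ell (a i) p)

noncomputable def mu (p : EE n) : ι → ℝ := fun i => P.μ i (ell (a i) p)

noncomputable def dH (p : EE n) : ℝ := (Hm a (P.mu a p)).det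

omit [DecidableEq ι] in
lemma isOpen_U : IsOpen (P.U a) := by
  have : P.U a = ⋂ i, (ell (a i)) ⁻¹' (P.O i) := by ext p; simp [U]
  rw [this]
  exact isOpen_iInter_of_finite fun i => (P.isOpen i).preimage (ell (a i)).continuous

omit [DecidableEq ι] in
lemma Psi_nonneg (p : EE n) : 0 ≤ P.Psi a p := Finset.sum_nonneg fun i _ => P.ψ0 i _

omit [DecidableEq ι] in
lemma dH_nonneg (p : EE n) : 0 ≤ P.dH a p := Hm_det_nonneg a fun i => P.μ0 i _

omit [DecidableEq ι] in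
lemma contDiffAt_Psi {p : EE n} (hp : p ∈ P.U a) : ContDiffAt ℝ 1 (P.Psi a) p := by
  unfold Psi
  exact ContDiffAt.sum fun i _ => (P.cψ i _ (hp i)).comp p (ell (a i)).contDiff.contDiffAt

omit [DecidableEq ι] in
lemma contDiffAt_mu {p : EE n} (hp : p ∈ P.U a) : ContDiffAt ℝ 1 (P.mu a) p := by
  rw [contDiffAt_pi]
  exact fun i => (P.cμ i _ (hp i)).comp p (ell (a i)).contDiff.contDiffAt

omit [DecidableEq ι] in
lemma continuousAt_dH {p : EE n} (hp : p ∈ P.U a) : ContinuousAt (P.dH a) p :=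
  (continuous_det_Hm a).continuousAt.comp (P.contDiffAt_mu a hp).continuousAt

/-- a component of the vector field -/
noncomputable def fld (θ : ℝ → ℝ) (γ : ι → ℂ → ℝ) (l : Fin n) (p : EE n) : ℝ :=
  θ (P.Psi a p) * ∑ i, γ i (ell (a i) p) * (adjugate (Hm a (P.mu a p)) *ᵥ a i) l

omit [DecidableEq ι] in
lemma contDiffAt_fld {θ : ℝ → ℝ} (hθ : ∀ t, 0 ≤ t → ContDiffAt ℝ 1 θ t) {γ : ι → ℂ → ℝ}
    (hγ : ∀ i, ∀ w ∈ P.O i, ContDiffAt ℝ 1 (γ i) w) (l : Fin n) {p : EE n} (hp : p ∈ P.U a) :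
    ContDiffAt ℝ 1 (P.fld a θ γ l) p := by
  unfold fld
  refine ((hθ _ (P.Psi_nonneg a p)).comp p (P.contDiffAt_Psi a hp)).mul ?_
  refine ContDiffAt.sum fun i _ => ContDiffAt.mul ?_ ?_
  · exact (hγ i _ (hp i)).comp p (ell (a i)).contDiff.contDiffAt
  · exact (contDiff_adjv a (a i) l).contDiffAt.comp p (P.contDiffAt_mu a hp)

omit [Fintype ι] [DecidableEq ι] in
lemma fderiv_comp_ell {f : ℂ → ℝ} {b : Fin n → ℝ} {p : EE n} (hf : ContDiffAt ℝ 1 f (ell b p)) :
    HasFDerivAt (fun q => f (ell b q)) ((fderiv ℝ f (ell b p)).comp (ell b)) p :=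
  ((hf.differentiableAt (by simp)).hasFDerivAt).comp p (ell b).hasFDerivAt

lemma div_fld {θ : ℝ → ℝ} {θ' : ℝ} {p : EE n} (hp : p ∈ P.U a)
    (hθ : HasDerivAt θ θ' (P.Psi a p)) {γ : ι → ℂ → ℝ}
    (hγ : ∀ i, ∀ w ∈ P.O i, ContDiffAt ℝ 1 (γ i) w) (u : ℂ) (d : Fin n → EE n)
    (hd : ∀ i l, ell (a i) (d l) = a i l • u)
    (hu : ∀ i, fderiv ℝ (P.ψ i) (ell (a i) p) u = γ i (ell (a i) p)) :
    ∑ l, fderiv ℝ (P.fld a θ γ l) p (d l) =
      θ' * ((∑ i, γ i (ell (a i) p) • a i) ⬝ᵥ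
        (adjugate (Hm a (P.mu a p)) *ᵥ (∑ i, γ i (ell (a i) p) • a i))) +
      θ (P.Psi a p) * ∑ i, fderiv ℝ (γ i) (ell (a i) p) u *
        (a i ⬝ᵥ (adjugate (Hm a (P.mu a p)) *ᵥ a i)) := by
  have hPsi : HasFDerivAt (P.Psi a)
      (∑ i, (fderiv ℝ (P.ψ i) (ell (a i) p)).comp (ell (a i))) p :=
    HasFDerivAt.fun_sum fun i _ => fderiv_comp_ell (P.cψ i _ (hp i))
  have hmu : HasFDerivAt (P.mu a)
      (ContinuousLinearMap.pi fun i => (fderiv ℝ (P.μ i) (ell (a i) p)).comp (ell (a i))) p := by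
    exact hasFDerivAt_pi.2 fun i => fderiv_comp_ell (P.cμ i _ (hp i))
  set R : ι → Fin n → (ι → ℝ) → ℝ := fun i l m => (adjugate (Hm a m) *ᵥ a i) l with hR
  have hRd : ∀ i l, HasFDerivAt (fun q => R i l (P.mu a q))
      ((fderiv ℝ (R i l) (P.mu a p)).comp
        (ContinuousLinearMap.pi fun i => (fderiv ℝ (P.μ i) (ell (a i) p)).comp (ell (a i)))) p :=
    fun i l => ((((contDiff_adjv a (a i) l).differentiable (by simp)) _).hasFDerivAt).comp p hmu
  have hF : ∀ l, fderiv ℝ (P.fld a θ γ l) p (d l) =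
      θ' * (∑ i, γ i (ell (a i) p) * a i l) * (∑ i, γ i (ell (a i) p) * R i l (P.mu a p)) +
      θ (P.Psi a p) * ∑ i, (fderiv ℝ (γ i) (ell (a i) p) u * (a i l * R i l (P.mu a p)) +
        γ i (ell (a i) p) * ∑ k, fderiv ℝ (P.μ k) (ell (a k) p) u *
          (a k l * fderiv ℝ (R i l) (P.mu a p) (Pi.single k 1))) := by
    intro l
    have h1 := (hθ.comp_hasFDerivAt p hPsi).mul (HasFDerivAt.fun_sum (u := Finset.univ)
      fun i _ => (fderiv_comp_ell (hγ i _ (hp i))).mul (hRd i l))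
    have h2 : fderiv ℝ (P.fld a θ γ l) p = _ := h1.fderiv
    rw [h2]
    have hv : (ContinuousLinearMap.pi fun i =>
        (fderiv ℝ (P.μ i) (ell (a i) p)).comp (ell (a i))) (d l) =
        ∑ k, (fderiv ℝ (P.μ k) (ell (a k) p) u * a k l) • (Pi.single k (1 : ℝ) : ι → ℝ) := by
      funext k
      simp only [ContinuousLinearMap.pi_apply, ContinuousLinearMap.comp_apply, hd, map_smul]
      simp [Finset.sum_apply, Pi.single_apply, mul_comm]
    simp only [_root_.add_apply, _root_.smul_apply,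
      _root_.sum_apply, ContinuousLinearMap.comp_apply, hv, hd, map_smul, map_sum,
      smul_eq_mul, Function.comp_apply, hu, Pi.mul_apply]
    rw [add_comm]
    congr 1
    · simp only [mul_comm (a _ l)]; ring
    · congr 1
      refine Finset.sum_congr rfl fun i _ => ?_
      rw [add_comm]
      congr 1
      · ring
      · congr 1
        refine Finset.sum_congr rfl fun k _ => by ring
  simp only [hF, Finset.sum_add_distrib]
  congr 1
  · rw [dotProduct, Finset.mul_sum]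
    refine Finset.sum_congr rfl fun l _ => ?_
    rw [mul_assoc]
    congr 2
    · simp [Finset.sum_apply]
    · rw [mulVec_sum]
      simp [Finset.sum_apply, mulVec_smul, hR]
  · rw [← Finset.mul_sum]
    congr 1
    rw [Finset.sum_add_distrib, Finset.sum_comm]
    have hz : ∑ l, ∑ i, γ i (ell (a i) p) * ∑ k, fderiv ℝ (P.μ k) (ell (a k) p) u *
          (a k l * fderiv ℝ (R i l) (P.mu a p) (Pi.single k 1)) = 0 := by
      rw [Finset.sum_comm]
      refine Finset.sum_eq_zero fun i _ => ?_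
      rw [← Finset.mul_sum, Finset.sum_comm]
      rw [Finset.sum_eq_zero, mul_zero]
      intro k _
      rw [← Finset.mul_sum, piola a (P.mu a p) k (a i), mul_zero]
    rw [hz, add_zero]
    refine Finset.sum_congr rfl fun i _ => ?_
    rw [← Finset.mul_sum]; rfl

end Pot

instance instHaarEE : (volume : Measure (EE n)).IsAddHaarMeasure :=
  Measure.prod.instIsAddHaarMeasure volume volume

lemma integrable_fderiv {F : EE n → ℝ} (hF : ContDiff ℝ 1 F) (hc : HasCompactSupport F)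
    (v : EE n) : Integrable (fun p => fderiv ℝ F p v) := by
  apply Continuous.integrable_of_hasCompactSupport
  · exact (hF.continuous_fderiv (by simp)).clm_apply continuous_const
  · exact (hc.fderiv ℝ).comp_left (g := fun L : EE n →L[ℝ] ℝ => L v) (by simp)

lemma integral_fderiv_zero {F : EE n → ℝ} (hF : ContDiff ℝ 1 F) (hc : HasCompactSupport F)
    (v : EE n) : ∫ p, fderiv ℝ F p v = 0 := by
  have hi := integrable_fderiv hF hc v
  have := integral_mul_fderiv_eq_neg_fderiv_mul_of_integrable (μ := (volume : Measure (EE n)))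
    (f := fun _ => (1 : ℝ)) (g := F) (v := v) (by simp) (by simpa using hi)
    (by simpa using hF.continuous.integrable_of_hasCompactSupport hc)
    (fun _ _ => differentiableAt_const _) (fun x _ => hF.differentiable (by simp) x)
  simpa using this

namespace Pot

variable (P : Pot ι) (a : ι → Fin n → ℝ)

/-- sublevel set -/
def Sub (τ : ℝ) : Set (EE n) := {p | p ∈ P.U a ∧ P.Psi a p ≤ τ}

omit [DecidableEq ι] in
lemma ind_zero {θ : ℝ → ℝ} {τ : ℝ} (h0 : ∀ t, τ < t → θ t = 0) (γ : ι → ℂ → ℝ) (l : Fin n)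
    {p : EE n} (hp : p ∉ P.Sub a τ) : (P.U a).indicator (P.fld a θ γ l) p = 0 := by
  by_cases hU : p ∈ P.U a
  · rw [indicator_of_mem hU, fld, h0, zero_mul]
    by_contra h
    exact hp ⟨hU, not_lt.1 h⟩
  · exact indicator_of_notMem hU _

omit [DecidableEq ι] in
lemma ind_ev_zero {θ : ℝ → ℝ} {τ : ℝ} (h0 : ∀ t, τ < t → θ t = 0) (hC : IsCompact (P.Sub a τ))
    (γ : ι → ℂ → ℝ) (l : Fin n) {p : EE n} (hp : p ∉ P.Sub a τ) :
    (P.U a).indicator (P.fld a θ γ l) =ᶠ[nhds p] fun _ => 0 := by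
  filter_upwards [hC.isClosed.isOpen_compl.mem_nhds hp] with q hq
  exact P.ind_zero a h0 γ l hq

omit [DecidableEq ι] in
lemma ind_ev_eq (θ : ℝ → ℝ) (γ : ι → ℂ → ℝ) (l : Fin n) {p : EE n} (hp : p ∈ P.U a) :
    (P.U a).indicator (P.fld a θ γ l) =ᶠ[nhds p] P.fld a θ γ l := by
  filter_upwards [(P.isOpen_U a).mem_nhds hp] with q hq
  exact indicator_of_mem hq _

omit [DecidableEq ι] in
lemma ind_contDiff {θ : ℝ → ℝ} (hθ : ∀ t, 0 ≤ t → ContDiffAt ℝ 1 θ t) {τ : ℝ}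
    (h0 : ∀ t, τ < t → θ t = 0) (hC : IsCompact (P.Sub a τ)) {γ : ι → ℂ → ℝ}
    (hγ : ∀ i, ∀ w ∈ P.O i, ContDiffAt ℝ 1 (γ i) w) (l : Fin n) :
    ContDiff ℝ 1 ((P.U a).indicator (P.fld a θ γ l)) := by
  rw [contDiff_iff_contDiffAt]
  intro p
  by_cases hU : p ∈ P.U a
  · exact (P.contDiffAt_fld a hθ hγ l hU).congr_of_eventuallyEq (P.ind_ev_eq a θ γ l hU)
  · exact contDiffAt_const.congr_of_eventuallyEq (P.ind_ev_zero a h0 hC γ l fun h => hU h.1)

lemma ma_ineq {θ : ℝ → ℝ} (hθ : ∀ t, 0 ≤ t → ContDiffAt ℝ 1 θ t)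
    (hneg : ∀ t, 0 ≤ t → deriv θ t ≤ 0) {τ : ℝ}
    (h0 : ∀ t, τ < t → θ t = 0) (hC : IsCompact (P.Sub a τ)) :
    ∫ p in P.Sub a τ, (n * θ (P.Psi a p) + P.Psi a p * deriv θ (P.Psi a p)) * P.dH a p ≤ 0 := by
  set X := fun l => (P.U a).indicator (P.fld a θ P.α l) with hX
  set Y := fun l => (P.U a).indicator (P.fld a θ P.β l) with hY
  have cX : ∀ l, ContDiff ℝ 1 (X l) := fun l => P.ind_contDiff a hθ h0 hC P.cα l
  have cY : ∀ l, ContDiff ℝ 1 (Y l) := fun l => P.ind_contDiff a hθ h0 hC P.cβ l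
  have sX : ∀ l, HasCompactSupport (X l) := fun l =>
    HasCompactSupport.intro hC fun p hp => P.ind_zero a h0 _ l hp
  have sY : ∀ l, HasCompactSupport (Y l) := fun l =>
    HasCompactSupport.intro hC fun p hp => P.ind_zero a h0 _ l hp
  set dv : EE n → ℝ := fun p => ∑ l, fderiv ℝ (X l) p (Pi.single l 1, 0) +
    ∑ l, fderiv ℝ (Y l) p (0, Pi.single l 1) with hdv
  have iX : ∀ l v, Integrable (fun p => fderiv ℝ (X l) p v) := fun l v =>
    integrable_fderiv (cX l) (sX l) v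
  have iY : ∀ l v, Integrable (fun p => fderiv ℝ (Y l) p v) := fun l v =>
    integrable_fderiv (cY l) (sY l) v
  have idv : Integrable dv :=
    (integrable_finsetSum _ fun l _ => iX l _).add (integrable_finsetSum _ fun l _ => iY l _)
  have hint : ∫ p, dv p = 0 := by
    rw [hdv, integral_add (integrable_finsetSum _ fun l _ => iX l _)
      (integrable_finsetSum _ fun l _ => iY l _), integral_finsetSum _ fun l _ => iX l _,
      integral_finsetSum _ fun l _ => iY l _]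
    simp [integral_fderiv_zero (cX _) (sX _), integral_fderiv_zero (cY _) (sY _)]
  have hoff : ∀ p, p ∉ P.Sub a τ → dv p = 0 := by
    intro p hp
    have h1 : ∀ l, fderiv ℝ (X l) p = 0 := fun l => by
      rw [(P.ind_ev_zero a h0 hC P.α l hp).fderiv_eq]; simp
    have h2 : ∀ l, fderiv ℝ (Y l) p = 0 := fun l => by
      rw [(P.ind_ev_zero a h0 hC P.β l hp).fderiv_eq]; simp
    simp [hdv, h1, h2]
  rw [← hint, ← setIntegral_eq_integral_of_forall_compl_eq_zero hoff]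
  apply setIntegral_mono_on _ idv.integrableOn hC.isClosed.measurableSet
  · intro p hp
    have hp' := hp.1
    have hd : HasDerivAt θ (deriv θ (P.Psi a p)) (P.Psi a p) :=
      ((hθ _ (P.Psi_nonneg a p)).differentiableAt (by simp)).hasDerivAt
    have h1 : ∀ l, fderiv ℝ (X l) p = fderiv ℝ (P.fld a θ P.α l) p := fun l =>
      (P.ind_ev_eq a θ P.α l hp').fderiv_eq
    have h2 : ∀ l, fderiv ℝ (Y l) p = fderiv ℝ (P.fld a θ P.β l) p := fun l =>
      (P.ind_ev_eq a θ P.β l hp').fderiv_eq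
    simp only [hdv, h1, h2]
    rw [P.div_fld a hp' hd P.cα 1 (fun l => (Pi.single l 1, 0))
        (fun i l => by simp [ell_apply]) (fun i => P.dα i _ (hp' i)),
      P.div_fld a hp' hd P.cβ Complex.I (fun l => (0, Pi.single l 1))
        (fun i l => by simp [ell_apply]) (fun i => P.dβ i _ (hp' i))]
    have hps := psh_ineq a (P.mu a p) (fun i => P.ψ i (ell (a i) p)) (fun i => P.α i (ell (a i) p))
      (fun i => P.β i (ell (a i) p)) (fun i => P.μ0 i _) (fun i => P.ψ0 i _)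
      (fun i => P.cs i _ (hp' i))
    have htr := trace_adj a (P.mu a p)
    have hsum : ∑ i, fderiv ℝ (P.α i) (ell (a i) p) 1 *
          (a i ⬝ᵥ (adjugate (Hm a (P.mu a p)) *ᵥ a i)) +
        ∑ i, fderiv ℝ (P.β i) (ell (a i) p) Complex.I *
          (a i ⬝ᵥ (adjugate (Hm a (P.mu a p)) *ᵥ a i)) = n * P.dH a p := by
      rw [← Finset.sum_add_distrib, dH, ← htr]
      refine Finset.sum_congr rfl fun i _ => ?_
      rw [← add_mul, P.lap i _ (hp' i)]; rfl
    have hn := hneg _ (P.Psi_nonneg a p)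
    have hps' := mul_le_mul_of_nonpos_left hps hn
    change deriv θ (P.Psi a p) * (P.Psi a p * P.dH a p) ≤ _ at hps'
    have e := congrArg (fun z => θ (P.Psi a p) * z) hsum
    simp only [mul_add] at e hps' ⊢
    linarith
  · apply ContinuousOn.integrableOn_compact hC
    intro p hp
    apply ContinuousAt.continuousWithinAt
    have h1 := (P.contDiffAt_Psi a hp.1).continuousAt
    have h2 := (hθ _ (P.Psi_nonneg a p))
    have h3 : ContinuousAt (deriv θ) (P.Psi a p) := by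
      have := (h2.fderiv_right (m := 0) (by simp)).continuousAt
      exact this.clm_apply continuousAt_const
    exact ((continuousAt_const.mul (h2.continuousAt.comp h1)).add (h1.mul (h3.comp h1))).mul
      (P.continuousAt_dH a hp.1)

end Pot

end Vale.Agent.P248
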