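import Vale.Agent.P248.Defs

open Set Metric Filter Topology MeasureTheory Matrix

namespace Vale.Agent.P248

variable {n : ℕ}

lemma mem_polar {K : Set (Fin n → ℝ)} {y : Fin n → ℝ} : y ∈ polar K ↔ ∀ x ∈ K, y ⬝ᵥ x ≤ 1 :=
  Iff.rfl

lemma abs_dot_le (u v : Fin n → ℝ) : |u ⬝ᵥ v| ≤ n * ‖u‖ * ‖v‖ := by
  refine (Finset.abs_sum_le_sum_abs _ _).trans ?_
  calc ∑ i, |u i * v i| ≤ ∑ _i : Fin n, ‖u‖ * ‖v‖ := Finset.sum_le_sum fun i _ => by
        rw [abs_mul]
        exact mul_le_mul (norm_le_pi_norm u i) (norm_le_pi_norm v i) (abs_nonneg _) (norm_nonneg _)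
    _ = _ := by simp [mul_assoc]

lemma cont_dot {X : Type} [TopologicalSpace X] {f g : X → Fin n → ℝ} (hf : Continuous f)
    (hg : Continuous g) : Continuous fun x => f x ⬝ᵥ g x := hf.dotProduct hg

lemma tendsto_dot {X : Type} {l : Filter X} {f g : X → Fin n → ℝ} {u v : Fin n → ℝ}
    (hf : Tendsto f l (𝓝 u)) (hg : Tendsto g l (𝓝 v)) :
    Tendsto (fun x => f x ⬝ᵥ g x) l (𝓝 (u ⬝ᵥ v)) :=
  ((continuous_fst.dotProduct continuous_snd).tendsto (u, v)).comp (hf.prodMk_nhds hg)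

lemma IsSymmBody.exists_ball {K : Set (Fin n → ℝ)} (hK : IsSymmBody K) :
    ∃ r : ℝ, 0 < r ∧ ball 0 r ⊆ K := by
  obtain ⟨-, hc, ⟨x, hx⟩, hs⟩ := hK
  obtain ⟨r, hr, h⟩ := Metric.mem_nhds_iff.1 (mem_interior_iff_mem_nhds.1 hx)
  refine ⟨r, hr, fun v hv => ?_⟩
  have h1 : x + v ∈ K := h (by simpa using hv)
  have h2 : -(x - v) ∈ K := hs _ (h (by simpa using hv))
  have := hc h1 h2 (a := 1 / 2) (b := 1 / 2) (by norm_num) (by norm_num) (by norm_num)
  convert this using 1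
  ext i; simp; ring

lemma IsSymmBody.zero_mem {K : Set (Fin n → ℝ)} (hK : IsSymmBody K) : (0 : Fin n → ℝ) ∈ K := by
  obtain ⟨r, hr, h⟩ := hK.exists_ball
  exact h (mem_ball_self hr)

lemma isClosed_polar (K : Set (Fin n → ℝ)) : IsClosed (polar K) := by
  have : polar K = ⋂ x ∈ K, {y | y ⬝ᵥ x ≤ 1} := by ext y; simp [mem_polar]
  rw [this]
  exact isClosed_biInter fun x _ =>
    isClosed_le (cont_dot continuous_id continuous_const) continuous_const

lemma convex_polar (K : Set (Fin n → ℝ)) : Convex ℝ (polar K) := by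
  intro y hy z hz s t hs ht hst x hx
  have h1 := mem_polar.1 hy x hx
  have h2 := mem_polar.1 hz x hx
  change (s • y + t • z) ⬝ᵥ x ≤ 1
  rw [add_dotProduct, smul_dotProduct, smul_dotProduct, smul_eq_mul, smul_eq_mul]
  nlinarith

lemma neg_mem_polar {K : Set (Fin n → ℝ)} (hs : ∀ x ∈ K, -x ∈ K) {y : Fin n → ℝ}
    (hy : y ∈ polar K) : -y ∈ polar K := fun x hx => by
  have := mem_polar.1 hy _ (hs x hx)
  change (-y) ⬝ᵥ x ≤ 1
  simpa using this

lemma polar_norm_le {K : Set (Fin n → ℝ)} {r : ℝ} (hr : 0 < r) (h : ball 0 r ⊆ K)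
    {y : Fin n → ℝ} (hy : y ∈ polar K) : ‖y‖ ≤ 2 / r := by
  rw [pi_norm_le_iff_of_nonneg (by positivity)]
  intro i
  have key : ∀ s : ℝ, |s| = r / 2 → y i * s ≤ 1 := by
    intro s hs
    have := mem_polar.1 hy (Pi.single i s) (h (by
      rw [mem_ball_zero_iff, Pi.norm_single, Real.norm_eq_abs, hs]; linarith))
    simpa using this
  have h1 := key (r / 2) (abs_of_pos (by positivity))
  have h2 := key (-(r / 2)) (by rw [abs_neg]; exact abs_of_pos (by positivity))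
  rw [Real.norm_eq_abs, abs_le]
  constructor
  · rw [neg_le, le_div_iff₀ hr]; linarith
  · rw [le_div_iff₀ hr]; linarith

lemma ball_subset_polar {K : Set (Fin n → ℝ)} (hK : Bornology.IsBounded K) :
    ∃ r : ℝ, 0 < r ∧ ball 0 r ⊆ polar K := by
  obtain ⟨R, hR0, hR⟩ := hK.exists_pos_norm_le
  refine ⟨1 / (n * R + 1), by positivity, fun y hy x hx => ?_⟩
  have h1 : ‖y‖ < 1 / (n * R + 1) := by simpa using hy
  rw [lt_div_iff₀ (by positivity)] at h1
  have h2 := (le_abs_self _).trans (abs_dot_le y x)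
  have h3 : (n : ℝ) * ‖y‖ * ‖x‖ ≤ n * ‖y‖ * R :=
    mul_le_mul_of_nonneg_left (hR x hx) (by positivity)
  change y ⬝ᵥ x ≤ 1
  nlinarith [norm_nonneg y]

lemma IsSymmBody.polar {K : Set (Fin n → ℝ)} (hK : IsSymmBody K) : IsSymmBody (polar K) := by
  obtain ⟨r, hr, h⟩ := hK.exists_ball
  obtain ⟨s, hs, h2⟩ := ball_subset_polar hK.1.isBounded
  refine ⟨?_, convex_polar K, ⟨0, ?_⟩, fun y hy => neg_mem_polar hK.2.2.2 hy⟩
  · exact (isCompact_closedBall 0 (2 / r)).of_isClosed_subset (isClosed_polar K)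
      fun y hy => by simpa using polar_norm_le hr h hy
  · exact mem_interior_iff_mem_nhds.2 (Metric.mem_nhds_iff.2 ⟨s, hs, h2⟩)

lemma exists_vec (f : StrongDual ℝ (Fin n → ℝ)) : ∃ y : Fin n → ℝ, ∀ x, y ⬝ᵥ x = f x := by
  refine ⟨fun i => f (Pi.single i 1), fun x => ?_⟩
  conv_rhs => rw [pi_eq_sum_univ' x]
  simp [dotProduct, mul_comm]

lemma polar_polar_of {K : Set (Fin n → ℝ)} (hc : Convex ℝ K) (hcl : IsClosed K)
    (h0 : (0 : Fin n → ℝ) ∈ K) : polar (polar K) = K := by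
  ext x
  refine ⟨fun hx => ?_, fun hx y hy => ?_⟩
  · by_contra hxK
    obtain ⟨f, u, h1, h2⟩ := geometric_hahn_banach_closed_point hc hcl hxK
    obtain ⟨y, hy⟩ := exists_vec f
    have hu : 0 < u := by simpa using h1 0 h0
    have h3 : u⁻¹ • y ∈ polar K := fun z hz => by
      change (u⁻¹ • y) ⬝ᵥ z ≤ 1
      rw [smul_dotProduct, hy, smul_eq_mul, inv_mul_le_iff₀ hu]
      linarith [h1 z hz]
    have h4 := mem_polar.1 hx _ h3
    rw [dotProduct_comm, smul_dotProduct, hy, smul_eq_mul, inv_mul_le_iff₀ hu] at h4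
    linarith
  · change x ⬝ᵥ y ≤ 1
    rw [dotProduct_comm]; exact hy x hx

lemma IsSymmBody.polar_polar {K : Set (Fin n → ℝ)} (hK : IsSymmBody K) :
    P248.polar (P248.polar K) = K := polar_polar_of hK.2.1 hK.1.isClosed hK.zero_mem

end Vale.Agent.P248
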