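import Vale.Agent.P248.Dom
import Vale.Agent.P248.Comb

open Set Matrix

namespace Vale.Agent.P248

variable {n : ℕ}

/-- `K` splits as a product or an l1-sum along a nontrivial direct sum decomposition -/
def Splits (K : Set (Fin n → ℝ)) : Prop :=
  ∃ X₁ X₂ : Submodule ℝ (Fin n → ℝ), IsCompl X₁ X₂ ∧ X₁ ≠ ⊥ ∧ X₂ ≠ ⊥ ∧
    (K = {z | ∃ x ∈ K, ∃ y ∈ K, x ∈ X₁ ∧ y ∈ X₂ ∧ z = x + y} ∨
      K = convexHull ℝ ((K ∩ X₁) ∪ (K ∩ X₂)))

/-- edges -/
def Adj (V W : Finset (Fin n → ℝ)) (u u' : Fin n → ℝ) : Prop :=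
  u ≠ u' ∧ ∀ x ∈ V, (∀ w ∈ W, w ⬝ᵥ u = 1 → w ⬝ᵥ u' = 1 → w ⬝ᵥ x = 1) → x = u ∨ x = u'

/-- facets through the base vertex -/
abbrev EB (W : Finset (Fin n → ℝ)) (v : Fin n → ℝ) : Type := {w // w ∈ W ∧ w ⬝ᵥ v = 1}

lemma finite_EB (W : Finset (Fin n → ℝ)) (v : Fin n → ℝ) : Finite (EB W v) :=
  (W.finite_toSet.subset fun _ h => h.1 : {w | w ∈ W ∧ w ⬝ᵥ v = 1}.Finite)

/-- negative set of a vertex -/
def AS (W : Finset (Fin n → ℝ)) (v u : Fin n → ℝ) : Set (EB W v) := {e | e.1 ⬝ᵥ u = -1}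

lemma sum_eq_card_iff {β : Type*} {G : Finset β} {f : β → ℝ} (h : ∀ a ∈ G, f a ≤ 1)
    (h' : (G.card : ℝ) ≤ ∑ a ∈ G, f a) : ∀ a ∈ G, f a = 1 := by
  have h1 : ∑ a ∈ G, (1 - f a) = 0 := le_antisymm (by
    rw [Finset.sum_sub_distrib]; simp; linarith)
    (Finset.sum_nonneg fun a ha => by linarith [h a ha])
  intro a ha
  linarith [(Finset.sum_eq_zero_iff_of_nonneg fun a ha => by linarith [h a ha]).1 h1 a ha]

namespace Frame

variable {K : Set (Fin n → ℝ)} {V W : Finset (Fin n → ℝ)} (F : Frame K V W)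
include F

lemma ext_W {x y : Fin n → ℝ} (h : ∀ w ∈ W, w ⬝ᵥ x = w ⬝ᵥ y) : x = y :=
  sub_eq_zero.1 (F.zeroW fun w hw => by rw [dotProduct_sub, h w hw, sub_self])

lemma ext_E {v x y : Fin n → ℝ} (hv : v ∈ V) (h : ∀ w ∈ W, w ⬝ᵥ v = 1 → w ⬝ᵥ x = w ⬝ᵥ y) :
    x = y := F.ext_W fun w hw => by
  rcases F.pm v hv w hw with h1 | h1
  · exact h w hw h1
  · have := h _ (F.negW w hw) (by rw [neg_dotProduct, h1, neg_neg])
    simpa using this

lemma mem_V {v x : Fin n → ℝ} (hv : v ∈ V)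
    (h : ∀ w ∈ W, w ⬝ᵥ v = 1 → w ⬝ᵥ x = 1 ∨ w ⬝ᵥ x = -1) : x ∈ V := by
  have h' : ∀ w ∈ W, w ⬝ᵥ x = 1 ∨ w ⬝ᵥ x = -1 := fun w hw => by
    rcases F.pm v hv w hw with h1 | h1
    · exact h w hw h1
    · have := h _ (F.negW w hw) (by rw [neg_dotProduct, h1, neg_neg])
      rw [neg_dotProduct] at this
      rcases this with h | h
      · right; linarith
      · left; linarith
  have hx : x ∈ K := F.mem_K fun w hw => by rcases h' w hw with h | h <;> rw [h]; norm_num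
  rw [F.hullV] at hx
  obtain ⟨l, h1, h2, h3⟩ := Finset.mem_convexHull'.1 hx
  obtain ⟨u, hu, hl⟩ : ∃ u ∈ V, l u ≠ 0 := by
    by_contra hc
    push Not at hc
    rw [Finset.sum_eq_zero hc] at h2
    exact zero_ne_one h2
  have key : ∀ w ∈ W, w ⬝ᵥ x = 1 → w ⬝ᵥ u = 1 := by
    intro w hw hwx
    have h4 : ∑ a ∈ V, l a * (1 - w ⬝ᵥ a) = 0 := by
      simp only [mul_sub, Finset.sum_sub_distrib, mul_one]
      rw [h2, ← hwx, ← h3, dotProduct_sum]
      simp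
    have := (Finset.sum_eq_zero_iff_of_nonneg fun a ha =>
      mul_nonneg (h1 a ha) (by linarith [F.le1 ha hw])).1 h4 u hu
    linarith [(mul_eq_zero.1 this).resolve_left hl]
  have : x = u := F.ext_W fun w hw => by
    rcases h' w hw with h | h
    · rw [h, key w hw h]
    · have := key _ (F.negW w hw) (by rw [neg_dotProduct, h, neg_neg])
      rw [neg_dotProduct] at this
      linarith
  rwa [this]

lemma sum_cone {G : Finset (Fin n → ℝ)} (hG : G ⊆ W) {u : Fin n → ℝ} (hu : u ∈ V) :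
    (∑ a ∈ G, a) ⬝ᵥ u ≤ G.card := by
  rw [sum_dotProduct]
  simpa using Finset.sum_le_sum fun a ha => F.le1 hu (hG ha)

theorem helly {F1 F2 : Finset (Fin n → ℝ)} (s1 : F1 ⊆ V) (s2 : F2 ⊆ V) (n1 : F1.Nonempty)
    (n2 : F2.Nonempty) (hno : ¬ ∃ w ∈ W, (∀ x ∈ F1, w ⬝ᵥ x = 1) ∧ ∀ x ∈ F2, w ⬝ᵥ x = -1) :
    ∃ u ∈ V, (∀ w ∈ W, (∀ x ∈ F1, w ⬝ᵥ x = 1) → w ⬝ᵥ u = 1) ∧
      ∀ w ∈ W, (∀ x ∈ F2, w ⬝ᵥ x = 1) → w ⬝ᵥ u = 1 := by
  classical
  obtain ⟨G1, hG1⟩ : ∃ G, G = W.filter fun w => ∀ x ∈ F1, w ⬝ᵥ x = 1 := ⟨_, rfl⟩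
  obtain ⟨G2, hG2⟩ : ∃ G, G = W.filter fun w => ∀ x ∈ F2, w ⬝ᵥ x = 1 := ⟨_, rfl⟩
  have sG1 : G1 ⊆ W := hG1 ▸ Finset.filter_subset _ _
  have sG2 : G2 ⊆ W := hG2 ▸ Finset.filter_subset _ _
  obtain ⟨b1, hb1⟩ : ∃ b, b = ∑ a ∈ G1, a := ⟨_, rfl⟩
  obtain ⟨b2, hb2⟩ : ∃ b, b = ∑ a ∈ G2, a := ⟨_, rfl⟩
  have l1 : ∀ u ∈ V, b1 ⬝ᵥ u ≤ G1.card := fun u hu => hb1 ▸ F.sum_cone sG1 hu
  have l2 : ∀ u ∈ V, b2 ⬝ᵥ u ≤ G2.card := fun u hu => hb2 ▸ F.sum_cone sG2 hu
  have e1 : ∀ x ∈ F1, b1 ⬝ᵥ x = G1.card := fun x hx => by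
    rw [hb1, sum_dotProduct, Finset.sum_congr rfl (g := fun _ => (1 : ℝ)) fun a ha => by
      rw [hG1, Finset.mem_filter] at ha; exact ha.2 x hx]
    simp
  have e2 : ∀ x ∈ F2, b2 ⬝ᵥ x = G2.card := fun x hx => by
    rw [hb2, sum_dotProduct, Finset.sum_congr rfl (g := fun _ => (1 : ℝ)) fun a ha => by
      rw [hG2, Finset.mem_filter] at ha; exact ha.2 x hx]
    simp
  obtain ⟨v, hv1⟩ := n1
  obtain ⟨v2, hv2⟩ := n2
  have hv := s1 hv1
  have c1 : Cone V v b1 := fun u hu => by rw [e1 v hv1]; exact l1 u hu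
  obtain ⟨s, hs⟩ := F.exists_isN (b1 + b2)
  obtain ⟨p, q, cp, cq, epq, es⟩ := F.dec hv hs.1
  have eb : b1 + q - p = -b2 := by
    have : p = b1 + b2 + q := by rw [epq]; abel
    rw [this]; abel
  obtain ⟨c, cc, cu, cp', ec⟩ := F.dom hv (c1.add cq) cp (s := G2.card) ⟨fun u hu => by
    rw [eb, neg_dotProduct, ← dotProduct_neg]; exact l2 _ (F.negV u hu), -v2, F.negV _ (s2 hv2), by
    rw [eb, neg_dotProduct, dotProduct_neg, neg_neg, e2 v2 hv2]⟩
  obtain ⟨s', hs'⟩ := F.exists_isN (b1 - (b1 + q - c))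
  obtain ⟨m, cm, cbm, cum, em⟩ := F.dom hv c1 cu hs'
  have hs'le : s' ≤ c ⬝ᵥ v + q ⬝ᵥ v := by
    obtain ⟨u, hu, h⟩ := hs'.2
    have a1 := cc u hu
    have a2 := cq _ (F.negV u hu)
    simp only [sub_dotProduct, add_dotProduct, dotProduct_neg] at h a2
    linarith
  have m1 : ∀ x ∈ F1, m ⬝ᵥ v ≤ m ⬝ᵥ x := fun x hx => by
    have a1 := cbm x (s1 hx)
    rw [sub_dotProduct, sub_dotProduct, e1 x hx, e1 v hv1] at a1
    linarith
  have m2 : ∀ x ∈ F2, m ⬝ᵥ v ≤ -(m ⬝ᵥ x) := fun x hx => by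
    have a1 := cum _ (F.negV x (s2 hx))
    have a2 := cp' x (s2 hx)
    have a3 : (b1 + q - p) ⬝ᵥ x = -G2.card := by rw [eb, neg_dotProduct, e2 x hx]
    simp only [sub_dotProduct, add_dotProduct, dotProduct_neg] at a1 a2 a3 ec
    linarith
  have hm0 : m ⬝ᵥ v ≤ 0 := by
    by_contra hpos
    push Not at hpos
    apply hno
    have hmem : (m ⬝ᵥ v)⁻¹ • m ∈ polar K := F.mem_P fun u hu => by
      rw [smul_dotProduct, smul_eq_mul, inv_mul_le_iff₀ hpos, mul_one]; exact cm u hu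
    by_contra hno'
    have := F.suppW (∑ x ∈ F1, x - ∑ x ∈ F2, x) (F1.card + F2.card - 1) (fun w hw => by
      by_contra hlt
      push Not at hlt
      rw [dotProduct_sub, dotProduct_sum, dotProduct_sum] at hlt
      apply hno'
      have i1 : ∀ x ∈ F1, w ⬝ᵥ x = 1 := by
        intro x hx
        by_contra hne
        have hx' := (F.pm x (s1 hx) w hw).resolve_left hne
        have j1 := Finset.add_sum_erase F1 (fun x => w ⬝ᵥ x) hx
        have j2 : ∑ y ∈ F1.erase x, w ⬝ᵥ y ≤ F1.card := by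
          have := Finset.sum_le_sum fun y (hy : y ∈ F1.erase x) =>
            F.le1 (s1 (Finset.mem_of_mem_erase hy)) hw
          simp only [Finset.sum_const, nsmul_eq_mul, mul_one] at this
          exact this.trans (by exact_mod_cast Finset.card_erase_le)
        have j3 : -∑ y ∈ F2, w ⬝ᵥ y ≤ F2.card := by
          have := Finset.sum_le_sum fun y (hy : y ∈ F2) => F.le1 (s2 hy) (F.negW w hw)
          simpa using this
        linarith
      refine ⟨w, hw, i1, fun x hx => ?_⟩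
      by_contra hne
      have hx' := (F.pm x (s2 hx) w hw).resolve_right hne
      have j1 := Finset.add_sum_erase F2 (fun x => w ⬝ᵥ x) hx
      have j2 : -∑ y ∈ F2.erase x, w ⬝ᵥ y ≤ F2.card := by
        have := Finset.sum_le_sum fun y (hy : y ∈ F2.erase x) =>
          F.le1 (s2 (Finset.mem_of_mem_erase hy)) (F.negW w hw)
        simp only [Finset.sum_const, nsmul_eq_mul, mul_one, neg_dotProduct,
          Finset.sum_neg_distrib] at this
        exact this.trans (by exact_mod_cast Finset.card_erase_le)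
      have j3 : ∑ y ∈ F1, w ⬝ᵥ y ≤ F1.card := by
        have := Finset.sum_le_sum fun y (hy : y ∈ F1) => F.le1 (s1 hy) hw
        simpa using this
      linarith) _ hmem
    rw [smul_dotProduct, smul_eq_mul, inv_mul_le_iff₀ hpos, dotProduct_sub, dotProduct_sum,
      dotProduct_sum] at this
    have k1 := Finset.sum_le_sum m1
    have k2 := Finset.sum_le_sum m2
    simp only [Finset.sum_const, nsmul_eq_mul, Finset.sum_neg_distrib] at k1 k2
    nlinarith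
  obtain ⟨u, hu, hsu⟩ := hs.2
  have a1 := l1 u hu
  have a2 := l2 u hu
  have a3 := e1 v hv1
  simp only [sub_dotProduct, add_dotProduct] at ec em hsu
  have f1 := sum_eq_card_iff (G := G1) (f := fun a => a ⬝ᵥ u) (fun a ha => F.le1 hu (sG1 ha))
    (by rw [← sum_dotProduct, ← hb1]; linarith)
  have f2 := sum_eq_card_iff (G := G2) (f := fun a => a ⬝ᵥ u) (fun a ha => F.le1 hu (sG2 ha))
    (by rw [← sum_dotProduct, ← hb2]; linarith)
  exact ⟨u, hu, fun w hw h => f1 w (hG1 ▸ Finset.mem_filter.2 ⟨hw, h⟩),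
    fun w hw h => f2 w (hG2 ▸ Finset.mem_filter.2 ⟨hw, h⟩)⟩

lemma notMem_AS {v u : Fin n → ℝ} (hu : u ∈ V) {e : EB W v} : e ∉ AS W v u ↔ e.1 ⬝ᵥ u = 1 := by
  refine ⟨fun h => (F.pm u hu e.1 e.2.1).resolve_right h, fun h h' => ?_⟩
  have h' : e.1 ⬝ᵥ u = -1 := h'
  linarith

lemma AS_neg {v u : Fin n → ℝ} (hu : u ∈ V) : AS W v (-u) = (AS W v u)ᶜ := by
  ext e
  rw [mem_compl_iff, F.notMem_AS hu]
  change e.1 ⬝ᵥ (-u) = -1 ↔ _
  rw [dotProduct_neg, neg_inj]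

omit F in
lemma AS_self (v : Fin n → ℝ) : AS W v v = ∅ := by
  refine eq_empty_iff_forall_notMem.2 fun e h => ?_
  have h : e.1 ⬝ᵥ v = -1 := h
  linarith [e.2.2]

lemma AS_inj {v x y : Fin n → ℝ} (hv : v ∈ V) (hx : x ∈ V) (hy : y ∈ V)
    (h : AS W v x = AS W v y) : x = y := F.ext_E hv fun w hw h1 => by
  by_cases h2 : (⟨w, hw, h1⟩ : EB W v) ∈ AS W v x
  · have h3 := h ▸ h2
    exact (show w ⬝ᵥ x = -1 from h2).trans (show w ⬝ᵥ y = -1 from h3).symm
  · have h3 := h ▸ h2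
    exact ((F.notMem_AS hx).1 h2).trans ((F.notMem_AS hy).1 h3).symm

theorem ls {v : Fin n → ℝ} (hv : v ∈ V) : LS (AS W v '' V) where
  empty := ⟨v, hv, AS_self v⟩
  compl := by
    rintro _ ⟨u, hu, rfl⟩
    exact ⟨-u, F.negV u hu, F.AS_neg hu⟩
  union := by
    rintro _ ⟨u, hu, rfl⟩ _ ⟨u', hu', rfl⟩ hd
    have key : ∀ e : EB W v, (e ∈ AS W v u ∪ AS W v u' ∧ e.1 ⬝ᵥ (u + u' - v) = -1) ∨
        (e ∉ AS W v u ∪ AS W v u' ∧ e.1 ⬝ᵥ (u + u' - v) = 1) := by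
      intro e
      rw [dotProduct_sub, dotProduct_add, e.2.2]
      by_cases h1 : e ∈ AS W v u
      · left
        refine ⟨Or.inl h1, ?_⟩
        rw [show e.1 ⬝ᵥ u = -1 from h1, (F.notMem_AS hu').1 (disjoint_left.1 hd h1)]; norm_num
      · by_cases h2 : e ∈ AS W v u'
        · left
          refine ⟨Or.inr h2, ?_⟩
          rw [show e.1 ⬝ᵥ u' = -1 from h2, (F.notMem_AS hu).1 h1]; norm_num
        · right
          refine ⟨fun h => h.elim h1 h2, ?_⟩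
          rw [(F.notMem_AS hu').1 h2, (F.notMem_AS hu).1 h1]; norm_num
    refine ⟨u + u' - v, F.mem_V hv fun w hw h => ((key ⟨w, hw, h⟩).imp And.right And.right).symm, ?_⟩
    ext e
    rcases key e with h | h
    · exact iff_of_true h.2 h.1
    · refine iff_of_false (fun h' => ?_) h.1
      have h' : e.1 ⬝ᵥ (u + u' - v) = -1 := h'
      linarith [h.2]
  helly := by
    classical
    intro F1 F2 s1 s2 n1 n2 h1 h2
    have ne : ∀ G ⊆ AS W v '' V, G.Nonempty → (V.filter fun u => AS W v u ∈ G).Nonempty := by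
      rintro G hG ⟨D, hD⟩
      obtain ⟨u, hu, rfl⟩ := hG hD
      exact ⟨u, Finset.mem_filter.2 ⟨hu, hD⟩⟩
    have inn : ∀ G ⊆ AS W v '' V, ∀ e : EB W v, e ∈ ⋂₀ G ↔
        ∀ x ∈ V.filter fun u => AS W v u ∈ G, e.1 ⬝ᵥ x = -1 := by
      intro G hG e
      refine ⟨fun h x hx => h _ (Finset.mem_filter.1 hx).2, fun h D hD => ?_⟩
      obtain ⟨u, hu, rfl⟩ := hG hD
      exact h u (Finset.mem_filter.2 ⟨hu, hD⟩)
    have out : ∀ G ⊆ AS W v '' V, ∀ e : EB W v, e ∉ ⋃₀ G ↔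
        ∀ x ∈ V.filter fun u => AS W v u ∈ G, e.1 ⬝ᵥ x = 1 := by
      intro G hG e
      refine ⟨fun h x hx => (F.notMem_AS (Finset.mem_filter.1 hx).1).1 fun h' =>
        h ⟨_, (Finset.mem_filter.1 hx).2, h'⟩, fun h ⟨D, hD, he⟩ => ?_⟩
      obtain ⟨u, hu, rfl⟩ := hG hD
      exact (F.notMem_AS hu).2 (h u (Finset.mem_filter.2 ⟨hu, hD⟩)) he
    obtain ⟨u, hu, a1, a2⟩ := F.helly (Finset.filter_subset _ _) (Finset.filter_subset _ _)
      (ne F1 s1 n1) (ne F2 s2 n2) (by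
        rintro ⟨w, hw, b1, b2⟩
        rcases F.pm v hv w hw with h | h
        · exact (out F1 s1 ⟨w, hw, h⟩).2 b1 (h2 ((inn F2 s2 ⟨w, hw, h⟩).2 b2))
        · have h' : (-w) ⬝ᵥ v = 1 := by rw [neg_dotProduct, h, neg_neg]
          exact (out F2 s2 ⟨-w, F.negW w hw, h'⟩).2
            (fun x hx => by change (-w) ⬝ᵥ x = 1; rw [neg_dotProduct, b2 x hx, neg_neg])
            (h1 ((inn F1 s1 ⟨-w, F.negW w hw, h'⟩).2
              fun x hx => by change (-w) ⬝ᵥ x = -1; rw [neg_dotProduct, b1 x hx])))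
    have k1 : ∀ G ⊆ AS W v '' V, (∀ w ∈ W, (∀ x ∈ V.filter fun u => AS W v u ∈ G, w ⬝ᵥ x = 1) →
        w ⬝ᵥ u = 1) → ⋂₀ G ⊆ AS W v u ∧ AS W v u ⊆ ⋃₀ G := by
      intro G hG a
      refine ⟨fun e he => ?_, fun e he => by_contra fun h => ?_⟩
      · have := a _ (F.negW _ e.2.1) fun x hx => by
          rw [neg_dotProduct, (inn G hG e).1 he x hx, neg_neg]
        rw [neg_dotProduct] at this
        change e.1 ⬝ᵥ u = -1
        linarith
      · exact (F.notMem_AS hu).2 (a _ e.2.1 ((out G hG e).1 h)) he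
    exact ⟨_, ⟨u, hu, rfl⟩, (k1 F1 s1 a1).1, (k1 F2 s2 a2).1, (k1 F1 s1 a1).2, (k1 F2 s2 a2).2⟩

lemma between {v a d x : Fin n → ℝ} (hv : v ∈ V) (ha : a ∈ V) (hd : d ∈ V) (hx : x ∈ V) :
    (∀ w ∈ W, w ⬝ᵥ a = 1 → w ⬝ᵥ d = 1 → w ⬝ᵥ x = 1) ↔
      AS W v a ∩ AS W v d ⊆ AS W v x ∧ AS W v x ⊆ AS W v a ∪ AS W v d := by
  refine ⟨fun h => ⟨fun e he => ?_, fun e he => by_contra fun h' => ?_⟩, fun h w hw h1 h2 => ?_⟩
  · have := h _ (F.negW _ e.2.1) (by rw [neg_dotProduct, show e.1 ⬝ᵥ a = -1 from he.1, neg_neg])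
      (by rw [neg_dotProduct, show e.1 ⬝ᵥ d = -1 from he.2, neg_neg])
    rw [neg_dotProduct] at this
    change e.1 ⬝ᵥ x = -1
    linarith
  · exact (F.notMem_AS hx).2 (h _ e.2.1 ((F.notMem_AS ha).1 fun h => h' (Or.inl h))
      ((F.notMem_AS hd).1 fun h => h' (Or.inr h))) he
  · rcases F.pm v hv w hw with h3 | h3
    · exact (F.notMem_AS hx (e := ⟨w, hw, h3⟩)).1 fun h' => (h.2 h').elim
        ((F.notMem_AS ha).2 h1) ((F.notMem_AS hd).2 h2)
    · have h' : (-w) ⬝ᵥ v = 1 := by rw [neg_dotProduct, h3, neg_neg]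
      have : (-w) ⬝ᵥ x = -1 := @h.1 ⟨-w, F.negW w hw, h'⟩
        ⟨by change (-w) ⬝ᵥ a = -1; rw [neg_dotProduct, h1],
          by change (-w) ⬝ᵥ d = -1; rw [neg_dotProduct, h2]⟩
      rw [neg_dotProduct] at this
      linarith

lemma adj_iff {v u : Fin n → ℝ} (hv : v ∈ V) (hu : u ∈ V) :
    Adj V W v u ↔ Atom (AS W v '' V) (AS W v u) := by
  constructor
  · rintro ⟨h1, h2⟩
    refine ⟨⟨u, hu, rfl⟩, nonempty_iff_ne_empty.2 fun h => h1 (F.AS_inj hv hv hu ?_), ?_⟩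
    · rw [h, AS_self]
    · rintro _ ⟨x, hx, rfl⟩ hs
      rcases h2 x hx ((F.between hv hv hu hx).2 (by simpa [AS_self] using hs)) with rfl | rfl
      · exact Or.inl (AS_self _)
      · exact Or.inr rfl
  · rintro ⟨-, h1, h2⟩
    refine ⟨fun h => ?_, fun x hx h => ?_⟩
    · subst h; simp [AS_self] at h1
    · have := ((F.between hv hv hu hx).1 h).2
      rw [AS_self, empty_union] at this
      exact (h2 _ ⟨x, hx, rfl⟩ this).imp (fun h => F.AS_inj hv hx hv (by rw [h, AS_self]))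
        (F.AS_inj hv hx hu)

omit F in
lemma adj_symm {u u' : Fin n → ℝ} (h : Adj V W u u') : Adj V W u' u :=
  ⟨h.1.symm, fun x hx h' => (h.2 x hx fun w hw a b => h' w hw b a).symm⟩

lemma adj_neg {u u' : Fin n → ℝ} (h : Adj V W u (-u')) : Adj V W (-u) u' := by
  refine ⟨fun e => h.1 (by rw [← e, neg_neg]), fun x hx h' => ?_⟩
  rcases h.2 _ (F.negV x hx) (fun w hw a b => by
    have := h' _ (F.negW w hw) (by simpa using a) (by simpa using b)
    simpa using this) with h1 | h1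
  · left; rw [← h1, neg_neg]
  · right; exact neg_injective h1

lemma no_face {u : Fin n → ℝ} (hu : u ∈ V) {G : Finset (Fin n → ℝ)} (hG : G ⊆ V) (hne : G.Nonempty)
    (hadj : ∀ x ∈ G, Adj V W u x ∧ Adj V W u (-x))
    (hf : ∀ w ∈ W, (∀ x ∈ G, w ⬝ᵥ x = 1) → w ⬝ᵥ u = 1) {w : Fin n → ℝ} (hw : w ∈ W)
    (h : ∀ x ∈ G, w ⬝ᵥ x = 1) : False := by
  have := finite_EB W u
  have := (F.ls hu).t3 (F := AS W u '' G) (toFinite _) (by
    rintro _ ⟨x, hx, rfl⟩
    exact ⟨(F.adj_iff hu (hG hx)).1 (hadj x hx).1,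
      F.AS_neg (hG hx) ▸ (F.adj_iff hu (F.negV _ (hG hx))).1 (hadj x hx).2⟩)
    ((Finset.coe_nonempty.2 hne).image _) (eq_empty_iff_forall_notMem.2 fun e he => by
      have := hf _ (F.negW _ e.2.1) fun x hx => by
        rw [neg_dotProduct, show e.1 ⬝ᵥ x = -1 from he _ ⟨x, hx, rfl⟩, neg_neg]
      rw [neg_dotProduct, e.2.2] at this
      linarith)
  obtain ⟨_, ⟨x, hx, rfl⟩, he⟩ := (eq_univ_iff_forall.1 this) ⟨w, hw, hf w hw h⟩
  exact (F.notMem_AS (hG hx)).2 (h x hx) he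

lemma ne_zero {v : Fin n → ℝ} (hv : v ∈ V) : v ≠ 0 := by
  rintro rfl
  obtain ⟨w, hw⟩ := F.neW
  have := F.pm 0 hv w hw
  norm_num at this

lemma span_V : Submodule.span ℝ (V : Set (Fin n → ℝ)) = ⊤ := by
  have h1 : K ⊆ Submodule.span ℝ (V : Set (Fin n → ℝ)) := by
    rw [F.hullV]
    exact convexHull_min Submodule.subset_span (Submodule.convex _)
  exact Submodule.eq_top_of_nonempty_interior' _ (F.body.2.2.1.mono (interior_mono h1))

theorem split_L {v a : Fin n → ℝ} (hv : v ∈ V) (ha : a ∈ V) (h1 : Adj V W v a)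
    (h2 : Adj V W v (-a)) : Splits K := by
  classical
  obtain ⟨P, hP⟩ : ∃ P : (Fin n → ℝ) → Prop, P = fun x => Adj V W v x ∧ Adj V W v (-x) := ⟨_, rfl⟩
  have Pneg : ∀ x, P (-x) ↔ P x := fun x => by rw [hP]; simp only [neg_neg]; exact and_comm
  have hPa : P a := by rw [hP]; exact ⟨h1, h2⟩
  have hPv : ¬ P v := by rw [hP]; exact fun h => h.1.1 rfl
  have cr0 : ∀ x ∈ V, ∀ y ∈ V, P x → ¬ P y → Adj V W x y := by
    intro x hx y hy px py
    refine ⟨fun h => py (h ▸ px), fun g hg h => ?_⟩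
    rw [hP] at px py
    obtain ⟨b1, b2⟩ := (F.between hv hx hy hg).1 h
    have := (F.ls hv).t2 ((F.adj_iff hv hx).1 px.1)
      (F.AS_neg hx ▸ (F.adj_iff hv (F.negV x hx)).1 px.2) ⟨y, hy, rfl⟩ ⟨g, hg, rfl⟩
      (fun h => py ⟨(F.adj_iff hv hy).2 h.1, (F.adj_iff hv (F.negV y hy)).2 (F.AS_neg hy ▸ h.2)⟩)
      (inter_comm _ _ ▸ b1) (union_comm _ _ ▸ b2)
    exact (this.imp (F.AS_inj hv hg hy) (F.AS_inj hv hg hx)).symm
  have flip : ∀ w ∈ W, ∃ w' ∈ W, (∀ x ∈ V, ¬ P x → w' ⬝ᵥ x = w ⬝ᵥ x) ∧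
      ∀ x ∈ V, P x → w' ⬝ᵥ x = -(w ⬝ᵥ x) := by
    intro w hw
    have ne : ∀ Q : (Fin n → ℝ) → Prop, (∀ x, Q (-x) ↔ Q x) → ∀ x ∈ V, Q x →
        (V.filter fun y => Q y ∧ w ⬝ᵥ y = 1).Nonempty := by
      intro Q hQ x hx hq
      rcases F.pm x hx w hw with h | h
      · exact ⟨x, Finset.mem_filter.2 ⟨hx, hq, h⟩⟩
      · exact ⟨-x, Finset.mem_filter.2 ⟨F.negV x hx, (hQ x).2 hq, by rw [dotProduct_neg, h, neg_neg]⟩⟩
    have n1 : (V.filter fun y => ¬ P y ∧ w ⬝ᵥ y = 1).Nonempty := by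
      convert ne (fun y => ¬ P y) (fun x => (Pneg x).not) v hv hPv
    have n2 := ne P Pneg a ha hPa
    by_cases hex : ∃ w' ∈ W, (∀ x ∈ V.filter fun y => ¬ P y ∧ w ⬝ᵥ y = 1, w' ⬝ᵥ x = 1) ∧
        ∀ x ∈ V.filter fun y => P y ∧ w ⬝ᵥ y = 1, w' ⬝ᵥ x = -1
    · obtain ⟨w', hw', b1, b2⟩ := hex
      refine ⟨w', hw', fun x hx px => ?_, fun x hx px => ?_⟩
      · rcases F.pm x hx w hw with h | h
        · rw [h, b1 x (Finset.mem_filter.2 ⟨hx, px, h⟩)]
        · have := b1 _ (Finset.mem_filter.2 ⟨F.negV x hx, (Pneg x).not.2 px, by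
            rw [dotProduct_neg, h, neg_neg]⟩)
          rw [dotProduct_neg] at this
          linarith
      · rcases F.pm x hx w hw with h | h
        · rw [h, b2 x (Finset.mem_filter.2 ⟨hx, px, h⟩)]
        · have := b2 _ (Finset.mem_filter.2 ⟨F.negV x hx, (Pneg x).2 px, by
            rw [dotProduct_neg, h, neg_neg]⟩)
          rw [dotProduct_neg] at this
          linarith
    · obtain ⟨u, hu, b1, b2⟩ := F.helly (Finset.filter_subset _ _) (Finset.filter_subset _ _) n1 n2 hex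
      exfalso
      by_cases pu : P u
      · exact F.no_face hu (Finset.filter_subset _ _) n1 (fun x hx => by
          obtain ⟨hx1, hx2, -⟩ := Finset.mem_filter.1 hx
          exact ⟨cr0 u hu x hx1 pu hx2, cr0 u hu _ (F.negV x hx1) pu ((Pneg x).not.2 hx2)⟩) b1 hw
          fun x hx => (Finset.mem_filter.1 hx).2.2
      · exact F.no_face hu (Finset.filter_subset _ _) n2 (fun x hx => by
          obtain ⟨hx1, hx2, -⟩ := Finset.mem_filter.1 hx
          exact ⟨adj_symm (cr0 x hx1 u hu hx2 pu),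
            adj_symm (cr0 _ (F.negV x hx1) u hu ((Pneg x).2 hx2) pu)⟩) b2 hw
          fun x hx => (Finset.mem_filter.1 hx).2.2
  refine ⟨Submodule.span ℝ {x | x ∈ V ∧ ¬ P x}, Submodule.span ℝ {x | x ∈ V ∧ P x}, ⟨?_, ?_⟩,
    fun h => F.ne_zero hv ((Submodule.span_eq_bot.1 h) v ⟨hv, hPv⟩),
    fun h => F.ne_zero ha ((Submodule.span_eq_bot.1 h) a ⟨ha, hPa⟩), Or.inr ?_⟩
  · rw [Submodule.disjoint_def]
    intro x hx1 hx2
    refine F.zeroW fun w hw => ?_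
    obtain ⟨w', -, b1, b2⟩ := flip w hw
    have c1 : w' ⬝ᵥ x = w ⬝ᵥ x := by
      clear hx2
      induction hx1 using Submodule.span_induction with
      | mem y hy => exact b1 y hy.1 hy.2
      | zero => simp
      | add y z _ _ hy hz => rw [dotProduct_add, dotProduct_add, hy, hz]
      | smul r y _ hy => rw [dotProduct_smul, dotProduct_smul, hy]
    have c2 : w' ⬝ᵥ x = -(w ⬝ᵥ x) := by
      clear hx1 c1
      induction hx2 using Submodule.span_induction with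
      | mem y hy => exact b2 y hy.1 hy.2
      | zero => simp
      | add y z _ _ hy hz => rw [dotProduct_add, dotProduct_add, hy, hz]; ring
      | smul r y _ hy => rw [dotProduct_smul, dotProduct_smul, hy]; simp
    linarith
  · rw [codisjoint_iff, ← Submodule.span_union, ← F.span_V]
    congr 1
    ext x
    simp only [mem_union, mem_ofPred_eq, Finset.mem_coe]
    tauto
  · refine Subset.antisymm ?_ (convexHull_min (union_subset inter_subset_left inter_subset_left)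
      F.body.2.1)
    refine F.hullV.subset.trans (convexHull_mono fun x hx => ?_)
    by_cases px : P x
    · exact Or.inr ⟨F.subV x hx, Submodule.subset_span ⟨hx, px⟩⟩
    · exact Or.inl ⟨F.subV x hx, Submodule.subset_span ⟨hx, px⟩⟩

end Frame

/-- common kernel -/
def ker0 {W : Finset (Fin n → ℝ)} {v : Fin n → ℝ} (U : Set (EB W v)) : Submodule ℝ (Fin n → ℝ) where
  carrier := {x | ∀ e ∈ U, e.1 ⬝ᵥ x = 0}
  add_mem' := fun ha hb e he => by rw [dotProduct_add, ha e he, hb e he, add_zero]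
  zero_mem' := fun e _ => dotProduct_zero _
  smul_mem' := fun r x hx e he => by rw [dotProduct_smul, hx e he, smul_zero]

namespace Frame

variable {K : Set (Fin n → ℝ)} {V W : Finset (Fin n → ℝ)} (F : Frame K V W)
include F

lemma mem_K' {v x : Fin n → ℝ} (hv : v ∈ V) : x ∈ K ↔ ∀ e : EB W v, |e.1 ⬝ᵥ x| ≤ 1 := by
  refine ⟨fun hx e => abs_dot_le_one F.body.2.2.2 (F.subW _ e.2.1) hx, fun h => F.mem_K fun w hw => ?_⟩
  rcases F.pm v hv w hw with h1 | h1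
  · exact (le_abs_self _).trans (h ⟨w, hw, h1⟩)
  · have := h ⟨-w, F.negW w hw, by rw [neg_dotProduct, h1, neg_neg]⟩
    simp only [neg_dotProduct, abs_neg] at this
    exact (le_abs_self _).trans this

theorem split_M {v : Fin n → ℝ} (hv : v ∈ V) {U : Set (EB W v)} (h1 : U.Nonempty)
    (h2 : Uᶜ.Nonempty) (h : ∀ D ∈ AS W v '' V, D ∩ U ∈ AS W v '' V) : Splits K := by
  obtain ⟨p, hp, ep⟩ := h _ ((F.ls hv).compl _ (F.ls hv).empty)
  rw [compl_empty, univ_inter] at ep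
  have p1 : ∀ e ∈ U, e.1 ⬝ᵥ p = -1 := fun e he => by rw [← ep] at he; exact he
  have p2 : ∀ e ∈ Uᶜ, e.1 ⬝ᵥ p = 1 := fun e he => by rw [← ep] at he; exact (F.notMem_AS hp).1 he
  have hc : IsCompl (ker0 Uᶜ) (ker0 U) := by
    constructor
    · rw [Submodule.disjoint_def]
      intro x hx1 hx2
      refine F.ext_E hv fun w hw h => ?_
      rw [dotProduct_zero]
      by_cases he : (⟨w, hw, h⟩ : EB W v) ∈ U
      · exact hx2 _ he
      · exact hx1 _ he
    · rw [codisjoint_iff, eq_top_iff, ← F.span_V, Submodule.span_le]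
      intro u hu
      obtain ⟨x, hx, ex⟩ := h _ ⟨u, hu, rfl⟩
      refine Submodule.mem_sup.2 ⟨x - (1 / 2 : ℝ) • (v + p), fun e he => ?_,
        u - (x - (1 / 2 : ℝ) • (v + p)), fun e he => ?_, by abel⟩
      · rw [dotProduct_sub, dotProduct_smul, dotProduct_add, e.2.2, p2 e he,
          (F.notMem_AS hx).1 (by rw [ex]; exact fun h => he h.2)]
        norm_num
      · rw [dotProduct_sub, dotProduct_sub, dotProduct_smul, dotProduct_add, e.2.2, p1 e he]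
        by_cases hm : e ∈ AS W v u
        · have : e ∈ AS W v x := by rw [ex]; exact ⟨hm, he⟩
          rw [show e.1 ⬝ᵥ u = -1 from hm, show e.1 ⬝ᵥ x = -1 from this]; norm_num
        · rw [(F.notMem_AS hu).1 hm, (F.notMem_AS hx).1 (by rw [ex]; exact fun h => hm h.1)]
          norm_num
  refine ⟨ker0 Uᶜ, ker0 U, hc, fun h0 => ?_, fun h0 => ?_, Or.inl ?_⟩
  · have : v - p ∈ ker0 Uᶜ := fun e he => by rw [dotProduct_sub, e.2.2, p2 e he, sub_self]
    rw [h0, Submodule.mem_bot, sub_eq_zero] at this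
    obtain ⟨e, he⟩ := h1
    have h3 := p1 e he
    rw [← this] at h3
    linarith [e.2.2]
  · have : v + p ∈ ker0 U := fun e he => by rw [dotProduct_add, e.2.2, p1 e he]; norm_num
    rw [h0, Submodule.mem_bot] at this
    obtain ⟨e, he⟩ := h2
    have h3 : e.1 ⬝ᵥ (v + p) = 0 := by rw [this, dotProduct_zero]
    rw [dotProduct_add, e.2.2, p2 e he] at h3
    norm_num at h3
  · ext z
    constructor
    · intro hz
      obtain ⟨x, hx, y, hy, rfl⟩ := Submodule.mem_sup.1 (codisjoint_iff.1 hc.2 ▸ Submodule.mem_top :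
        z ∈ ker0 Uᶜ ⊔ ker0 U)
      rw [F.mem_K' hv] at hz
      refine ⟨x, (F.mem_K' hv).2 fun e => ?_, y, (F.mem_K' hv).2 fun e => ?_, hx, hy, rfl⟩
      · by_cases he : e ∈ U
        · simpa [dotProduct_add, hy e he] using hz e
        · rw [hx e he]; norm_num
      · by_cases he : e ∈ U
        · rw [hy e he]; norm_num
        · simpa [dotProduct_add, hx e he] using hz e
    · rintro ⟨x, hx, y, hy, hx', hy', rfl⟩
      refine (F.mem_K' hv).2 fun e => ?_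
      rw [dotProduct_add]
      by_cases he : e ∈ U
      · rw [hy' e he, add_zero]; exact (F.mem_K' hv).1 hx e
      · rw [hx' e he, zero_add]; exact (F.mem_K' hv).1 hy e

theorem splits (hn : 2 ≤ n) : Splits K := by
  obtain ⟨v, hv⟩ := F.neV
  have := finite_EB W v
  by_cases h : ∃ D, Atom (AS W v '' V) D ∧ Atom (AS W v '' V) Dᶜ
  · obtain ⟨D, h1, h2⟩ := h
    obtain ⟨a, ha, rfl⟩ := h1.1
    exact F.split_L hv ha ((F.adj_iff hv ha).2 h1)
      ((F.adj_iff hv (F.negV a ha)).2 (F.AS_neg ha ▸ h2))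
  · obtain ⟨u, hu, h1, h2⟩ : ∃ u ∈ V, u ≠ v ∧ u ≠ -v := by
      by_contra hc
      push Not at hc
      have key : ∀ c : Fin n → ℝ, c ⬝ᵥ v = 0 → c = 0 := fun c hc' => F.zeroV fun u hu => by
        by_cases h : u = v
        · rw [h, hc']
        · rw [hc u hu h, dotProduct_neg, hc', neg_zero]
      obtain ⟨i, j, hij⟩ : ∃ i j : Fin n, i ≠ j := ⟨⟨0, by omega⟩, ⟨1, by omega⟩, by simp⟩
      have a1 := congrFun (key (Pi.single i (v j) - Pi.single j (v i)) (by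
        simp [sub_dotProduct, mul_comm])) j
      have a2 : v i = 0 := by simpa [hij.symm] using a1
      simpa using congrFun (key (Pi.single i 1) (by simp [a2])) i
    obtain ⟨U, a1, a2, a3⟩ := (F.ls hv).t1 (fun D hD => h ⟨D, hD⟩) ⟨u, hu, rfl⟩
      (nonempty_iff_ne_empty.2 fun h => h1 (F.AS_inj hv hu hv (by rw [h, AS_self])))
      (nonempty_compl.2 fun h => h2 (F.AS_inj hv hu (F.negV v hv) (by
        rw [h, F.AS_neg hv, AS_self, compl_empty])))
    exact F.split_M hv a1 a2 a3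

end Frame

end Vale.Agent.P248
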