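import Vale.Agent.P248.Finite
import Vale.Agent.P248.Polar

open Set Metric Filter Topology MeasureTheory Matrix

namespace Vale.Agent.P248

variable {n : ℕ}

/-- the limiting star condition -/
def StarAt (Z : Set (Fin n → ℝ)) (x b : Fin n → ℝ) : Prop :=
  ∃ y, (∀ a ∈ Z, a ⬝ᵥ y ≤ SS (a ⬝ᵥ x)) ∧
    ∀ ζ, b ⬝ᵥ ζ ≤ 0 ∨ ∃ a ∈ Z, a ⬝ᵥ y = SS (a ⬝ᵥ x) ∧ b ⬝ᵥ ζ ≤ a ⬝ᵥ ζ

/-- the approximate star set -/
def TT (Z : Set (Fin n → ℝ)) (δ : ℝ) : Set (EE n) :=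
  {p | (∀ a ∈ Z, a ⬝ᵥ p.1 ≤ 1 + δ) ∧ ∃ y, (∀ a ∈ Z, a ⬝ᵥ y ≤ SS (a ⬝ᵥ p.1) + δ) ∧
    ∀ ζ, ‖ζ‖ ≤ 1 → p.2 ⬝ᵥ ζ ≤ δ ∨
      ∃ a ∈ Z, SS (a ⬝ᵥ p.1) - δ ≤ a ⬝ᵥ y ∧ p.2 ⬝ᵥ ζ ≤ a ⬝ᵥ ζ + δ}

lemma TT_mono (Z : Set (Fin n → ℝ)) {δ δ' : ℝ} (h : δ ≤ δ') : TT Z δ ⊆ TT Z δ' := by
  rintro p ⟨h1, y, h2, h3⟩
  refine ⟨fun a ha => by linarith [h1 a ha], y, fun a ha => by linarith [h2 a ha], fun ζ hζ => ?_⟩
  rcases h3 ζ hζ with h | ⟨a, ha, h4, h5⟩
  · left; linarith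
  · right; exact ⟨a, ha, by linarith, by linarith⟩

lemma scale_bound {ι : Type} {a : ι → Fin n → ℝ} {P : ι → Prop} {R : ℝ}
    (hR : ∀ x, (∀ j, P j → a j ⬝ᵥ x ≤ 1) → ‖x‖ ≤ R) {c : ℝ} (hc : 0 < c) {x : Fin n → ℝ}
    (hx : ∀ j, P j → a j ⬝ᵥ x ≤ c) : ‖x‖ ≤ c * R := by
  have h := hR (c⁻¹ • x) fun j hj => by
    rw [dotProduct_smul, smul_eq_mul, inv_mul_le_iff₀ hc]; simpa using hx j hj
  rwa [norm_smul, Real.norm_of_nonneg (inv_pos.2 hc).le, inv_mul_le_iff₀ hc] at h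

lemma star_of_seq {Z : Set (Fin n → ℝ)} (hZ : IsCompact Z) {R : ℝ}
    (hR : ∀ x, (∀ a ∈ Z, a ⬝ᵥ x ≤ 1) → ‖x‖ ≤ R) {p : ℕ → EE n} {δ : ℕ → ℝ} {q : EE n}
    (hp : ∀ k, p k ∈ TT Z (δ k)) (hδ : Tendsto δ atTop (𝓝 0)) (hδ1 : ∀ k, δ k ≤ 1)
    (hq : Tendsto p atTop (𝓝 q)) : (∀ a ∈ Z, a ⬝ᵥ q.1 ≤ 1) ∧ StarAt Z q.1 q.2 := by
  obtain ⟨M, hM0, hM⟩ := exists_SS_bound
  have hq1 : Tendsto (fun k => (p k).1) atTop (𝓝 q.1) := (continuous_fst.tendsto q).comp hq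
  have hq2 : Tendsto (fun k => (p k).2) atTop (𝓝 q.2) := (continuous_snd.tendsto q).comp hq
  constructor
  · intro a ha
    have := le_of_tendsto_of_tendsto' (tendsto_dot tendsto_const_nhds hq1)
      (hδ.const_add 1) fun k => (hp k).1 a ha
    simpa using this
  choose y hy1 hy2 using fun k => (hp k).2
  obtain ⟨y0, -, φ, hφ, hy⟩ := (isCompact_closedBall (0 : Fin n → ℝ) ((M + 1) * R)).tendsto_subseq
    (x := y) fun k => by
      rw [mem_closedBall_zero_iff]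
      exact scale_bound (a := id) (P := fun a => a ∈ Z) hR (by positivity)
        fun a ha => by
          simp only [id]; linarith [hy1 k a ha, hM (a ⬝ᵥ (p k).1), hδ1 k]
  have hφt := hφ.tendsto_atTop
  refine ⟨y0, fun a ha => ?_, fun ζ => ?_⟩
  · have := le_of_tendsto_of_tendsto' (tendsto_dot tendsto_const_nhds hy)
      (((SS_cont.tendsto _).comp (tendsto_dot tendsto_const_nhds (hq1.comp hφt))).add
        (hδ.comp hφt)) fun k => hy1 (φ k) a ha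
    simpa using this
  · by_cases hb : q.2 ⬝ᵥ ζ ≤ 0
    · exact Or.inl hb
    right
    push Not at hb
    have hc : 0 < (‖ζ‖ + 1)⁻¹ := by positivity
    set ζ' := (‖ζ‖ + 1)⁻¹ • ζ with hζ'
    have hζ1 : ‖ζ'‖ ≤ 1 := by
      rw [hζ', norm_smul, Real.norm_of_nonneg hc.le, inv_mul_le_iff₀ (by positivity)]; linarith
    have hb' : 0 < q.2 ⬝ᵥ ζ' := by
      rw [hζ', dotProduct_smul]; exact mul_pos hc hb
    have hev : ∀ᶠ k in atTop, δ (φ k) < (p (φ k)).2 ⬝ᵥ ζ' :=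
      (hδ.comp hφt).eventually_lt (tendsto_dot (hq2.comp hφt) tendsto_const_nhds) hb'
    obtain ⟨k0, hk0⟩ := eventually_atTop.1 hev
    choose a ha1 ha2 ha3 using fun k => (hy2 (φ (k + k0)) ζ' hζ1).resolve_left
      (not_le.2 (hk0 _ (Nat.le_add_left _ _)))
    obtain ⟨a0, ha0, ψ, hψ, ha⟩ := hZ.tendsto_subseq ha1
    have hχ0 : Tendsto (fun k => ψ k + k0) atTop atTop :=
      (tendsto_add_atTop_nat k0).comp hψ.tendsto_atTop
    have hχ : Tendsto (fun k => φ (ψ k + k0)) atTop atTop := hφt.comp hχ0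
    refine ⟨a0, ha0, le_antisymm ?_ ?_, ?_⟩
    · have := le_of_tendsto_of_tendsto' (tendsto_dot tendsto_const_nhds hy)
        (((SS_cont.tendsto _).comp (tendsto_dot tendsto_const_nhds (hq1.comp hφt))).add
          (hδ.comp hφt)) fun k => hy1 (φ k) a0 ha0
      simpa using this
    · have := le_of_tendsto_of_tendsto'
        (((SS_cont.tendsto _).comp (tendsto_dot ha (hq1.comp hχ))).sub (hδ.comp hχ))
        (tendsto_dot ha (hy.comp hχ0)) fun k => ha2 (ψ k)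
      simpa using this
    · have := le_of_tendsto_of_tendsto' (tendsto_dot (hq2.comp hχ) tendsto_const_nhds)
        ((tendsto_dot ha tendsto_const_nhds).add (hδ.comp hχ)) fun k => ha3 (ψ k)
      rw [add_zero, hζ', dotProduct_smul, dotProduct_smul] at this
      exact le_of_mul_le_mul_left this hc

lemma target_zeta {J : Type} [Fintype J] {Z : Set (Fin n → ℝ)} (hs : ∀ a ∈ Z, -a ∈ Z)
    {a : J → Fin n → ℝ} (ha : ∀ j, a j ∈ Z) {B : ℝ} (hB0 : 0 ≤ B) (hB : ∀ a ∈ Z, ‖a‖ ≤ B)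
    {δ δ0 : ℝ} (hδ : 0 < δ) (hδ1 : δ ≤ 1) (hδ0 : δ ≤ δ0)
    (hδ2 : δ * (2 * (n * B) + n + Fintype.card J * (n * B) + n) < δ0)
    {x y e ζ : Fin n → ℝ} {p : J → ℝ} (h1 : ∑ j, |p j| ≤ 1 + δ) (h2 : ∀ j, 0 ≤ p j * (a j ⬝ᵥ y))
    (h3 : ∀ j, |a j ⬝ᵥ y| < SS (a j ⬝ᵥ x) - δ → |p j| ≤ δ) (h4 : ‖e‖ ≤ δ) (hζ : ‖ζ‖ ≤ 1) :
    (∑ j, p j • a j + e) ⬝ᵥ ζ ≤ δ0 ∨
      ∃ a' ∈ Z, SS (a' ⬝ᵥ x) - δ0 ≤ a' ⬝ᵥ y ∧ (∑ j, p j • a j + e) ⬝ᵥ ζ ≤ a' ⬝ᵥ ζ + δ0 := by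
  by_contra hcon
  push Not at hcon
  obtain ⟨hc1, hc2⟩ := hcon
  set β := (∑ j, p j • a j + e) ⬝ᵥ ζ - δ0 with hβ
  have hβ0 : 0 < β := by linarith
  have hnB : 0 ≤ (n : ℝ) * B := by positivity
  have haζ : ∀ j, |a j ⬝ᵥ ζ| ≤ n * B := fun j => (abs_dot_le _ _).trans (by
    have := mul_le_mul (hB _ (ha j)) hζ (norm_nonneg _) hB0
    have := mul_le_mul_of_nonneg_left this (Nat.cast_nonneg (α := ℝ) n)
    linarith)
  have heζ : e ⬝ᵥ ζ ≤ n * δ := (le_abs_self _).trans ((abs_dot_le _ _).trans (by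
    have := mul_le_mul h4 hζ (norm_nonneg _) hδ.le
    have := mul_le_mul_of_nonneg_left this (Nat.cast_nonneg (α := ℝ) n)
    linarith))
  have hexp : (∑ j, p j • a j + e) ⬝ᵥ ζ = ∑ j, p j * (a j ⬝ᵥ ζ) + e ⬝ᵥ ζ := by
    rw [add_dotProduct, sum_dotProduct]; simp
  have k1 : ∀ j, p j * (a j ⬝ᵥ ζ) ≤ |p j| * (n * B) := fun j =>
    (le_abs_self _).trans (by rw [abs_mul]; exact mul_le_mul_of_nonneg_left (haζ j) (abs_nonneg _))
  have k2 : ∀ j, p j * (a j ⬝ᵥ ζ) ≤ |p j| * β + δ * (n * B) := by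
    intro j
    have b0 : 0 ≤ |p j| * β := by positivity
    have b1 : 0 ≤ δ * (n * B) := by positivity
    by_cases hact : |a j ⬝ᵥ y| < SS (a j ⬝ᵥ x) - δ
    · have := mul_le_mul_of_nonneg_right (h3 j hact) hnB
      linarith [k1 j]
    push Not at hact
    rcases lt_trichotomy (p j) 0 with h | h | h
    · have b2 : a j ⬝ᵥ y ≤ 0 := by nlinarith [h2 j]
      rw [abs_of_nonpos b2] at hact
      have := hc2 (-a j) (hs _ (ha j)) (by rw [neg_dotProduct, neg_dotProduct, SS_neg]; linarith)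
      rw [neg_dotProduct] at this
      rw [abs_of_neg h]
      nlinarith
    · rw [h, zero_mul]; positivity
    · have b2 : 0 ≤ a j ⬝ᵥ y := by nlinarith [h2 j]
      rw [abs_of_nonneg b2] at hact
      have := hc2 (a j) (ha j) (by linarith)
      rw [abs_of_pos h]
      nlinarith
  have s1 := Finset.sum_le_sum fun j (_ : j ∈ Finset.univ) => k1 j
  have s2 := Finset.sum_le_sum fun j (_ : j ∈ Finset.univ) => k2 j
  rw [← Finset.sum_mul] at s1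
  rw [Finset.sum_add_distrib, ← Finset.sum_mul] at s2
  simp only [Finset.sum_const, Finset.card_univ, nsmul_eq_mul] at s2
  have s3 := mul_le_mul_of_nonneg_right h1 hnB
  have s4 := mul_le_mul_of_nonneg_right h1 hβ0.le
  have s5 : (n : ℝ) * δ ≤ n := mul_le_of_le_one_right (Nat.cast_nonneg _) hδ1
  have s6 : δ * (n * B) ≤ n * B := mul_le_of_le_one_left hnB hδ1
  have s7 : β ≤ 2 * (n * B) + n := by rw [hβ, hexp]; linarith
  have s8 := mul_le_mul_of_nonneg_left s7 hδ.le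
  have s9 : β + δ0 = ∑ j, p j * (a j ⬝ᵥ ζ) + e ⬝ᵥ ζ := by rw [hβ, hexp]; ring
  linarith

lemma vol_TT {N : ℕ} {Z : Set (Fin (N + 1) → ℝ)} (hZ : IsCompact Z) (hs : ∀ a ∈ Z, -a ∈ Z) {R : ℝ}
    (hR : ∀ x, (∀ a ∈ Z, a ⬝ᵥ x ≤ 1) → ‖x‖ ≤ R) {δ0 : ℝ} (hδ0 : 0 < δ0) :
    ENNReal.ofReal (4 ^ (N + 1) / (N + 1).factorial) ≤ volume (closure (TT Z δ0)) := by
  classical
  obtain ⟨M, hM0, hM⟩ := exists_SS_bound
  have hR0 : 0 ≤ R := by simpa using hR 0 (by simp)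
  obtain ⟨B, hB0, hB⟩ := hZ.isBounded.exists_pos_norm_le
  obtain ⟨η, hη0, hη⟩ := Metric.uniformContinuousOn_iff.1
    ((isCompact_Icc (a := (-2 : ℝ)) (b := 2)).uniformContinuousOn_of_continuous
      SS_cont.continuousOn) (δ0 / 2) (by positivity)
  obtain ⟨κ, hκ0, hκ1, hκ2, hκ3⟩ : ∃ κ : ℝ, 0 < κ ∧ κ ≤ 1 / 2 ∧ κ ≤ δ0 / 2 ∧ κ < η :=
    ⟨min (min (1 / 2) (δ0 / 2)) (η / 2), by positivity, (min_le_left _ _).trans (min_le_left _ _),
      (min_le_left _ _).trans (min_le_right _ _), (min_le_right _ _).trans_lt (by linarith)⟩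
  obtain ⟨L, hL⟩ : ∃ L : ℝ, L = 2 * R + M * (2 * R) + 1 := ⟨_, rfl⟩
  have hL0 : 0 < L := by rw [hL]; positivity
  obtain ⟨ρ, hρ0, hρ⟩ : ∃ ρ : ℝ, 0 < ρ ∧ ((N + 1 : ℕ) : ℝ) * ρ * L = κ :=
    ⟨κ / ((N + 1 : ℕ) * L), by positivity, by field_simp⟩
  obtain ⟨t, htZ, ht, hcov⟩ := hZ.finite_cover_balls hρ0
  let _ := ht.fintype
  have hnet : ∀ a ∈ Z, ∃ j : t, ∀ v, |a ⬝ᵥ v - j.1 ⬝ᵥ v| ≤ ((N + 1 : ℕ) : ℝ) * ρ * ‖v‖ := by
    intro a ha
    obtain ⟨j, hj, haj⟩ := mem_iUnion₂.1 (hcov ha)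
    refine ⟨⟨j, hj⟩, fun v => ?_⟩
    rw [← sub_dotProduct]
    refine (abs_dot_le _ _).trans ?_
    rw [mem_ball, dist_eq_norm] at haj
    gcongr
  have hRL : R ≤ L / 2 := by rw [hL]; nlinarith [mul_nonneg hM0.le hR0]
  have hR' : ∀ x : Fin (N + 1) → ℝ, (∀ j : t, |j.1 ⬝ᵥ x| ≤ 1) → ‖x‖ ≤ 2 * R := by
    intro x hx
    have h1 := scale_bound (a := id) (P := fun a => a ∈ Z) hR
      (c := 1 + ((N + 1 : ℕ) : ℝ) * ρ * ‖x‖) (by positivity) (x := x) fun a ha => by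
        obtain ⟨j, hj⟩ := hnet a ha
        have := (abs_le.1 (hj x)).2
        have := (abs_le.1 (hx j)).2
        simp only [id]; linarith
    have h2 : ((N + 1 : ℕ) : ℝ) * ρ * R ≤ 1 / 2 := by
      have := mul_le_mul_of_nonneg_left hRL (show 0 ≤ ((N + 1 : ℕ) : ℝ) * ρ by positivity)
      linarith
    have h3 := mul_le_mul_of_nonneg_right h2 (norm_nonneg x)
    linarith
  obtain ⟨Q, hQ⟩ : ∃ Q : ℝ, Q = 2 * ((N + 1 : ℕ) * B) + (N + 1 : ℕ) +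
    Fintype.card t * ((N + 1 : ℕ) * B) + (N + 1 : ℕ) := ⟨_, rfl⟩
  have hQ0 : 0 < Q := by rw [hQ]; positivity
  obtain ⟨δ, hδ, hδ1, hδ2, hδ3⟩ : ∃ δ : ℝ, 0 < δ ∧ δ ≤ 1 ∧ δ ≤ δ0 ∧ δ * Q < δ0 := by
    refine ⟨min 1 (min δ0 (δ0 / (Q + 1))), by positivity, min_le_left _ _,
      (min_le_right _ _).trans (min_le_left _ _), ?_⟩
    have : min 1 (min δ0 (δ0 / (Q + 1))) ≤ δ0 / (Q + 1) :=
      (min_le_right _ _).trans (min_le_right _ _)
    refine (mul_le_mul_of_nonneg_right this hQ0.le).trans_lt ?_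
    rw [div_mul_eq_mul_div, div_lt_iff₀ (by positivity)]
    nlinarith
  refine finite_vol (a := fun j : t => j.1) hR' hδ isClosed_closure.measurableSet ?_
  intro x y e p h1 h2 h3 h4 h5 h6
  apply subset_closure
  have hx : ‖x‖ ≤ L := (hR' x h1).trans (by rw [hL]; nlinarith [mul_nonneg hM0.le hR0])
  have hy : ‖y‖ ≤ L := by
    have h7 := hR' (M⁻¹ • y) fun j => by
      rw [dotProduct_smul, smul_eq_mul, abs_mul, abs_of_pos (inv_pos.2 hM0), inv_mul_le_iff₀ hM0]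
      simpa using (h2 j).trans (hM _)
    rw [norm_smul, Real.norm_of_nonneg (inv_pos.2 hM0).le, inv_mul_le_iff₀ hM0] at h7
    rw [hL]; linarith
  have hnet' : ∀ a ∈ Z, ∃ j : t, |a ⬝ᵥ x - j.1 ⬝ᵥ x| ≤ κ ∧ |a ⬝ᵥ y - j.1 ⬝ᵥ y| ≤ κ := by
    intro a ha
    obtain ⟨j, hj⟩ := hnet a ha
    exact ⟨j, (hj x).trans (hρ ▸ mul_le_mul_of_nonneg_left hx (by positivity)),
      (hj y).trans (hρ ▸ mul_le_mul_of_nonneg_left hy (by positivity))⟩
  refine ⟨fun a ha => ?_, y, fun a ha => ?_, fun ζ hζ => ?_⟩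
  · obtain ⟨j, hj, -⟩ := hnet' a ha
    have := (abs_le.1 hj).2
    have := (abs_le.1 (h1 j)).2
    simp only; linarith
  · obtain ⟨j, hj, hj'⟩ := hnet' a ha
    obtain ⟨b1, b2⟩ := abs_le.1 hj
    obtain ⟨b3, b4⟩ := abs_le.1 (h1 j)
    have b5 := hη (a ⬝ᵥ x) ⟨by linarith, by linarith⟩ (j.1 ⬝ᵥ x) ⟨by linarith, by linarith⟩
      (by rw [Real.dist_eq]; linarith)
    rw [Real.dist_eq] at b5
    have := (abs_lt.1 b5).1
    have := (abs_le.1 hj').2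
    have := (abs_le.1 (h2 j)).2
    simp only; linarith
  · exact target_zeta hs (fun j : t => htZ j.2) hB0.le hB hδ hδ1 hδ2 (hQ ▸ hδ3) h3 h4 h5 h6 hζ

theorem star_closed {N : ℕ} {Z : Set (Fin (N + 1) → ℝ)} (hZ : IsCompact Z)
    (hs : ∀ a ∈ Z, -a ∈ Z) {R : ℝ} (hR : ∀ x, (∀ a ∈ Z, a ⬝ᵥ x ≤ 1) → ‖x‖ ≤ R) :
    ∃ C : Set (EE (N + 1)), IsClosed C ∧ (∀ p ∈ C, (∀ a ∈ Z, a ⬝ᵥ p.1 ≤ 1) ∧ StarAt Z p.1 p.2) ∧
      ENNReal.ofReal (4 ^ (N + 1) / (N + 1).factorial) ≤ volume C := by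
  have hanti : Antitone fun k : ℕ => closure (TT Z (1 / ((k : ℝ) + 1))) := fun k l hkl =>
    closure_mono (TT_mono Z (Nat.one_div_le_one_div hkl))
  refine ⟨⋂ k : ℕ, closure (TT Z (1 / ((k : ℝ) + 1))), isClosed_iInter fun k => isClosed_closure,
    fun q hq => ?_, ?_⟩
  · choose p hp1 hp2 using fun k : ℕ => Metric.mem_closure_iff.1 (mem_iInter.1 hq k)
      (1 / ((k : ℝ) + 1)) Nat.one_div_pos_of_nat
    refine star_of_seq hZ hR hp1 tendsto_one_div_add_atTop_nhds_zero_nat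
      (fun k => by rw [div_le_one (by positivity)]; linarith [Nat.cast_nonneg (α := ℝ) k]) ?_
    rw [tendsto_iff_dist_tendsto_zero]
    exact squeeze_zero (fun k => dist_nonneg) (fun k => by rw [dist_comm]; exact (hp2 k).le)
      tendsto_one_div_add_atTop_nhds_zero_nat
  · rw [hanti.measure_iInter (fun k => isClosed_closure.measurableSet.nullMeasurableSet)]
    · exact le_iInf fun k => vol_TT hZ hs hR Nat.one_div_pos_of_nat
    · refine ⟨0, (Bornology.IsBounded.measure_lt_top (Bornology.IsBounded.closure ?_)).ne⟩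
      obtain ⟨B, hB0, hB⟩ := hZ.isBounded.exists_pos_norm_le
      refine isBounded_iff_forall_norm_le.2 ⟨max (2 * R) ((N + 1 : ℕ) * B + 1), ?_⟩
      rintro p ⟨h1, y, -, h3⟩
      rw [Prod.norm_def]
      apply max_le_max
      · exact scale_bound (a := id) (P := fun a => a ∈ Z) hR two_pos fun a ha => by
          have := h1 a ha
          simp only [id]; norm_num at this; linarith
      · rw [pi_norm_le_iff_of_nonneg (by positivity)]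
        intro i
        have key : ∀ s : ℝ, |s| = 1 → p.2 i * s ≤ (N + 1 : ℕ) * B + 1 := by
          intro s hs
          have hn : ‖(Pi.single i s : Fin (N + 1) → ℝ)‖ = 1 := by
            rw [Pi.norm_single, Real.norm_eq_abs, hs]
          have hp : 0 ≤ ((N + 1 : ℕ) : ℝ) * B := by positivity
          rcases h3 (Pi.single i s) hn.le with h | ⟨a, ha, -, h⟩
          · simp at h; linarith
          · have b1 := (le_abs_self _).trans (abs_dot_le a (Pi.single i s))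
            rw [hn, mul_one] at b1
            have b2 := mul_le_mul_of_nonneg_left (hB a ha) (Nat.cast_nonneg (α := ℝ) (N + 1))
            rw [dotProduct_single] at h
            norm_num at h b1 b2 ⊢
            linarith
        have k1 := key 1 (by simp)
        have k2 := key (-1) (by simp)
        rw [Real.norm_eq_abs, abs_le]
        constructor <;> linarith

lemma star_core {N : ℕ} {K Z : Set (Fin (N + 1) → ℝ)} (hK : IsSymmBody K) (hZ : IsCompact Z)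
    (hs : ∀ a ∈ Z, -a ∈ Z) (hZK : polar Z = K) :
    ∃ C : Set (EE (N + 1)), IsClosed C ∧ C ⊆ K ×ˢ polar K ∧ (∀ p ∈ C, StarAt Z p.1 p.2) ∧
      ENNReal.ofReal (4 ^ (N + 1) / (N + 1).factorial) ≤ volume C := by
  obtain ⟨R, -, hR⟩ := hK.1.isBounded.exists_pos_norm_le
  have hm : ∀ x, (∀ a ∈ Z, a ⬝ᵥ x ≤ 1) ↔ x ∈ K := fun x => by
    rw [← hZK, mem_polar]; simp only [dotProduct_comm]
  obtain ⟨C, h1, h2, h3⟩ := star_closed hZ hs (R := R) fun x hx => hR x ((hm x).1 hx)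
  refine ⟨C, h1, fun p hp => ⟨(hm _).1 (h2 p hp).1, fun ζ hζ => ?_⟩, fun p hp => (h2 p hp).2, h3⟩
  obtain ⟨y, -, hy⟩ := (h2 p hp).2
  rcases hy ζ with h | ⟨a, ha, -, h⟩
  · exact h.trans zero_le_one
  · exact h.trans ((hm ζ).2 hζ a ha)

lemma vol_prod (K L : Set (Fin n → ℝ)) :
    (volume (K ×ˢ L : Set (EE n))) = volume K * volume L := by
  rw [Measure.volume_eq_prod, Measure.prod_prod]

theorem mahler_ineq {n : ℕ} (hn : 1 ≤ n) {K : Set (Fin n → ℝ)} (hK : IsSymmBody K) :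
    (4 : ℝ) ^ n / n.factorial ≤ (volume K).toReal * (volume (polar K)).toReal := by
  obtain ⟨N, rfl⟩ : ∃ N, n = N + 1 := ⟨n - 1, by omega⟩
  obtain ⟨C, -, h2, -, h4⟩ := star_core hK hK.polar.1 hK.polar.2.2.2 hK.polar_polar
  have h5 := h4.trans (measure_mono h2)
  rw [vol_prod] at h5
  rw [← ENNReal.toReal_mul]
  exact (ENNReal.ofReal_le_iff_le_toReal
    (ENNReal.mul_ne_top hK.1.measure_lt_top.ne hK.polar.1.measure_lt_top.ne)).1 h5

theorem star_of_eq {n : ℕ} (hn : 1 ≤ n) {K Z : Set (Fin n → ℝ)} (hK : IsSymmBody K)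
    (heq : (volume K).toReal * (volume (polar K)).toReal = (4 : ℝ) ^ n / n.factorial)
    (hZ : IsCompact Z) (hs : ∀ a ∈ Z, -a ∈ Z) (hZK : polar Z = K) :
    ∀ x ∈ K, ∀ b ∈ polar K, StarAt Z x b := by
  obtain ⟨N, rfl⟩ : ∃ N, n = N + 1 := ⟨n - 1, by omega⟩
  obtain ⟨C, h1, h2, h3, h4⟩ := star_core hK hZ hs hZK
  have hfin : volume (K ×ˢ polar K : Set (EE (N + 1))) ≠ ⊤ := by
    rw [vol_prod]
    exact ENNReal.mul_ne_top hK.1.measure_lt_top.ne hK.polar.1.measure_lt_top.ne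
  have h5 : volume (K ×ˢ polar K : Set (EE (N + 1))) ≤ volume C := by
    refine le_trans (le_of_eq ?_) h4
    rw [← heq, ← ENNReal.toReal_mul, ← vol_prod, ENNReal.ofReal_toReal hfin]
  have h6 : volume ((K ×ˢ polar K : Set (EE (N + 1))) \ C) = 0 := by
    rw [measure_sdiff h2 h1.measurableSet.nullMeasurableSet (ne_top_of_le_ne_top hfin
      (measure_mono h2))]
    exact tsub_eq_zero_of_le h5
  have h7 : interior (K ×ˢ polar K : Set (EE (N + 1))) ⊆ C := by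
    intro p hp
    by_contra hpC
    have ho : IsOpen (interior (K ×ˢ polar K : Set (EE (N + 1))) \ C) := isOpen_interior.sdiff h1
    have := ho.measure_pos volume ⟨p, hp, hpC⟩
    exact absurd (measure_mono_null (sdiff_subset_sdiff_left interior_subset) h6) this.ne'
  have h8 : (K ×ˢ polar K : Set (EE (N + 1))) ⊆ C := by
    have hc : Convex ℝ (K ×ˢ polar K : Set (EE (N + 1))) := hK.2.1.prod hK.polar.2.1
    have hne : (interior (K ×ˢ polar K : Set (EE (N + 1)))).Nonempty := by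
      rw [interior_prod_eq]; exact hK.2.2.1.prod hK.polar.2.2.1
    refine subset_closure.trans ?_
    rw [← hc.closure_interior_eq_closure_of_nonempty_interior hne]
    exact h1.closure_subset_iff.2 h7
  exact fun x hx b hb => h3 (x, b) (h8 ⟨hx, hb⟩)

end Vale.Agent.P248
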