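import Vale.Agent.P248.MA

open Matrix MeasureTheory Set

namespace Vale.Agent.P248

/-- incomplete gamma function -/
noncomputable def gam (N : ℕ) (t : ℝ) : ℝ :=
  N.factorial * (1 - Real.exp (-t) * ∑ j ∈ Finset.range (N + 1), t ^ j / j.factorial)

lemma hasDerivAt_expsum (N : ℕ) (t : ℝ) :
    HasDerivAt (fun t : ℝ => Real.exp (-t) * ∑ j ∈ Finset.range (N + 1), t ^ j / j.factorial)
      (-(Real.exp (-t) * (t ^ N / N.factorial))) t := by
  induction N with
  | zero => simpa using (hasDerivAt_neg t).exp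
  | succ N ih =>
    have h1 : HasDerivAt (fun t : ℝ => Real.exp (-t) * (t ^ (N + 1) / (N + 1).factorial))
        (Real.exp (-t) * (-1) * (t ^ (N + 1) / (N + 1).factorial) +
          Real.exp (-t) * ((((N + 1 : ℕ) : ℝ) * t ^ N) / (N + 1).factorial)) t :=
      ((hasDerivAt_neg t).exp).mul (by simpa using (hasDerivAt_pow (N + 1) t).div_const _)
    have h2 := ih.add h1
    have e : (fun t : ℝ => Real.exp (-t) * ∑ j ∈ Finset.range (N + 1 + 1), t ^ j / j.factorial) =
        (fun t : ℝ => Real.exp (-t) * ∑ j ∈ Finset.range (N + 1), t ^ j / j.factorial) +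
        fun t : ℝ => Real.exp (-t) * (t ^ (N + 1) / (N + 1).factorial) := by
      funext t
      rw [Finset.sum_range_succ _ (N + 1)]; simp [mul_add]
    rw [e]
    refine h2.congr_deriv ?_
    rw [Nat.factorial_succ N]
    push_cast
    have : (N.factorial : ℝ) ≠ 0 := by positivity
    field_simp
    ring

lemma hasDerivAt_gam (N : ℕ) (t : ℝ) : HasDerivAt (gam N) (t ^ N * Real.exp (-t)) t := by
  have := ((hasDerivAt_expsum N t).const_sub 1).const_mul (N.factorial : ℝ)
  refine this.congr_deriv ?_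
  have : (N.factorial : ℝ) ≠ 0 := by positivity
  field_simp

lemma contDiff_gam (N : ℕ) : ContDiff ℝ 1 (gam N) := by
  unfold gam
  fun_prop

lemma gam_le (N : ℕ) {t : ℝ} (ht : 0 ≤ t) : gam N t ≤ N.factorial := by
  unfold gam
  have : 0 ≤ Real.exp (-t) * ∑ j ∈ Finset.range (N + 1), t ^ j / j.factorial := by positivity
  have h2 : (0 : ℝ) < N.factorial := by positivity
  nlinarith

lemma le_gam (N : ℕ) {t : ℝ} (ht : 0 ≤ t) : t ^ (N + 1) * Real.exp (-t) ≤ (N + 1) * gam N t := by
  have h := Real.sum_le_exp_of_nonneg ht (N + 2)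
  rw [Finset.sum_range_succ _ (N + 1)] at h
  unfold gam
  have h2 : (0 : ℝ) < (N + 1).factorial := by positivity
  have h3 : Real.exp (-t) * Real.exp t = 1 := by rw [← Real.exp_add]; simp
  have h4 := mul_le_mul_of_nonneg_left h (Real.exp_pos (-t)).le
  rw [h3, mul_add] at h4
  have h5 : ((N + 1).factorial : ℝ) = (N + 1) * N.factorial := by
    rw [Nat.factorial_succ]; push_cast; ring
  rw [← mul_assoc, ← h5]
  have h6 : t ^ (N + 1) * Real.exp (-t) =
      (N + 1).factorial * (Real.exp (-t) * (t ^ (N + 1) / (N + 1).factorial)) := by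
    field_simp
  rw [h6]
  apply mul_le_mul_of_nonneg_left _ h2.le
  linarith

/-- smooth positive part -/
noncomputable def chi (δ s : ℝ) : ℝ := s * expNegInvGlue (s / δ)

lemma contDiff_chi (δ : ℝ) : ContDiff ℝ 1 (chi δ) := by
  unfold chi
  exact contDiff_id.mul ((expNegInvGlue.contDiff (n := 1)).comp (contDiff_id.div_const δ))

lemma chi_zero {δ s : ℝ} (hδ : 0 < δ) (hs : s ≤ 0) : chi δ s = 0 := by
  rw [chi, expNegInvGlue.zero_of_nonpos (div_nonpos_of_nonpos_of_nonneg hs hδ.le), mul_zero]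

lemma le_chi {δ : ℝ} (hδ : 0 < δ) (s : ℝ) : s - δ ≤ chi δ s := by
  rcases le_or_gt s 0 with hs | hs
  · rw [chi_zero hδ hs]; linarith
  · have hp : 0 < s / δ := div_pos hs hδ
    rw [chi, expNegInvGlue, if_neg (not_le.2 hp)]
    have := Real.add_one_le_exp (-(s / δ)⁻¹)
    have h2 : s * (-(s / δ)⁻¹ + 1) = s - δ := by field_simp; ring
    rw [← h2]
    exact mul_le_mul_of_nonneg_left this hs.le

lemma deriv_chi {δ : ℝ} (hδ : 0 < δ) (s : ℝ) :
    ∃ c, HasDerivAt (chi δ) c s ∧ 0 ≤ c ∧ c ≤ 1 := by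
  have h := expNegInvGlue.hasDerivAt_polynomial_eval_inv_mul 1 (s / δ)
  simp only [Polynomial.eval_one, one_mul, Polynomial.derivative_one, sub_zero, mul_one,
    Polynomial.eval_pow, Polynomial.eval_X] at h
  have h2 := (hasDerivAt_id s).mul (h.comp s ((hasDerivAt_id s).div_const δ))
  refine ⟨_, h2, ?_, ?_⟩
  · rcases le_or_gt s 0 with hs | hs
    · simp [expNegInvGlue.zero_of_nonpos (div_nonpos_of_nonpos_of_nonneg hs hδ.le)]
    · have := expNegInvGlue.nonneg (s / δ)
      simp only [Function.comp_apply, id]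
      positivity
  · rcases le_or_gt s 0 with hs | hs
    · simp [expNegInvGlue.zero_of_nonpos (div_nonpos_of_nonpos_of_nonneg hs hδ.le)]
    · have hp : 0 < s / δ := div_pos hs hδ
      simp only [Function.comp_apply, id]
      rw [expNegInvGlue, if_neg (not_le.2 hp)]
      have h3 := Real.add_one_le_exp ((s / δ)⁻¹)
      have h4 : Real.exp (-(s / δ)⁻¹) * Real.exp ((s / δ)⁻¹) = 1 := by rw [← Real.exp_add]; simp
      have h5 : 1 * Real.exp (-(s / δ)⁻¹) + s * ((s / δ)⁻¹ ^ 2 * Real.exp (-(s / δ)⁻¹) * (1 / δ)) =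
          Real.exp (-(s / δ)⁻¹) * ((s / δ)⁻¹ + 1) := by
        field_simp; ring
      rw [h5]
      exact (mul_le_mul_of_nonneg_left h3 (Real.exp_pos _).le).trans h4.le

/-- existence of the test function -/
lemma exists_theta (N : ℕ) {lam τ ε : ℝ} (hl : 0 < lam) (hτ : 0 < τ) (hε : 0 < ε) :
    ∃ θ : ℝ → ℝ, (∀ t, 0 ≤ t → ContDiffAt ℝ 1 θ t) ∧ (∀ t, 0 ≤ t → deriv θ t ≤ 0) ∧
      (∀ t, τ < t → θ t = 0) ∧ ∀ t, 0 ≤ t →
        lam ^ (N + 1) * Real.exp (-(lam * (t + ε))) - (N + 1) * (N.factorial / τ ^ (N + 1) + ε) ≤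
          ((N + 1 : ℕ) : ℝ) * θ t + t * deriv θ t := by
  set c : ℝ := N.factorial / τ ^ (N + 1) with hc
  set f : ℝ → ℝ := fun t => gam N (lam * (t + ε)) / (t + ε) ^ (N + 1) with hf
  have hfd : ∀ t, 0 ≤ t → ∃ f', HasDerivAt f f' t ∧ f' ≤ 0 ∧
      (N + 1) * f t + (t + ε) * f' = lam ^ (N + 1) * Real.exp (-(lam * (t + ε))) := by
    intro t ht
    have hs : 0 < t + ε := by linarith
    have h1 : HasDerivAt (fun t => lam * (t + ε)) lam t := by
      simpa using ((hasDerivAt_id t).add_const ε).const_mul lam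
    have h2 := (hasDerivAt_gam N (lam * (t + ε))).comp t h1
    have h3 : HasDerivAt (fun t => (t + ε) ^ (N + 1)) (((N + 1 : ℕ) : ℝ) * (t + ε) ^ N) t := by
      simpa using ((hasDerivAt_id t).add_const ε).fun_pow (N + 1)
    have h4 := h2.div h3 (by positivity)
    refine ⟨_, h4, ?_, ?_⟩
    · apply div_nonpos_of_nonpos_of_nonneg _ (by positivity)
      have h5 := le_gam N (t := lam * (t + ε)) (by positivity)
      have h6 := mul_le_mul_of_nonneg_right h5 (pow_pos hs N).le
      simp only [Function.comp_apply]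
      push_cast
      have e1 : (lam * (t + ε)) ^ N * Real.exp (-(lam * (t + ε))) * lam * (t + ε) ^ (N + 1) =
          (lam * (t + ε)) ^ (N + 1) * Real.exp (-(lam * (t + ε))) * (t + ε) ^ N := by ring
      rw [e1]; linarith
    · simp only [Function.comp_apply, hf, mul_pow]
      push_cast
      field_simp
      ring
  refine ⟨fun t => chi ε (f t - c), ?_, ?_, ?_, ?_⟩
  · intro t ht
    refine (contDiff_chi ε).contDiffAt.comp t (ContDiffAt.sub ?_ contDiffAt_const)
    have hs : 0 < t + ε := by linarith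
    refine ContDiffAt.div ((contDiff_gam N).contDiffAt.comp t (by fun_prop)) (by fun_prop) ?_
    positivity
  · intro t ht
    obtain ⟨f', h1, h2, -⟩ := hfd t ht
    obtain ⟨c', h3, h4, -⟩ := deriv_chi hε (f t - c)
    have := (h3.comp t (h1.sub_const c)).deriv
    rw [show (fun t => chi ε (f t - c)) = chi ε ∘ fun t => f t - c from rfl, this]
    exact mul_nonpos_of_nonneg_of_nonpos h4 h2
  · intro t ht
    apply chi_zero hε
    have hs : 0 < t + ε := by linarith
    have h1 := gam_le N (t := lam * (t + ε)) (by positivity)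
    have : f t ≤ c := by
      simp only [hf, hc]
      apply div_le_div₀ (by positivity) h1 (by positivity)
      exact pow_le_pow_left₀ hτ.le (by linarith) _
    linarith
  · intro t ht
    obtain ⟨f', h1, h2, h5⟩ := hfd t ht
    obtain ⟨c', h3, h4, h6⟩ := deriv_chi hε (f t - c)
    have := (h3.comp t (h1.sub_const c)).deriv
    rw [show (fun t => chi ε (f t - c)) = chi ε ∘ fun t => f t - c from rfl, this]
    simp only [Function.comp_apply]
    have h7 := le_chi hε (f t - c)
    have h8 : f' ≤ c' * f' := by nlinarith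
    have h9 : t * f' ≤ t * (c' * f') := mul_le_mul_of_nonneg_left h8 ht
    have h10 : ε * f' ≤ 0 := mul_nonpos_of_nonneg_of_nonpos hε.le h2
    push_cast
    have h11 : ((N : ℝ) + 1) * (f t - c - ε) ≤ (N + 1) * chi ε (f t - c) :=
      mul_le_mul_of_nonneg_left h7 (by positivity)
    rw [← h5]
    nlinarith

namespace Pot

variable {ι : Type} [Fintype ι] [DecidableEq ι] (P : Pot ι)

/-- the Monge-Ampere mass estimate -/
lemma ma_exp {N : ℕ} (a : ι → Fin (N + 1) → ℝ) {lam τ : ℝ} (hl : 0 < lam) (hτ : 0 < τ)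
    (hC : IsCompact (P.Sub a τ)) :
    ∫ p in P.Sub a τ, lam ^ (N + 1) * Real.exp (-(lam * P.Psi a p)) * P.dH a p ≤
      (N + 1).factorial / τ ^ (N + 1) * ∫ p in P.Sub a τ, P.dH a p := by
  have i1 : IntegrableOn (P.dH a) (P.Sub a τ) :=
    ContinuousOn.integrableOn_compact hC fun p hp => (P.continuousAt_dH a hp.1).continuousWithinAt
  have i2 : IntegrableOn (fun p => lam ^ (N + 1) * Real.exp (-(lam * P.Psi a p)) * P.dH a p)
      (P.Sub a τ) := by
    refine ContinuousOn.integrableOn_compact hC fun p hp => ContinuousAt.continuousWithinAt ?_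
    have h1 := (P.contDiffAt_Psi a hp.1).continuousAt
    have h2 := P.continuousAt_dH a hp.1
    fun_prop
  set I := ∫ p in P.Sub a τ, lam ^ (N + 1) * Real.exp (-(lam * P.Psi a p)) * P.dH a p
  set M := ∫ p in P.Sub a τ, P.dH a p
  have key : ∀ ε, 0 < ε → Real.exp (-(lam * ε)) * I ≤
      (N + 1) * (N.factorial / τ ^ (N + 1) + ε) * M := by
    intro ε hε
    obtain ⟨θ, h1, h2, h3, h4⟩ := exists_theta N hl hτ hε
    have h5 := P.ma_ineq a h1 h2 h3 hC
    have h6 : ∫ p in P.Sub a τ, (Real.exp (-(lam * ε)) *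
        (lam ^ (N + 1) * Real.exp (-(lam * P.Psi a p)) * P.dH a p) -
        (N + 1) * (N.factorial / τ ^ (N + 1) + ε) * P.dH a p) ≤ 0 := by
      refine le_trans (setIntegral_mono_on ((i2.const_mul _).sub (i1.const_mul _)) ?_
        hC.isClosed.measurableSet ?_) h5
      · apply ContinuousOn.integrableOn_compact hC
        intro p hp
        apply ContinuousAt.continuousWithinAt
        have g1 := (P.contDiffAt_Psi a hp.1).continuousAt
        have g2 := (h1 _ (P.Psi_nonneg a p))
        have g3 : ContinuousAt (deriv θ) (P.Psi a p) := by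
          have := (g2.fderiv_right (m := 0) (by simp)).continuousAt
          exact this.clm_apply continuousAt_const
        exact ((continuousAt_const.mul (g2.continuousAt.comp g1)).add (g1.mul (g3.comp g1))).mul
          (P.continuousAt_dH a hp.1)
      · intro p _
        have g1 := mul_le_mul_of_nonneg_right (h4 _ (P.Psi_nonneg a p)) (P.dH_nonneg a p)
        have e : Real.exp (-(lam * (P.Psi a p + ε))) =
            Real.exp (-(lam * ε)) * Real.exp (-(lam * P.Psi a p)) := by
          rw [← Real.exp_add]; congr 1; ring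
        rw [e] at g1
        linarith
    rw [integral_sub (i2.const_mul _) (i1.const_mul _), integral_const_mul,
      integral_const_mul] at h6
    linarith
  have t1 : Filter.Tendsto (fun ε => Real.exp (-(lam * ε)) * I) (nhdsWithin 0 (Ioi 0))
      (nhds (Real.exp (-(lam * 0)) * I)) :=
    (Continuous.tendsto (by fun_prop) 0).mono_left nhdsWithin_le_nhds
  have t2 : Filter.Tendsto (fun ε : ℝ => ((N : ℝ) + 1) * (N.factorial / τ ^ (N + 1) + ε) * M)
      (nhdsWithin 0 (Ioi 0)) (nhds ((N + 1) * (N.factorial / τ ^ (N + 1) + 0) * M)) :=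
    (Continuous.tendsto (by fun_prop) 0).mono_left nhdsWithin_le_nhds
  have := le_of_tendsto_of_tendsto t1 t2 (eventually_nhdsWithin_of_forall key)
  simp only [mul_zero, neg_zero, Real.exp_zero, one_mul, add_zero] at this
  rw [Nat.factorial_succ]
  push_cast
  refine this.trans (le_of_eq ?_)
  ring

end Pot

end Vale.Agent.P248
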