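import Vale.Agent.P248.Split

open Set Matrix MeasureTheory Metric

namespace Vale.Agent.P248

variable {n k l : ℕ}

/-- concatenation as a linear equivalence -/
def appL (k l : ℕ) : ((Fin k → ℝ) × (Fin l → ℝ)) ≃ₗ[ℝ] (Fin (k + l) → ℝ) :=
  { Fin.appendEquiv k l with
    map_add' := fun p q => by
      ext i
      refine Fin.addCases (fun i => ?_) (fun i => ?_) i <;> simp [Fin.appendEquiv]
    map_smul' := fun r p => by
      ext i
      refine Fin.addCases (fun i => ?_) (fun i => ?_) i <;> simp [Fin.appendEquiv] }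

lemma appL_apply (x : Fin k → ℝ) (y : Fin l → ℝ) : appL k l (x, y) = Fin.append x y := rfl

lemma appL_symm (x : Fin k → ℝ) (y : Fin l → ℝ) : (appL k l).symm (Fin.append x y) = (x, y) := by
  rw [← appL_apply, LinearEquiv.symm_apply_apply]

lemma exists_append (z : Fin (k + l) → ℝ) : ∃ x y, z = Fin.append x y :=
  ⟨_, _, ((appL k l).apply_symm_apply z).symm⟩

lemma dot_append (a x : Fin k → ℝ) (b y : Fin l → ℝ) :
    Fin.append a b ⬝ᵥ Fin.append x y = a ⬝ᵥ x + b ⬝ᵥ y := by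
  simp [dotProduct, Fin.sum_univ_add]

lemma mp_append : MeasurePreserving (fun p : (Fin k → ℝ) × (Fin l → ℝ) => Fin.append p.1 p.2)
    volume volume := by
  convert (volume_measurePreserving_piCongrLeft (fun _ : Fin (k + l) => ℝ) finSumFinEquiv).comp
    (volume_measurePreserving_sumPiEquivProdPi_symm (fun _ : Fin k ⊕ Fin l => ℝ)) using 1
  ext p i
  obtain ⟨j, rfl⟩ := finSumFinEquiv.surjective i
  rw [Function.comp_apply, MeasurableEquiv.coe_piCongrLeft, Equiv.piCongrLeft_apply_apply]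
  rcases j with j | j <;> simp [MeasurableEquiv.coe_sumPiEquivProdPi_symm]

/-- product -/
def PR (H₁ : Set (Fin k → ℝ)) (H₂ : Set (Fin l → ℝ)) : Set (Fin (k + l) → ℝ) :=
  {z | ∃ x ∈ H₁, ∃ y ∈ H₂, z = Fin.append x y}

/-- l1-sum -/
def SM (H₁ : Set (Fin k → ℝ)) (H₂ : Set (Fin l → ℝ)) : Set (Fin (k + l) → ℝ) :=
  convexHull ℝ ((fun x => Fin.append x (0 : Fin l → ℝ)) '' H₁ ∪
    (fun y => Fin.append (0 : Fin k → ℝ) y) '' H₂)

variable {K : Set (Fin n → ℝ)} {K₁ : Set (Fin k → ℝ)} {K₂ : Set (Fin l → ℝ)}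

lemma PR_eq : PR K₁ K₂ = appL k l '' (K₁ ×ˢ K₂) := by
  ext z
  exact ⟨fun ⟨x, hx, y, hy, h⟩ => ⟨(x, y), ⟨hx, hy⟩, h.symm⟩,
    fun ⟨p, hp, h⟩ => ⟨p.1, hp.1, p.2, hp.2, h.symm⟩⟩

lemma append_mem_PR {x : Fin k → ℝ} {y : Fin l → ℝ} : Fin.append x y ∈ PR K₁ K₂ ↔ x ∈ K₁ ∧ y ∈ K₂ := by
  rw [PR_eq, ← appL_apply, (appL k l).injective.mem_set_image, mem_prod]

lemma IsSymmBody.PR (h1 : IsSymmBody K₁) (h2 : IsSymmBody K₂) : IsSymmBody (PR K₁ K₂) := by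
  rw [PR_eq]
  refine ⟨(h1.1.prod h2.1).image (appL k l).toContinuousLinearEquiv.continuous,
    (h1.2.1.prod h2.2.1).linear_image (appL k l).toLinearMap, ?_, ?_⟩
  · have := (appL k l).toContinuousLinearEquiv.toHomeomorph.image_interior (K₁ ×ˢ K₂)
    refine Set.Nonempty.mono this.subset (Set.Nonempty.image _ ?_)
    rw [interior_prod_eq]; exact h1.2.2.1.prod h2.2.2.1
  · rintro _ ⟨p, hp, rfl⟩
    exact ⟨-p, ⟨h1.2.2.2 _ hp.1, h2.2.2.2 _ hp.2⟩, map_neg _ _⟩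

lemma vol_PR (h1 : IsSymmBody K₁) (h2 : IsSymmBody K₂) :
    (volume (PR K₁ K₂)).toReal = (volume K₁).toReal * (volume K₂).toReal := by
  rw [← mp_append.measure_preimage (h1.PR h2).1.measurableSet.nullMeasurableSet,
    ← ENNReal.toReal_mul, ← Measure.prod_prod, ← Measure.volume_eq_prod]
  congr 2
  ext p
  exact append_mem_PR

lemma polar_SM : polar (SM K₁ K₂) = PR (polar K₁) (polar K₂) := by
  ext z
  obtain ⟨a, b, rfl⟩ := exists_append z
  rw [append_mem_PR]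
  constructor
  · intro h
    refine ⟨mem_polar.2 fun x hx => ?_, mem_polar.2 fun y hy => ?_⟩
    · simpa [dot_append] using mem_polar.1 h _ (subset_convexHull ℝ _ (Or.inl ⟨x, hx, rfl⟩))
    · simpa [dot_append] using mem_polar.1 h _ (subset_convexHull ℝ _ (Or.inr ⟨y, hy, rfl⟩))
  · rintro ⟨h1, h2⟩
    have : SM K₁ K₂ ⊆ polar {Fin.append a b} := convexHull_min (by
      rintro _ (⟨x, hx, rfl⟩ | ⟨x, hx, rfl⟩) _ rfl
      · change Fin.append x 0 ⬝ᵥ Fin.append a b ≤ 1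
        simpa [dot_append, dotProduct_comm x] using mem_polar.1 h1 x hx
      · change Fin.append 0 x ⬝ᵥ Fin.append a b ≤ 1
        simpa [dot_append, dotProduct_comm x] using mem_polar.1 h2 x hx) (convex_polar _)
    intro x hx
    change Fin.append a b ⬝ᵥ x ≤ 1
    rw [dotProduct_comm]
    exact this hx _ rfl

lemma compact_hull_union {A B : Set (Fin n → ℝ)} (a1 : IsCompact A) (a2 : Convex ℝ A)
    (a3 : A.Nonempty) (b1 : IsCompact B) (b2 : Convex ℝ B) (b3 : B.Nonempty) :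
    IsCompact (convexHull ℝ (A ∪ B)) := by
  rw [a2.convexHull_union b2 a3 b3]
  convert ((isCompact_Icc (a := (0 : ℝ)) (b := 1)).prod (a1.prod b1)).image
    (f := fun p => (1 - p.1) • p.2.1 + p.1 • p.2.2) (by fun_prop) using 1
  ext x
  simp only [mem_convexJoin, segment_eq_image, mem_image, mem_prod, Prod.exists]
  exact ⟨fun ⟨a, ha, b, hb, t, ht, h⟩ => ⟨t, a, b, ⟨ht, ha, hb⟩, h⟩,
    fun ⟨t, a, b, ⟨ht, ha, hb⟩, h⟩ => ⟨a, ha, b, hb, t, ht, h⟩⟩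

lemma SM_eq (h1 : IsSymmBody K₁) (h2 : IsSymmBody K₂) :
    SM K₁ K₂ = polar (PR (polar K₁) (polar K₂)) := by
  rw [← polar_SM, polar_polar_of (K := SM K₁ K₂) (convex_convexHull ℝ _) _ _]
  · exact (compact_hull_union
      (h1.1.image ((appL k l).toLinearMap.comp (LinearMap.inl ℝ _ _)).continuous_of_finiteDimensional)
      (h1.2.1.linear_image ((appL k l).toLinearMap.comp (LinearMap.inl ℝ _ _)))
      ⟨_, 0, h1.zero_mem, rfl⟩
      (h2.1.image ((appL k l).toLinearMap.comp (LinearMap.inr ℝ _ _)).continuous_of_finiteDimensional)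
      (h2.2.1.linear_image ((appL k l).toLinearMap.comp (LinearMap.inr ℝ _ _)))
      ⟨_, 0, h2.zero_mem, rfl⟩).isClosed
  · exact subset_convexHull ℝ _ (Or.inl ⟨0, h1.zero_mem, (appL k l).map_zero⟩)

lemma IsSymmBody.SM (h1 : IsSymmBody K₁) (h2 : IsSymmBody K₂) : IsSymmBody (SM K₁ K₂) := by
  rw [SM_eq h1 h2]; exact (h1.polar.PR h2.polar).polar

/-- support function -/
noncomputable def hs (K : Set (Fin n → ℝ)) (a : Fin n → ℝ) : ℝ := sSup ((fun x => a ⬝ᵥ x) '' K)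

lemma le_hs (hK : IsSymmBody K) (a : Fin n → ℝ) {x : Fin n → ℝ} (hx : x ∈ K) : a ⬝ᵥ x ≤ hs K a :=
  le_csSup (hK.1.bddAbove_image (cont_dot continuous_const continuous_id).continuousOn) ⟨x, hx, rfl⟩

lemma hs_le (hK : IsSymmBody K) {a : Fin n → ℝ} {t : ℝ} (h : ∀ x ∈ K, a ⬝ᵥ x ≤ t) : hs K a ≤ t :=
  csSup_le ⟨_, 0, hK.zero_mem, rfl⟩ (by rintro _ ⟨x, hx, rfl⟩; exact h x hx)

lemma vol_polar_eq (hn : 1 ≤ n) (hK : IsSymmBody K) :
    (volume (polar K)).toReal * n.factorial = ∫ a, Real.exp (-hs K a) := by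
  have : Nonempty (Fin n) := ⟨⟨0, hn⟩⟩
  have neg : ∀ a, hs K (-a) ≤ hs K a := fun a => hs_le hK fun x hx => by
    simpa using le_hs hK a (hK.2.2.2 x hx)
  have h1 : hs K 0 = 0 := le_antisymm (hs_le hK (by simp)) (by simpa using le_hs hK 0 hK.zero_mem)
  have h2 : ∀ a, hs K (-a) = hs K a := fun a => le_antisymm (neg a) (by simpa using neg (-a))
  have h3 : ∀ a b, hs K (a + b) ≤ hs K a + hs K b := fun a b => hs_le hK fun x hx => by
    rw [add_dotProduct]; exact add_le_add (le_hs hK a hx) (le_hs hK b hx)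
  have h4 : ∀ {a}, hs K a = 0 → a = 0 := fun {a} h =>
    eq_zero_of_dot hK fun x hx => h ▸ le_hs hK a hx
  have h5 : ∀ (r : ℝ) a, hs K (r • a) ≤ |r| * hs K a := fun r a => hs_le hK fun x hx => by
    rw [smul_dotProduct, smul_eq_mul]
    have b1 := le_hs hK a hx
    have b2 := le_hs hK a (hK.2.2.2 x hx)
    rw [dotProduct_neg] at b2
    refine (le_abs_self _).trans ?_
    rw [abs_mul]
    exact mul_le_mul_of_nonneg_left (abs_le.2 ⟨by linarith, b1⟩) (abs_nonneg _)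
  have e : polar K = {a | hs K a ≤ 1} := by
    ext a
    exact ⟨fun h => hs_le hK h, fun h x hx => (le_hs hK a hx).trans h⟩
  rw [e, measure_le_eq_lt volume h1 h2 h3 h4 h5,
    measure_lt_one_eq_integral_div_gamma volume h1 h2 h3 h4 h5 one_pos, ENNReal.toReal_ofReal
      (div_nonneg (integral_nonneg fun _ => (Real.exp_pos _).le) (Real.Gamma_nonneg_of_nonneg
        (by positivity)))]
  simp only [Real.rpow_one, Module.finrank_fin_fun, div_one, Real.Gamma_nat_eq_factorial]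
  field_simp

lemma hs_PR (h1 : IsSymmBody K₁) (h2 : IsSymmBody K₂) (a : Fin k → ℝ) (b : Fin l → ℝ) :
    hs (PR K₁ K₂) (Fin.append a b) = hs K₁ a + hs K₂ b := by
  refine le_antisymm (hs_le (h1.PR h2) ?_) ?_
  · rintro _ ⟨x, hx, y, hy, rfl⟩
    rw [dot_append]; exact add_le_add (le_hs h1 a hx) (le_hs h2 b hy)
  · rw [← le_sub_iff_add_le]
    refine hs_le h1 fun x hx => ?_
    rw [le_sub_comm]
    refine hs_le h2 fun y hy => ?_
    have := le_hs (h1.PR h2) (Fin.append a b) ⟨x, hx, y, hy, rfl⟩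
    rw [dot_append] at this
    linarith

lemma vol_polar_PR (hk : 1 ≤ k) (hl : 1 ≤ l) (h1 : IsSymmBody K₁) (h2 : IsSymmBody K₂) :
    (volume (polar (PR K₁ K₂))).toReal * (k + l).factorial =
      (volume (polar K₁)).toReal * k.factorial * ((volume (polar K₂)).toReal * l.factorial) := by
  rw [vol_polar_eq (by omega) (h1.PR h2), vol_polar_eq hk h1, vol_polar_eq hl h2,
    ← integral_prod_mul, ← Measure.volume_eq_prod,
    ← mp_append.integral_comp (Fin.appendHomeomorph k l).measurableEmbedding]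
  congr 1
  ext p
  rw [hs_PR h1 h2, neg_add, Real.exp_add]

/-- normalized volume product -/
noncomputable def vq (K : Set (Fin n → ℝ)) : ℝ :=
  (volume K).toReal * (volume (polar K)).toReal * n.factorial

lemma vq_PR (hk : 1 ≤ k) (hl : 1 ≤ l) (h1 : IsSymmBody K₁) (h2 : IsSymmBody K₂) :
    vq (PR K₁ K₂) = vq K₁ * vq K₂ := by
  rw [vq, vq, vq, mul_assoc, vol_polar_PR hk hl h1 h2, vol_PR h1 h2]; ring

lemma vq_SM (hk : 1 ≤ k) (hl : 1 ≤ l) (h1 : IsSymmBody K₁) (h2 : IsSymmBody K₂) :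
    vq (SM K₁ K₂) = vq K₁ * vq K₂ := by
  have := vol_polar_PR hk hl h1.polar h2.polar
  rw [h1.polar_polar, h2.polar_polar, ← SM_eq h1 h2] at this
  rw [vq, vq, vq, polar_SM, vol_PR h1.polar h2.polar, mul_right_comm, this]; ring

lemma vq_image (T : (Fin n → ℝ) ≃ₗ[ℝ] (Fin n → ℝ)) (K : Set (Fin n → ℝ)) : vq (T '' K) = vq K := by
  have hd : LinearMap.det (T : (Fin n → ℝ) →ₗ[ℝ] (Fin n → ℝ)) ≠ 0 := T.isUnit_det'.ne_zero
  have e : polar (T '' K) = Matrix.toLin' (LinearMap.toMatrix' T.toLinearMap)ᵀ ⁻¹' polar K := by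
    ext y
    have : ∀ x, y ⬝ᵥ T x = Matrix.toLin' (LinearMap.toMatrix' T.toLinearMap)ᵀ y ⬝ᵥ x := fun x => by
      rw [Matrix.toLin'_apply, mulVec_transpose, ← dotProduct_mulVec, LinearMap.toMatrix'_mulVec]
      rfl
    simp only [mem_preimage, mem_polar, forall_mem_image, this]
  have e2 : LinearMap.det (Matrix.toLin' (LinearMap.toMatrix' T.toLinearMap)ᵀ) =
      LinearMap.det (T : (Fin n → ℝ) →ₗ[ℝ] (Fin n → ℝ)) := by
    rw [LinearMap.det_toLin', det_transpose, LinearMap.det_toMatrix']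
  have e3 := Measure.addHaar_image_linearMap volume T.toLinearMap K
  rw [vq, vq, e, Measure.addHaar_preimage_linearMap _ (e2 ▸ hd), e2]
  erw [e3]
  rw [ENNReal.toReal_mul, ENNReal.toReal_mul, ENNReal.toReal_ofReal (abs_nonneg _),
    ENNReal.toReal_ofReal (abs_nonneg _), abs_inv]
  have := abs_pos.2 hd
  field_simp

lemma seg_eq (a : ℝ) : {x : Fin 1 → ℝ | -a ≤ x 0 ∧ x 0 ≤ a} = Icc (fun _ => -a) (fun _ => a) := by
  ext x
  simp [Pi.le_def, Fin.forall_fin_one]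

lemma seg_body {a : ℝ} (ha : 0 < a) : IsSymmBody {x : Fin 1 → ℝ | -a ≤ x 0 ∧ x 0 ≤ a} := by
  refine ⟨seg_eq a ▸ isCompact_Icc, seg_eq a ▸ convex_Icc _ _, ⟨0, ?_⟩, fun x hx => ?_⟩
  · refine mem_interior_iff_mem_nhds.2 (Metric.mem_nhds_iff.2 ⟨a, ha, fun x hx => ?_⟩)
    have := (norm_le_pi_norm x 0).trans (mem_ball_zero_iff.1 hx).le
    exact abs_le.1 this
  · exact ⟨by simpa using hx.2, by simpa [neg_le] using hx.1⟩

lemma seg_polar {a : ℝ} (ha : 0 < a) : polar {x : Fin 1 → ℝ | -a ≤ x 0 ∧ x 0 ≤ a} =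
    {x : Fin 1 → ℝ | -a⁻¹ ≤ x 0 ∧ x 0 ≤ a⁻¹} := by
  ext y
  simp only [polar, Finset.univ_unique, Fin.default_eq_zero, Finset.sum_singleton, mem_ofPred_eq]
  constructor
  · intro h
    have h1 := h (fun _ => a) ⟨by linarith, le_rfl⟩
    have h2 := h (fun _ => -a) ⟨le_rfl, by linarith⟩
    rw [neg_le, ← one_div, le_div_iff₀ ha, le_div_iff₀ ha]
    constructor <;> linarith
  · rintro h x hx
    refine (le_abs_self _).trans ?_
    rw [abs_mul, ← inv_mul_cancel₀ ha.ne']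
    exact mul_le_mul (abs_le.2 h) (abs_le.2 hx) (abs_nonneg _) (by positivity)

lemma seg_vq {a : ℝ} (ha : 0 < a) : vq {x : Fin 1 → ℝ | -a ≤ x 0 ∧ x 0 ≤ a} = 4 ^ 1 := by
  have : 0 < a⁻¹ := by positivity
  rw [vq, seg_polar ha, seg_eq, seg_eq, Real.volume_Icc_pi_toReal (fun _ => by simp; linarith),
    Real.volume_Icc_pi_toReal (fun _ => by simp; linarith)]
  simp
  field_simp
  norm_num

lemma IsHanner.vq_eq {n : ℕ} {H : Set (Fin n → ℝ)} (h : IsHanner n H) :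
    1 ≤ n ∧ IsSymmBody H ∧ vq H = 4 ^ n := by
  induction h with
  | seg a ha => exact ⟨le_rfl, seg_body ha, seg_vq ha⟩
  | prod H₁ H₂ _ _ i1 i2 =>
    exact ⟨by omega, i1.2.1.PR i2.2.1, (vq_PR i1.1 i2.1 i1.2.1 i2.2.1).trans (by
      rw [i1.2.2, i2.2.2, pow_add])⟩
  | sum H₁ H₂ _ _ i1 i2 =>
    exact ⟨by omega, i1.2.1.SM i2.2.1, (vq_SM i1.1 i2.1 i1.2.1 i2.2.1).trans (by
      rw [i1.2.2, i2.2.2, pow_add])⟩

lemma body_one {K : Set (Fin 1 → ℝ)} (hK : IsSymmBody K) : IsHanner 1 K := by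
  obtain ⟨v, hv, hm⟩ := hK.1.exists_isMaxOn ⟨0, hK.zero_mem⟩ (continuous_apply 0).continuousOn
  have hm' : ∀ x ∈ K, x 0 ≤ v 0 := fun x hx => hm hx
  have hpos : 0 < v 0 := by
    obtain ⟨r, hr, h⟩ := hK.exists_ball
    have := hm' (fun _ => r / 2) (h (by
      rw [mem_ball_zero_iff, pi_norm_const, Real.norm_of_nonneg (by positivity)]; linarith))
    linarith
  convert IsHanner.seg (v 0) hpos using 1
  ext x
  refine ⟨fun hx => ⟨by simpa [neg_le] using hm' _ (hK.2.2.2 x hx), hm' x hx⟩, fun hx => ?_⟩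
  have hc := hK.2.1
  have := hc hv (hK.2.2.2 v hv) (a := (v 0 + x 0) / (2 * v 0)) (b := (v 0 - x 0) / (2 * v 0))
    (div_nonneg (by linarith [hx.1]) (by positivity))
    (div_nonneg (by linarith [hx.2]) (by positivity)) (by field_simp; ring)
  convert this using 1
  ext i
  rw [Subsingleton.elim i 0]
  simp
  field_simp
  ring

lemma sub_body (hK : IsSymmBody K) (f : (Fin k → ℝ) →ₗ[ℝ] (Fin n → ℝ))
    (hf : Function.Injective f) : IsSymmBody (f ⁻¹' K) := by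
  refine ⟨(f.isClosedEmbedding_of_injective (LinearMap.ker_eq_bot.2 hf)).isCompact_preimage hK.1,
    hK.2.1.linear_preimage f, ⟨0, ?_⟩, fun x hx => ?_⟩
  · obtain ⟨r, hr, h⟩ := hK.exists_ball
    refine mem_interior_iff_mem_nhds.2 (f.continuous_of_finiteDimensional.continuousAt ?_)
    rw [map_zero]
    exact Metric.mem_nhds_iff.2 ⟨r, hr, h⟩
  · rw [mem_preimage, map_neg]; exact hK.2.2.2 _ hx

lemma split_form (hK : IsSymmBody K) (h : Splits K) : ∃ k l, 1 ≤ k ∧ 1 ≤ l ∧ n = k + l ∧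
    ∃ (K₁ : Set (Fin k → ℝ)) (K₂ : Set (Fin l → ℝ)) (T : (Fin (k + l) → ℝ) ≃ₗ[ℝ] (Fin n → ℝ)),
      IsSymmBody K₁ ∧ IsSymmBody K₂ ∧ (K = T '' PR K₁ K₂ ∨ K = T '' SM K₁ K₂) := by
  obtain ⟨X, Y, hc, hX, hY, h⟩ := h
  obtain ⟨e1⟩ : Nonempty ((Fin (Module.finrank ℝ X) → ℝ) ≃ₗ[ℝ] X) :=
    ⟨(Module.finBasis ℝ X).equivFun.symm⟩
  obtain ⟨e2⟩ : Nonempty ((Fin (Module.finrank ℝ Y) → ℝ) ≃ₗ[ℝ] Y) :=
    ⟨(Module.finBasis ℝ Y).equivFun.symm⟩
  obtain ⟨T, hT⟩ : ∃ T : (Fin (Module.finrank ℝ X + Module.finrank ℝ Y) → ℝ) ≃ₗ[ℝ] (Fin n → ℝ),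
      ∀ x y, T (Fin.append x y) = (e1 x : Fin n → ℝ) + (e2 y : Fin n → ℝ) :=
    ⟨(appL _ _).symm ≪≫ₗ (e1.prodCongr e2) ≪≫ₗ Submodule.prodEquivOfIsCompl X Y hc, fun x y => by
      rw [LinearEquiv.trans_apply, LinearEquiv.trans_apply, appL_symm]; rfl⟩
  refine ⟨_, _, Nat.one_le_iff_ne_zero.2 fun h => hX (Submodule.finrank_eq_zero.1 h),
    Nat.one_le_iff_ne_zero.2 fun h => hY (Submodule.finrank_eq_zero.1 h),
    by rw [Submodule.finrank_add_eq_of_isCompl hc, Module.finrank_fin_fun],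
    (X.subtype.comp e1.toLinearMap) ⁻¹' K, (Y.subtype.comp e2.toLinearMap) ⁻¹' K, T,
    sub_body hK _ (X.subtype_injective.comp e1.injective),
    sub_body hK _ (Y.subtype_injective.comp e2.injective), h.imp (fun h => ?_) fun h => ?_⟩
  · refine h.trans ?_
    ext z
    constructor
    · rintro ⟨x, hx, y, hy, hx', hy', rfl⟩
      refine ⟨_, ⟨e1.symm ⟨x, hx'⟩, ?_, e2.symm ⟨y, hy'⟩, ?_, rfl⟩, ?_⟩
      · simpa using hx
      · simpa using hy
      · simp [hT]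
    · rintro ⟨_, ⟨x, hx, y, hy, rfl⟩, rfl⟩
      exact ⟨_, hx, _, hy, (e1 x).2, (e2 y).2, hT x y⟩
  · refine h.trans ?_
    rw [SM]
    erw [T.toLinearMap.image_convexHull]
    rw [image_union, image_image, image_image]
    congr 2
    · ext z
      constructor
      · rintro ⟨hz, hz'⟩
        exact ⟨e1.symm ⟨z, hz'⟩, by simpa using hz, by simp [hT]⟩
      · rintro ⟨x, hx, rfl⟩
        simp only [LinearEquiv.coe_coe, hT, map_zero, ZeroMemClass.coe_zero, add_zero]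
        exact ⟨hx, (e1 x).2⟩
    · ext z
      constructor
      · rintro ⟨hz, hz'⟩
        exact ⟨e2.symm ⟨z, hz'⟩, by simpa using hz, by simp [hT]⟩
      · rintro ⟨x, hx, rfl⟩
        simp only [LinearEquiv.coe_coe, hT, map_zero, ZeroMemClass.coe_zero, zero_add]
        exact ⟨hx, (e2 x).2⟩

lemma image_PR_SM (T₁ : (Fin k → ℝ) ≃ₗ[ℝ] (Fin k → ℝ)) (T₂ : (Fin l → ℝ) ≃ₗ[ℝ] (Fin l → ℝ)) :
    ∃ S : (Fin (k + l) → ℝ) ≃ₗ[ℝ] (Fin (k + l) → ℝ), ∀ H₁ H₂,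
      PR (T₁ '' H₁) (T₂ '' H₂) = S '' PR H₁ H₂ ∧ SM (T₁ '' H₁) (T₂ '' H₂) = S '' SM H₁ H₂ := by
  obtain ⟨S, hS⟩ : ∃ S : (Fin (k + l) → ℝ) ≃ₗ[ℝ] (Fin (k + l) → ℝ),
      ∀ x y, S (Fin.append x y) = Fin.append (T₁ x) (T₂ y) :=
    ⟨(appL _ _).symm ≪≫ₗ (T₁.prodCongr T₂) ≪≫ₗ appL _ _, fun x y => by
      rw [LinearEquiv.trans_apply, LinearEquiv.trans_apply, appL_symm]; rfl⟩
  refine ⟨S, fun H₁ H₂ => ⟨?_, ?_⟩⟩
  · ext z
    constructor
    · rintro ⟨_, ⟨x, hx, rfl⟩, _, ⟨y, hy, rfl⟩, rfl⟩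
      exact ⟨_, ⟨x, hx, y, hy, rfl⟩, hS x y⟩
    · rintro ⟨_, ⟨x, hx, y, hy, rfl⟩, rfl⟩
      exact ⟨_, ⟨x, hx, rfl⟩, _, ⟨y, hy, rfl⟩, hS x y⟩
  · rw [SM, SM]
    erw [S.toLinearMap.image_convexHull]
    simp only [image_union, image_image, LinearEquiv.coe_coe, hS, map_zero]

lemma vq_iff (K : Set (Fin n → ℝ)) :
    (volume K).toReal * (volume (polar K)).toReal = (4 : ℝ) ^ n / n.factorial ↔ vq K = 4 ^ n := by
  rw [vq, eq_div_iff (by positivity)]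

lemma vq_ge (hn : 1 ≤ n) (hK : IsSymmBody K) : 4 ^ n ≤ vq K := by
  have := mahler_ineq hn hK
  rwa [div_le_iff₀ (by positivity)] at this

theorem hanner_of_eq (n : ℕ) : 1 ≤ n → ∀ K : Set (Fin n → ℝ), IsSymmBody K → vq K = 4 ^ n →
    ∃ (H : Set (Fin n → ℝ)) (T : (Fin n → ℝ) ≃ₗ[ℝ] (Fin n → ℝ)), IsHanner n H ∧ K = T '' H := by
  induction n using Nat.strong_induction_on with
  | _ n ih =>
    intro hn K hK h
    rcases hn.eq_or_lt with rfl | hn2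
    · exact ⟨K, LinearEquiv.refl _ _, body_one hK, (image_id K).symm⟩
    obtain ⟨V, W, F⟩ := exists_frame hn hK ((vq_iff K).2 h)
    obtain ⟨k, l, hk, hl, rfl, K₁, K₂, T, b1, b2, e⟩ := split_form hK (F.splits hn2)
    have e' : vq K₁ * vq K₂ = 4 ^ k * 4 ^ l := by
      rw [← pow_add, ← h]
      rcases e with e | e <;> rw [e, vq_image]
      · exact (vq_PR hk hl b1 b2).symm
      · exact (vq_SM hk hl b1 b2).symm
    have g1 := vq_ge hk b1
    have g2 := vq_ge hl b2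
    have p1 : (0 : ℝ) < 4 ^ k := by positivity
    have p2 : (0 : ℝ) < 4 ^ l := by positivity
    obtain ⟨H₁, T₁, a1, rfl⟩ := ih k (by omega) hk K₁ b1 (by nlinarith)
    obtain ⟨H₂, T₂, a2, rfl⟩ := ih l (by omega) hl K₂ b2 (by nlinarith)
    obtain ⟨S, hS⟩ := image_PR_SM T₁ T₂
    rcases e with e | e
    · exact ⟨_, S ≪≫ₗ T, IsHanner.prod H₁ H₂ a1 a2, by
        rw [e, (hS H₁ H₂).1, image_image]; rfl⟩
    · exact ⟨_, S ≪≫ₗ T, IsHanner.sum H₁ H₂ a1 a2, by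
        rw [e, (hS H₁ H₂).2, image_image]; rfl⟩

theorem mahler_eq_iff (hn : 1 ≤ n) (hK : IsSymmBody K) :
    (volume K).toReal * (volume (polar K)).toReal = (4 : ℝ) ^ n / n.factorial ↔
      ∃ (H : Set (Fin n → ℝ)) (T : (Fin n → ℝ) ≃ₗ[ℝ] (Fin n → ℝ)), IsHanner n H ∧ K = T '' H := by
  rw [vq_iff]
  refine ⟨hanner_of_eq n hn K hK, ?_⟩
  rintro ⟨H, T, h, rfl⟩
  rw [vq_image, h.vq_eq.2.2]

end Vale.Agent.P248
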